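import Crest.Agent.X212.Shi84.An
import Crest.Agent.X212.Cmp73.Wq
import Crest.Agent.X212.Sob92.Iso

/-!
# CQ-INT (helper84): integrals and Fatou's lemma under bubbling
-/

set_option autoImplicit false
set_option linter.unusedSectionVars false
open Set Filter Topology Metric MeasureTheory
open scoped Manifold ContDiff NNReal InnerProductSpace

noncomputable section

namespace Crest.Agent.X212.Shi84

open Cmp73 An Loc66

variable {E : Type} [NormedAddCommGroup E] [NormedSpace ℝ E] [FiniteDimensional ℝ E]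
  [MeasurableSpace E] [BorelSpace E]
  {HM : Type} [TopologicalSpace HM] {I : ModelWithCorners ℝ E HM} [I.Boundaryless]
  {E₀ : Type} [NormedAddCommGroup E₀] [NormedSpace ℝ E₀] [FiniteDimensional ℝ E₀]
  [MeasurableSpace E₀] [BorelSpace E₀]
  {H₀ : Type} [TopologicalSpace H₀] {I₀ : ModelWithCorners ℝ E₀ H₀} [I₀.Boundaryless]
  {M : Type} [TopologicalSpace M] [ChartedSpace H₀ M] [IsManifold I₀ ∞ M] [MeasurableSpace M]
  [BorelSpace M] [T2Space M] [SecondCountableTopology M]
  {ι lam : Type} [Fintype ι] [Fintype lam] {α : Type}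
  {X : α → Type} [∀ n, TopologicalSpace (X n)] [∀ n, ChartedSpace HM (X n)]
  [∀ n, IsManifold I ∞ (X n)] [∀ n, MeasurableSpace (X n)] [∀ n, BorelSpace (X n)] [∀ n, T2Space (X n)]
  [∀ n, SecondCountableTopology (X n)] {g : Gs I I₀ M ι lam X}
  {N : Type} [NormedAddCommGroup N] [NormedSpace ℝ N] [FiniteDimensional ℝ N]

section one
variable {l : Filter α} [l.NeBot] {F : α → Fr I₀ M ι} {F₀ : Fr I₀ M ι}
  (h : FCv l univ F F₀) (hF : ∀ᶠ n in l, (F n).IsVol) (h₀ : F₀.IsVol) (hd : Module.finrank ℝ E₀ = 4)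
include h hF h₀ hd

theorem small_fin {Z : Set M} (hZ : Z.Finite) {η : ℝ} (η0 : 0 < η) : ∃ O, IsOpen O ∧ Z ⊆ O ∧
    F₀.μ O ≤ ENNReal.ofReal η ∧ ∀ᶠ n in l, (F n).μ O ≤ ENNReal.ofReal η := by
  induction Z, hZ using Set.Finite.induction_on generalizing η with
  | empty => exact ⟨∅, isOpen_empty, Subset.rfl, by simp, by simp⟩
  | @insert x s _ _ ih =>
    obtain ⟨O, o1, o2, o3, o4⟩ := ih (half_pos η0)
    obtain ⟨T, ⟨hx, o⟩, k⟩ := (nhds_basis_opens x).smallSets.eventually_iff.1
      ((vol_small h isOpen_univ hF h₀ hd (mem_univ x) (half_pos η0)).and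
        (vol_small (l := l) .fixed isOpen_univ (.of_forall fun _ => h₀) h₀ hd (mem_univ x) (half_pos η0)))
    obtain ⟨k1, k2⟩ := k (mem_powerset Subset.rfl)
    have e : ∀ μ : Measure M, μ T ≤ ENNReal.ofReal (η / 2) → μ O ≤ ENNReal.ofReal (η / 2) →
        μ (T ∪ O) ≤ ENNReal.ofReal η := fun μ a b => (measure_union_le _ _).trans ((add_le_add a b).trans_eq
      (by rw [← ENNReal.ofReal_add (by positivity) (by positivity), add_halves]))
    exact ⟨T ∪ O, o.union o1, insert_subset (.inl hx) (o2.trans subset_union_right),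
      e _ k2.exists.choose_spec o3, (k1.and o4).mono fun n hn => e _ hn.1 hn.2⟩

theorem null_ct {S : Set M} (hS : S.Countable) : F₀.μ S = 0 :=
  (measure_null_iff_singleton hS).2 fun x _ => nonpos_iff_eq_zero.1 (ENNReal.le_of_forall_pos_le_add fun ε ε0 _ =>
    let ⟨_, _, o2, o3, _⟩ := small_fin h hF h₀ hd (finite_singleton x) (η := ε) ε0
    ((measure_mono o2).trans o3).trans_eq (by simp))

/-- integrals of bounded functions over compact sets converge -/
theorem tend_bub {S K : Set M} (hS : IsClosed S) (hK : IsCompact K) (hf : (S ∩ K).Finite) {f : α → M → N}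
    {f' : M → N} (hc : Cv I₀ l Sᶜ f f') (hg : ContinuousOn f' K) {C : ℝ}
    (hb : ∀ᶠ n in l, ContinuousOn (f n) K ∧ ∀ x ∈ K, ‖f n x‖ ≤ C) :
    Tendsto (fun n => ∫ x in K, f n x ∂(F n).μ) l (𝓝 (∫ x in K, f' x ∂F₀.μ)) := by
  obtain ⟨C', hC⟩ := hK.exists_bound_of_continuousOn hg
  rw [Metric.tendsto_nhds]
  intro ε ε0
  have p : 0 < ε / 3 / (|C| + |C'| + 1) := by positivity
  obtain ⟨O, o1, o2, o3, o4⟩ := small_fin h hF h₀ hd hf p
  have k : ∀ (P : Fr I₀ M ι) (u : M → N), P.μ O ≤ ENNReal.ofReal (ε / 3 / (|C| + |C'| + 1)) → ContinuousOn u K →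
      (∀ x ∈ K, ‖u x‖ ≤ |C| + |C'| + 1) → dist (∫ x in K, u x ∂P.μ) (∫ x in K \ O, u x ∂P.μ) ≤ ε / 3 := by
    intro P u h1 h2 h3
    rw [← integral_inter_add_sdiff o1.measurableSet (h2.integrableOn_compact hK), dist_eq_norm, add_sub_cancel_right]
    refine (norm_setIntegral_le_of_norm_le_const ((measure_mono inter_subset_left).trans_lt hK.measure_lt_top)
      fun x hx => h3 x hx.1).trans ((mul_le_mul_of_nonneg_left (ENNReal.toReal_le_of_le_ofReal p.le
        ((measure_mono inter_subset_right).trans h1)) (by positivity)).trans_eq (by field_simp))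
  filter_upwards [Metric.tendsto_nhds.1 ((h.mono le_rfl (subset_univ _)).setIntegral hS.isOpen_compl hF h₀ hc
    (hK.diff o1) (fun x hx hs => hx.2 (o2 ⟨hs, hx.1⟩)) (hK.diff o1).measurableSet Subset.rfl) _
    (by positivity : 0 < ε / 3), o4, hb] with n h1 h2 h3
  have a := k _ _ h2 h3.1 fun x hx => by linarith [h3.2 x hx, le_abs_self C, abs_nonneg C']
  have b := k _ _ o3 hg fun x hx => by linarith [hC x hx, le_abs_self C', abs_nonneg C]
  rw [dist_comm] at b
  exact (dist_triangle4 _ _ _ _).trans_lt (by linarith)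

end one

include I₀ in
theorem closed_S {S : Set M} (h : ∀ K, IsCompact K → (S ∩ K).Finite) : IsClosed S ∧ S.Countable :=
  have := Manifold.locallyCompact_of_finiteDimensional (M := M) I₀
  closed_of_iso fun x => let ⟨K, hK, hx⟩ := exists_compact_mem_nhds x
    ((iso_of_fin (h K hK) x).and (nhdsWithin_le_nhds hx)).mono fun _ hy hs => hy.1 ⟨hs, hy.2⟩

theorem ofReal_int_le {μ : Measure M} {u : M → ℝ} (hu : Integrable u μ) :
    ENNReal.ofReal (∫ x, u x ∂μ) ≤ ∫⁻ x, ENNReal.ofReal (u x) ∂μ := by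
  rw [integral_eq_lintegral_pos_part_sub_lintegral_neg_part hu]
  exact (ENNReal.ofReal_le_ofReal (sub_le_self _ ENNReal.toReal_nonneg)).trans ENNReal.ofReal_toReal_le

/-- **INT** -/
theorem int (hg : g.OK) : g.Int := fun S _ hS f f' K C hK hP hf hf' hc h0 hb => by
  have s := ev_compact hK (p := fun n x => x ∈ (g.ψ n).source) fun x hx => hg.src x (hP hx)
  rw [← setIntegral_eq_integral_of_forall_compl_eq_zero h0]
  refine (tend_bub (fcv hg) (.of_forall fun n => (hg.H n).vol) hg.G₀.vol hg.h4 (closed_S (I₀ := I₀) hS).1 hK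
    (hS K hK) hc hf'.continuousOn (C := C) ?_).congr' ?_
  · filter_upwards [s, hb] with n h1 h2
    exact ⟨(hf n).comp_continuousOn ((g.ψ n).continuousOn.mono h1), fun x _ => h2.1 _⟩
  filter_upwards [s, hb] with n h1 h2
  have m := (g.ψ n).open_source.measurableSet
  rw [← setIntegral_eq_integral_of_forall_compl_eq_zero (s := (g.ψ n).target) fun y hy => h2.2 y
      (by rintro ⟨x, hx, rfl⟩; exact hy ((g.ψ n).map_source (h1 x hx))),
    ← ((hg.rel n).iso (hg.H n).vol (hg.G n).vol).μ,
    integral_map ((g.ψ n).continuousOn.aemeasurable m) (hf n).aestronglyMeasurable]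
  exact (setIntegral_eq_of_subset_of_forall_sdiff_eq_zero m h1 fun x hx => h2.2 _
    fun ⟨y, hy, e⟩ => hx.2 ((g.ψ n).injOn (h1 y hy) hx.1 e ▸ hy)).symm

/-- **FAT** -/
theorem fat (hg : g.OK) : g.Fat := fun S hP hS f f₁ f' C hc hl hb => by
  obtain ⟨c1, c2⟩ := closed_S (I₀ := I₀) hS
  have o := c1.isOpen_compl
  have hv : ∀ᶠ n in (g.l : Filter α), (g.H n).F.IsVol := .of_forall fun n => (hg.H n).vol
  have key : ∀ K, IsCompact K → K ⊆ Sᶜ → ∫⁻ x in K, ENNReal.ofReal (f' x) ∂g.G₀.F.μ ≤ C := by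
    intro K hK hKS
    have cf : ContinuousOn f' K := fun x hx => (hc.smoothAt o (hKS hx)).continuousAt.continuousWithinAt
    have hA := hK.of_isClosed_subset (cf.preimage_isClosed_of_isClosed hK.isClosed (isClosed_Ici (a := 0)))
      inter_subset_left
    have sA := inter_subset_left.trans (b := K) hKS (a := K ∩ f' ⁻¹' Ici 0)
    refine le_trans (b := ENNReal.ofReal (∫ x in K ∩ f' ⁻¹' Ici 0, f' x ∂g.G₀.F.μ)) ?_ (le_of_tendsto
      ((ENNReal.continuous_ofReal.tendsto _).comp (((fcv hg).mono le_rfl (subset_univ _)).setIntegral o hv hg.G₀.vol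
        hc hA sA hA.measurableSet Subset.rfl)) ?_)
    · rw [ofReal_integral_eq_lintegral_ofReal ((cf.mono inter_subset_left).integrableOn_compact hA)
        (ae_restrict_of_forall_mem hA.measurableSet fun x hx => hx.2), ← lintegral_indicator hK.measurableSet,
        ← lintegral_indicator hA.measurableSet]
      refine lintegral_mono (indicator_le fun x hx => ?_)
      rcases le_total 0 (f' x) with h | h
      · rw [indicator_of_mem (s := K ∩ f' ⁻¹' Ici 0) ⟨hx, h⟩]
      · exact (ENNReal.ofReal_eq_zero.2 h).trans_le bot_le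
    filter_upwards [hb, hc.mb.smooth hA sA, ev_compact hA (p := fun n x => x ∈ (g.ψ n).source ∧
      ENNReal.ofReal (f₁ n x) ≤ f n (g.ψ n x)) fun x hx => (hg.src x fun h => sA hx (hP h)).and (hl x (sA hx))]
      with n h1 h2 h3
    refine (ofReal_int_le (ContinuousOn.integrableOn_compact hA fun x hx =>
      (h2 x hx).continuousAt.continuousWithinAt)).trans ((setLIntegral_mono' hA.measurableSet fun x hx =>
        (h3 x hx).2).trans ((lintegral_mono_set fun x hx => (h3 x hx).1).trans ?_))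
    rw [← (g.ψ n).symm_target, ← (Sob92.iso_symm ((hg.rel n).iso (hg.H n).vol (hg.G n).vol)).μ]
    refine (lintegral_map_le _ _).trans ((setLIntegral_mono' (g.ψ n).open_target.measurableSet fun y hy => ?_).trans
      ((setLIntegral_le_lintegral _ _).trans h1))
    rw [(g.ψ n).right_inv hy]
  have := Manifold.locallyCompact_of_finiteDimensional (M := M) I₀
  have := o.locallyCompactSpace
  have e : Sᶜ = ⋃ j, Subtype.val '' compactCovering ↥Sᶜ j := by
    rw [← image_iUnion, iUnion_compactCovering, image_univ, Subtype.range_coe]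
  rw [← Measure.restrict_eq_self_of_ae_mem (s := Sᶜ) (compl_mem_ae_iff.2 (null_ct (fcv hg) hv hg.G₀.vol hg.h4 c2)), e,
    setLIntegral_iUnion_of_directed _ (Monotone.directed_le fun _ _ h => image_mono (compactCovering_subset _ h))]
  exact iSup_le fun j => key _ ((isCompact_compactCovering _ j).image continuous_subtype_val)
    (Subtype.coe_image_subset _ _)

end Crest.Agent.X212.Shi84

end
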