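import Crest.Agent.X212.Cmp73.Wq
import Crest.Agent.X212.Mp86.Res

/-!
# CQ-UNQ (helper84): uniqueness for the resolvent equation in weighted `L⁴`
-/

set_option autoImplicit false
set_option linter.unusedSectionVars false
open Set Filter Topology MeasureTheory
open scoped Manifold ContDiff InnerProductSpace

noncomputable section

namespace Crest.Agent.X212.Shi84

open Cmp73 An Mp86

variable {E : Type} [NormedAddCommGroup E] [NormedSpace ℝ E] [FiniteDimensional ℝ E]
  [MeasurableSpace E] [BorelSpace E]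
  {HM : Type} [TopologicalSpace HM] {I : ModelWithCorners ℝ E HM} [I.Boundaryless]
  {M : Type} [TopologicalSpace M] [ChartedSpace HM M] [IsManifold I ∞ M]
  [MeasurableSpace M] [BorelSpace M] [T2Space M] [SecondCountableTopology M] {ι : Type} [Fintype ι]
  {F : Fr I M ι} {C : ℕ → ℝ} {w f : M → ℝ}

theorem cacc (hw : Wg F w) (sf : Sm I f) (f0 : ∀ x, 0 ≤ f x) (hL : ∀ x, 2 * f x ≤ Lop I F.e F.dv f x) {χ : M → ℝ}
    (hχ : Sm I χ) (hc : HasCompactSupport χ) :
    ∫ x, (w x ^ 2 * f x) ^ 2 * (3 / 2 * χ x ^ 2 - 2 * ∑ a, F.D a χ x ^ 2) ∂F.μ ≤ 0 := by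
  have s1 : Sm I fun x => w x * w x := hw.sm.mul hw.sm
  have s2 : Sm I fun x => χ x * (w x * w x) := hχ.mul s1
  have s3 : Sm I fun x => χ x * (w x * w x) * (χ x * (w x * w x)) := s2.mul s2
  have s4 : Sm I fun x => χ x * (w x * w x) * (χ x * (w x * w x)) * f x := s3.mul sf
  have hX := fun a => s4.mul (F.sm_D sf a)
  have hXc : ∀ a, HasCompactSupport fun x => χ x * (w x * w x) * (χ x * (w x * w x)) * f x * F.D a f x := fun a =>
    hc.mul_right.mul_right.mul_right.mul_right
  have md := fun {u : M → ℝ} (h : Sm I u) x => (cm1 h x).md le_rfl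
  have c1 := fun a => (F.sm_D hχ a).continuous
  have c2 := hχ.continuous
  have c3 := hw.sm.continuous
  have c4 := sf.continuous
  rw [← Wz78.integral_dvg (F := F) hX hXc]
  refine integral_mono (Continuous.integrable_of_hasCompactSupport (by fun_prop) (.intro hc fun x hx => ?_))
    (Wz78.integ_dvg (F := F) hX hXc) fun x => ?_
  · simp [image_eq_zero_of_notMem_tsupport hx,
      fun a => image_eq_zero_of_notMem_tsupport fun h : x ∈ tsupport (F.D a χ) => hx (F.tsupport_D χ a h)]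
  have e : Wz78.dvg I F.e F.dv (fun a x => χ x * (w x * w x) * (χ x * (w x * w x)) * f x * F.D a f x) x =
      χ x ^ 2 * w x ^ 4 * f x * Lop I F.e F.dv f x + ∑ a, (2 * (χ x * w x ^ 2) * (F.D a χ x * w x ^ 2 +
        2 * χ x * w x * F.D a w x) * f x + χ x ^ 2 * w x ^ 4 * F.D a f x) * F.D a f x := by
    unfold Wz78.dvg Lop
    rw [Finset.mul_sum, ← Finset.sum_add_distrib]
    refine Finset.sum_congr rfl fun a _ => ?_
    rw [dv_mul (md s4 x) (md (F.sm_D sf a) x), dv_mul (md s3 x) (md sf x), dv_mul (md s2 x) (md s2 x),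
      dv_mul (md hχ x) (md s1 x), dv_mul (md hw.sm x) (md hw.sm x)]
    simp only [Pre.D, smul_eq_mul]; ring
  have k : ∑ a, -(f x ^ 2 * (2 * w x ^ 4 * F.D a χ x ^ 2 + 8 * χ x ^ 2 * w x ^ 2 * F.D a w x ^ 2)) ≤
      ∑ a, (2 * (χ x * w x ^ 2) * (F.D a χ x * w x ^ 2 + 2 * χ x * w x * F.D a w x) * f x +
        χ x ^ 2 * w x ^ 4 * F.D a f x) * F.D a f x := Finset.sum_le_sum fun a _ => by
    nlinarith [sq_nonneg (χ x * w x ^ 2 * F.D a f x + f x * (F.D a χ x * w x ^ 2 + 2 * χ x * w x * F.D a w x)),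
      sq_nonneg (f x * (F.D a χ x * w x ^ 2 - 2 * χ x * w x * F.D a w x))]
  simp only [Finset.sum_neg_distrib, ← Finset.mul_sum, Finset.sum_add_distrib] at k
  refine le_of_le_of_eq ?_ e.symm
  beta_reduce
  nlinarith [mul_le_mul_of_nonneg_left (hL x) (by have := f0 x; positivity : 0 ≤ χ x ^ 2 * w x ^ 4 * f x),
    mul_le_mul_of_nonneg_left (hw.gr x) (by positivity : 0 ≤ f x ^ 2 * χ x ^ 2 * w x ^ 2)]

/-- **UNQ** -/
theorem unq (h : F.Tame C) : Unq F := fun κ _ A w e hA hw he h0 hi => by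
  have sf : Sm I fun x => ‖e x‖ ^ 2 := fun x => cm_normSq (he x)
  have c3 := hw.sm.continuous
  have c4 := he.continuous
  have gc : Continuous fun x => (w x ^ 2 * ‖e x‖ ^ 2) ^ 2 := by fun_prop
  have gi : Integrable (fun x => (w x ^ 2 * ‖e x‖ ^ 2) ^ 2) F.μ :=
    ⟨gc.aestronglyMeasurable, (lintegral_congr fun x => by
      rw [← ofReal_norm, ← ofReal_norm, ← ENNReal.ofReal_pow (norm_nonneg _), norm_smul,
        Real.norm_of_nonneg (by positivity), Real.norm_of_nonneg (hw.pos x).le]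
      congr 1; ring).trans_lt hi⟩
  have := Manifold.locallyCompact_of_finiteDimensional (M := M) I
  let K := CompactExhaustion.choice M
  choose χ k1 k2 k3 k4 using fun j => h.exh _ (K.isCompact j)
  have t := tendsto_integral_of_dominated_convergence (μ := F.μ) (F := fun j x => (w x ^ 2 * ‖e x‖ ^ 2) ^ 2 *
    (3 / 2 * χ j x ^ 2 - 2 * ∑ a, F.D a (χ j) x ^ 2)) (f := fun x => (w x ^ 2 * ‖e x‖ ^ 2) ^ 2 * (3 / 2)) _
    (fun j => ?_) (gi.mul_const (3 / 2 + 2 * ∑ _ : ι, C 1 ^ 2)) (fun j => .of_forall fun x => ?_)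
    (.of_forall fun x => tendsto_const_nhds.congr' ?_)
  · have := le_of_tendsto' t fun j => cacc hw sf (fun _ => by positivity) (fun x => ?_) (k1 j).1 (k2 j)
    · funext x
      by_contra hx
      refine this.not_gt (integral_pos_of_integrable_nonneg_nonzero (x := x) (by fun_prop) (gi.mul_const _)
        (fun _ => by positivity) ?_)
      have := hw.pos x
      have := norm_pos_iff.2 hx
      positivity
    rw [Lop_normSq (vf F.toPre x) (hA.mc x).sm (hA.mc x).sk (cm2 he x), LA_eq_lap,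
      ← eq_neg_of_add_eq_zero_left (h0 x), real_inner_self_eq_norm_sq]
    exact le_add_of_nonneg_right (by positivity)
  · have c1 := fun a => (F.sm_D (k1 j).1 a).continuous
    have c2 := (k1 j).1.continuous
    exact Continuous.aestronglyMeasurable (by fun_prop)
  · rw [norm_mul, Real.norm_of_nonneg (by positivity)]
    refine mul_le_mul_of_nonneg_left (abs_le.2 ?_) (by positivity)
    have a1 : ∑ a, F.D a (χ j) x ^ 2 ≤ ∑ _ : ι, C 1 ^ 2 := Finset.sum_le_sum fun a _ =>
      sq_le_sq.2 (((k1 j).2 1 [a] le_rfl x).trans (le_abs_self _))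
    have a2 : 0 ≤ ∑ a, F.D a (χ j) x ^ 2 := by positivity
    constructor <;> nlinarith [k3 j x]
  · filter_upwards [eventually_ge_atTop (K.find x + 1)] with j hj
    have e : χ j =ᶠ[𝓝 x] fun _ => 1 := mem_of_superset
      (mem_interior_iff_mem_nhds.1 (K.subset_interior hj (K.mem_find x))) (k4 j)
    simp [Pre.D, dv_congr e, e.eq_of_nhds, dv_const]

end Crest.Agent.X212.Shi84

end
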