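import Crest.Agent.X212.Cmp73.Core
import Crest.Agent.X212.Mp86.NkE
import Crest.Agent.X212.Mp86.C0G

/-!
# NC, BF (helper84): dominated densities do not concentrate; bounded limit curvature
-/

set_option autoImplicit false
set_option linter.unusedSectionVars false
open Set Filter Topology Metric MeasureTheory
open scoped Manifold ContDiff NNReal InnerProductSpace ENNReal

noncomputable section

namespace Crest.Agent.X212.Shi84

open Cmp73 An Mp86 Loc66

variable {E : Type} [NormedAddCommGroup E] [NormedSpace ℝ E] [FiniteDimensional ℝ E]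
  [MeasurableSpace E] [BorelSpace E]
  {HM : Type} [TopologicalSpace HM] {I : ModelWithCorners ℝ E HM} [I.Boundaryless]
  {E₀ : Type} [NormedAddCommGroup E₀] [NormedSpace ℝ E₀] [FiniteDimensional ℝ E₀]
  [MeasurableSpace E₀] [BorelSpace E₀]
  {H₀ : Type} [TopologicalSpace H₀] {I₀ : ModelWithCorners ℝ E₀ H₀} [I₀.Boundaryless]
  {M : Type} [TopologicalSpace M] [ChartedSpace H₀ M] [IsManifold I₀ ∞ M] [MeasurableSpace M]
  [BorelSpace M] [T2Space M] [SecondCountableTopology M]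
  {ι lam : Type} [Fintype ι] [Fintype lam] {α : Type}

section one
variable {F : Fr I₀ M ι} {β : ℝ} {f ζ : M → ℝ}

theorem dom_test (hf : Dom F β f) (f0 : ∀ x, 0 ≤ f x) (hζ : Sm I₀ ζ) (hc : HasCompactSupport ζ) :
    ∫⁻ x in {x | 1 / 2 ≤ ζ x ^ 2}, ENNReal.ofReal (f x) ∂F.μ ≤
      ENNReal.ofReal ((1 + β) ^ 2 * ∫ x, (ζ x ^ 2 + ∑ a, F.D a ζ x ^ 2) ∂F.μ) := by
  obtain ⟨h, sh, k⟩ := hf
  have s1 : Sm I₀ fun x => ζ x * ζ x := hζ.mul hζ
  have s2 : Sm I₀ fun x => 1 + h x := contMDiff_const.add sh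
  have s3 : Sm I₀ fun x => ζ x * ζ x * (1 + h x) := s1.mul s2
  have hX := fun a => s3.mul (F.sm_D sh a)
  have hXc : ∀ a, HasCompactSupport fun x => ζ x * ζ x * (1 + h x) * F.D a h x := fun a =>
    hc.mul_right.mul_right.mul_right
  have md := fun {u : M → ℝ} (h : Sm I₀ u) x => (cm1 h x).md le_rfl
  have c1 := fun a => (F.sm_D hζ a).continuous
  have c2 := hζ.continuous
  have i1 : Integrable (fun x => ζ x ^ 2 + ∑ a, F.D a ζ x ^ 2) F.μ :=
    Continuous.integrable_of_hasCompactSupport (by fun_prop) (.intro hc fun x hx => by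
      simp [image_eq_zero_of_notMem_tsupport hx,
        fun a => image_eq_zero_of_notMem_tsupport fun h : x ∈ tsupport (F.D a ζ) => hx (F.tsupport_D ζ a h)])
  have i2 := (Wz78.integ_dvg (F := F) hX hXc).add (i1.const_mul ((1 + β) ^ 2))
  have key : ∀ x, 2 * ζ x ^ 2 * f x ≤ Wz78.dvg I₀ F.e F.dv (fun a x => ζ x * ζ x * (1 + h x) * F.D a h x) x +
      (1 + β) ^ 2 * (ζ x ^ 2 + ∑ a, F.D a ζ x ^ 2) := fun x => by
    obtain ⟨k1, k2, k3⟩ := k x
    have e : Wz78.dvg I₀ F.e F.dv (fun a x => ζ x * ζ x * (1 + h x) * F.D a h x) x =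
        ζ x ^ 2 * (1 + h x) * Lop I₀ F.e F.dv h x +
          ∑ a, (2 * ζ x * F.D a ζ x * (1 + h x) + ζ x ^ 2 * F.D a h x) * F.D a h x := by
      unfold Wz78.dvg Lop
      rw [Finset.mul_sum, ← Finset.sum_add_distrib]
      refine Finset.sum_congr rfl fun a _ => ?_
      rw [dv_mul (md s3 x) (md (F.sm_D sh a) x), dv_mul (md s1 x) (md s2 x), dv_mul (md hζ x) (md hζ x),
        dv_add mdifferentiableAt_const (md sh x), dv_const]
      simp only [Pre.D, smul_eq_mul]; ring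
    have k4 : ∑ a, -((1 + β) ^ 2 * F.D a ζ x ^ 2) ≤
        ∑ a, (2 * ζ x * F.D a ζ x * (1 + h x) + ζ x ^ 2 * F.D a h x) * F.D a h x := Finset.sum_le_sum fun a _ => by
      nlinarith [sq_nonneg (ζ x * F.D a h x + (1 + h x) * F.D a ζ x), mul_le_mul_of_nonneg_right
        (pow_le_pow_left₀ (by linarith) (by linarith : 1 + h x ≤ 1 + β) 2) (sq_nonneg (F.D a ζ x))]
    rw [Finset.sum_neg_distrib, ← Finset.mul_sum] at k4
    have k5 : 2 * f x - (1 + β) ^ 2 ≤ (1 + h x) * Lop I₀ F.e F.dv h x := by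
      nlinarith [mul_nonneg k1 (by linarith [f0 x] : 0 ≤ Lop I₀ F.e F.dv h x + β)]
    rw [e]
    nlinarith [mul_le_mul_of_nonneg_left k5 (sq_nonneg (ζ x))]
  refine (setLIntegral_mono' (isClosed_le continuous_const (by fun_prop)).measurableSet fun x hx =>
    ENNReal.ofReal_le_ofReal ((le_mul_of_one_le_left (f0 x) (by linarith [mem_ofPred.1 hx])).trans (key x))).trans
      ((setLIntegral_le_lintegral _ _).trans_eq ?_)
  refine (ofReal_integral_eq_lintegral_ofReal i2 (.of_forall fun x => le_trans ?_ (key x))).symm.trans ?_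
  · have := f0 x; positivity
  · rw [Pi.add_def, integral_add (Wz78.integ_dvg (F := F) hX hXc) (i1.const_mul _), Wz78.integral_dvg hX hXc, zero_add,
      integral_const_mul]

variable {κ : OpenPartialHomeomorph M E} {T : Set E} {K B s V : ℝ} {φ : E → ℝ} {z : E}

theorem dom_ball (h : Ch I₀ F.e F.μ κ T K) (hφ : Bmp φ B) (s0 : 0 < s) (s1 : s ≤ 1) (hb : closedBall z s ⊆ T)
    (hf : Dom F β f) (f0 : ∀ x, 0 ≤ f x) (V0 : 0 ≤ V)
    (hV : F.μ (κ.symm '' closedBall z s) ≤ ENNReal.ofReal (V * s ^ 4)) :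
    ∫⁻ x in κ.source ∩ {x | 1 / 2 ≤ cut φ κ z s x ^ 2}, ENNReal.ofReal (f x) ∂F.μ ≤
      ENNReal.ofReal ((1 + β) ^ 2 * ((1 + Fintype.card ι * (B * K) ^ 2) * V) * s ^ 2) := by
  have := FiniteDimensional.proper_real E
  have hK := ch_cpt h hb
  set ζ := κ.source.indicator (cut φ κ z s)
  have e0 : ∀ x ∉ κ.symm '' closedBall z s, ζ =ᶠ[𝓝 x] fun _ => 0 := fun x hx =>
    (hK.isClosed.isOpen_compl.eventually_mem hx).mono fun y hy => by_contra fun h0 => by
      have h1 := mem_of_indicator_ne_zero h0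
      rw [show ζ y = _ from indicator_of_mem h1 _] at h0
      have := hφ.sup _ h0
      rw [norm_smul, norm_inv, Real.norm_of_nonneg s0.le, inv_mul_lt_iff₀ s0, mul_one] at this
      exact hy ⟨_, mem_closedBall_iff_norm.2 this.le, κ.left_inv h1⟩
  have e1 : ∀ x ∈ κ.source, ζ =ᶠ[𝓝 x] cut φ κ z s := fun x hx =>
    (κ.open_source.eventually_mem hx).mono fun y hy => indicator_of_mem hy _
  have e2 : κ.symm '' closedBall z s ⊆ κ.source := by rintro _ ⟨y, hy, rfl⟩; exact κ.map_target (h.tgt (hb hy))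
  have sζ : Sm I₀ ζ := fun x => by
    by_cases hx : x ∈ κ.symm '' closedBall z s
    · exact (hφ.b1.sm.contDiffAt.comp_contMDiffAt ((contMDiffAt_const (I' := 𝓘(ℝ, ℝ))).smul
        ((h.sm.contMDiffAt (κ.open_source.mem_nhds (e2 hx))).sub contMDiffAt_const))).congr_of_eventuallyEq
          (e1 x (e2 hx))
    · exact contMDiffAt_const.congr_of_eventuallyEq (e0 x hx)
  refine (lintegral_mono_set fun x hx => ?_).trans ((dom_test hf f0 sζ (.intro hK fun x hx =>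
    (e0 x hx).eq_of_nhds)).trans (ENNReal.ofReal_le_ofReal ?_))
  · rw [mem_ofPred, (e1 x hx.1).eq_of_nhds]; exact hx.2
  rw [mul_assoc, ← setIntegral_eq_integral_of_forall_compl_eq_zero (s := κ.symm '' closedBall z s) fun x hx => by
    simp [Pre.D, dv_congr (e0 x hx), (e0 x hx).eq_of_nhds, dv_const]]
  have e : (1 + Fintype.card ι * (B * K) ^ 2) / s ^ 2 * (V * s ^ 4) =
    (1 + Fintype.card ι * (B * K) ^ 2) * V * s ^ 2 := by field_simp
  refine mul_le_mul_of_nonneg_left ((Real.le_norm_self _).trans ((norm_setIntegral_le_of_norm_le_const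
    hK.measure_lt_top ?_).trans ((mul_le_mul_of_nonneg_left (ENNReal.toReal_le_of_le_ofReal (by positivity) hV)
      (by positivity)).trans_eq e))) (sq_nonneg _)
  rintro _ ⟨y, hy, rfl⟩
  have m := e1 _ (e2 ⟨y, hy, rfl⟩)
  rw [Real.norm_of_nonneg (by positivity), le_div_iff₀ (by positivity), add_mul, Finset.sum_mul, ← nsmul_eq_mul]
  refine add_le_add ?_ (Finset.sum_le_card_nsmul _ _ _ fun a _ => ?_)
  · rw [m.eq_of_nhds, ← mul_pow, sq_le_one_iff_abs_le_one, abs_mul, abs_of_pos s0]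
    exact mul_le_one₀ (hφ.le _) s0.le s1
  · rw [Pre.D_def, dv_congr m, ← mul_pow, ← sq_abs, abs_mul, abs_of_pos s0, mul_comm]
    exact pow_le_pow_left₀ (by positivity) (cut_d1 h hφ.b1 s0 (hb hy) a) 2

/-- volumes of small balls from above -/
theorem vol_up {l : Filter α} [l.NeBot] {F : α → Fr I₀ M ι} {F₀ : Fr I₀ M ι} (h : FCv l univ F F₀)
    (hF : ∀ᶠ n in l, (F n).IsVol) (h₀ : F₀.IsVol) (hd : Module.finrank ℝ E₀ = 4) (x : M) :
    ∃ V δ, 0 ≤ V ∧ 0 < δ ∧ ∀ᶠ n in l, ∀ s, 0 < s → s ≤ δ →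
      (F n).μ ((ch0 I₀ x).symm '' ball (ch0 I₀ x x) s) ≤ ENNReal.ofReal (V * s ^ 4) := by
  set φ := ch0 I₀ x
  have hm := ch0_mem (I := I₀) x
  obtain ⟨c, c0, k4⟩ := vol_two F₀.toPre hd x
  have k5 : ∀ᶠ q in l ×ˢ 𝓝 x, wq (F q.1) F₀ q.2 ≤ 2 :=
    (((h.wq isOpen_univ).mb 1 x trivial).tendsto ((h.wq isOpen_univ).pt x trivial)).eventually
      (ge_mem_nhds one_lt_two)
  obtain ⟨A, hA, T, hT, k5⟩ := eventually_prod_iff.1 k5
  obtain ⟨δ, δ0, k8⟩ := nhds_basis_ball.smallSets.eventually_iff.1 (k4.and (eventually_smallSets_subset.2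
    (inter_mem (φ.tendsto_symm hm hT) (φ.open_target.mem_nhds (φ.map_source hm)))))
  obtain ⟨k8, k9⟩ := k8 (mem_powerset Subset.rfl)
  refine ⟨2 * (4 * c), δ, by positivity, δ0, ?_⟩
  filter_upwards [hA, hF] with n hn hv s s0 s2
  have sb : ball (φ x) s ⊆ ball (φ x) δ := ball_subset_ball s2
  have o := φ.symm.isOpen_image_of_subset_source isOpen_ball fun y hy => (k9 (sb hy)).2
  rw [Met55.vol_eq_wt h₀ hv (sm_wq (F n) F₀).continuous fun x =>
    (div_mul_cancel₀ _ (Met55.pre_sp F₀.toPre x).rjb_pos.ne').symm, withDensity_apply _ o.measurableSet]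
  refine (setLIntegral_mono' o.measurableSet (g := fun _ => ENNReal.ofReal 2) ?_).trans ?_
  · rintro _ ⟨y, hy, rfl⟩
    exact ENNReal.ofReal_le_ofReal (k5 hn (k9 (sb hy)).1)
  · rw [setLIntegral_const, mul_assoc, ENNReal.ofReal_mul zero_le_two]
    exact mul_le_mul_right (k8 _ s s0 sb).2 _

/-- the self-dual curvature of a solution is dominated -/
theorem dom_p2 {r m : ℕ} {B : Base M ι lam} {G : Geo I₀ M ι lam} {c : Cfg M ι lam r} {τ : Pt M ι lam r m}
    {w : M → M → ℝ} {K ε R σ : ℝ} (hB : B.OK I₀) (h : c.Sol B G τ) (hτ : τ.Bd B G w K ε R) (hσ : c.Le G.F w σ) :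
    Dom G.F (2 * (32 * σ ^ 2 + 2 * (ε * σ + R) ^ 2) + 2 * (ε * σ + R))
      fun x => ‖c.m.p2 B x (c.m.Fg G.F c.W x)‖ ^ 2 := by
  obtain ⟨g, g1, g2⟩ := hτ.C c σ h.toAdm hσ
  refine ((Dom.const (by positivity)).add (g1.mul zero_le_two)).mono le_rfl fun x => ?_
  have e := h.C x
  rw [Cfg.eC, sub_sub, sub_eq_zero] at e
  have k := pow_le_pow_left₀ (norm_nonneg _) (Wz78.norm_mu hB h.ok (x := x) (c.Φ x) (c.Φ x)) 2
  rw [e]
  nlinarith [normSq_add_le (c.m.mu B x (c.Φ x) (c.Φ x)) (τ.C c x), g2 x,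
    pow_le_pow_left₀ (sq_nonneg _) (hσ.Φ x) 2]

end one

variable {X : α → Type} [∀ n, TopologicalSpace (X n)] [∀ n, ChartedSpace HM (X n)]
  [∀ n, IsManifold I ∞ (X n)] [∀ n, MeasurableSpace (X n)] [∀ n, BorelSpace (X n)] [∀ n, T2Space (X n)]
  [∀ n, SecondCountableTopology (X n)] {g : Gs I I₀ M ι lam X} {f f' : ∀ n, X n → ℝ} {x : M} {β : ℝ}

variable (g f) in
/-- the integral over the part of `X n` over `N` -/
def li (n : α) (N : Set M) : ℝ≥0∞ :=
  ∫⁻ y in g.ψ n '' (N ∩ (g.ψ n).source), ENNReal.ofReal (f n y) ∂(g.G n).F.μ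

variable (g f x) in
/-- no concentration at `x` -/
def NC : Prop := ∀ ε > 0, ∃ N ∈ 𝓝 x, ∀ᶠ n in (g.l : Filter α), li g f n N ≤ ENNReal.ofReal ε

theorem li_mono {n : α} {N N' : Set M} (h : N ⊆ N') : li g f n N ≤ li g f n N' :=
  lintegral_mono_set (image_mono (inter_subset_inter_left _ h))

/-- the integral on `M` -/
theorem li_eq (hg : g.OK) {n : α} {N : Set M} (hN : IsOpen N) (hf : Continuous (f n)) :
    li g f n N = ∫⁻ y in N ∩ (g.ψ n).source, ENNReal.ofReal (f n (g.ψ n y)) ∂(g.H n).F.μ := by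
  have o := hN.inter (g.ψ n).open_source
  have o' := (g.ψ n).isOpen_image_of_subset_source o inter_subset_right
  have m := (g.ψ n).open_source.measurableSet
  have a := (g.ψ n).continuousOn.aemeasurable (μ := (g.H n).F.μ) m
  rw [li, ← Measure.restrict_restrict_of_subset (t := (g.ψ n).target) (by
      rintro _ ⟨y, hy, rfl⟩; exact (g.ψ n).map_source hy.2),
    ← ((hg.rel n).iso (hg.H n).vol (hg.G n).vol).μ, ← lintegral_indicator o'.measurableSet,
    lintegral_map' ((hf.measurable.ennreal_ofReal.indicator o'.measurableSet).aemeasurable) a,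
    ← Measure.restrict_restrict hN.measurableSet, ← lintegral_indicator hN.measurableSet]
  refine setLIntegral_congr_fun m fun y hy => ?_
  by_cases e : y ∈ N
  · rw [indicator_of_mem e, indicator_of_mem (mem_image_of_mem _ (mem_inter e hy))]
  · rw [indicator_of_notMem e, indicator_of_notMem]
    exact fun ⟨z, hz, k⟩ => e ((g.ψ n).injOn hz.2 hy k ▸ hz.1)

/-- **NC** -/
theorem nc_of_dom (hg : g.OK) (hx : x ∉ g.P) (f0 : ∀ n y, 0 ≤ f n y)
    (hf : ∀ᶠ n in (g.l : Filter α), Dom (g.G n).F β (f n)) : NC g f x := fun ε ε0 => by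
  have := FiniteDimensional.proper_real E₀
  have hm := ch0_mem (I := I₀) x
  set κ := ch0 I₀ x
  obtain ⟨φ, B, hφ⟩ := exists_bmp E₀
  obtain ⟨K, δ, K0, δ0, k⟩ := ch_X hg x
  obtain ⟨V, γ, V0, γ0, v⟩ := vol_up (fcv hg) (.of_forall fun n => (hg.H n).vol) hg.G₀.vol hg.h4 x
  have t : ∀ a : ℝ, Tendsto (fun s : ℝ => a * s ^ 2) (𝓝[>] 0) (𝓝 0) := fun a =>
    ((by fun_prop : Continuous fun s : ℝ => a * s ^ 2).tendsto' _ _ (by simp)).mono_left nhdsWithin_le_nhds
  obtain ⟨η, η0, hη⟩ := nhds_basis_closedBall.mem_iff.1 (inter_mem (κ.tendsto_symm hm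
    (hg.fin.isClosed.isOpen_compl.mem_nhds hx)) (κ.open_target.mem_nhds (κ.map_source hm)))
  obtain ⟨s, s1, ⟨s0, s2⟩, ⟨-, s3⟩, ⟨-, s4⟩, -, s5⟩ := (((t ((1 + β) ^ 2 * ((1 + Fintype.card ι * (B * K) ^ 2) *
    (V * 2 ^ 4)))).eventually (ge_mem_nhds ε0)).and (inter_mem (Ioc_mem_nhdsGT one_pos) (inter_mem
      (Ioc_mem_nhdsGT (half_pos δ0)) (inter_mem (Ioc_mem_nhdsGT (half_pos γ0))
        (Ioc_mem_nhdsGT (half_pos η0)))))).exists
  have b1 : closedBall (κ x) (2 * s) ⊆ closedBall (κ x) η := closedBall_subset_closedBall (by linarith)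
  have c : ContinuousAt (fun y => cut φ κ (κ x) s y ^ 2) x := (hφ.b1.sm.continuous.continuousAt.comp
    (((κ.continuousAt hm).sub continuousAt_const).const_smul _)).pow 2
  refine ⟨_, inter_mem (κ.open_source.mem_nhds hm) (c.eventually (le_mem_nhds (a := 1 / 2)
    (by norm_num [cut, hφ.one]))), ?_⟩
  filter_upwards [hf, v, k _ (isCompact_closedBall (κ x) (2 * s)) (closedBall_subset_closedBall (by linarith))
    fun z hz => (hη (b1 hz)).1] with n h1 h2 h3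
  refine (lintegral_mono_set ?_).trans ((dom_ball h3 hφ s0 s2 (closedBall_subset_closedBall (by linarith)) h1 (f0 n)
    (by positivity) (z := κ x) ?_).trans (ENNReal.ofReal_le_ofReal s1))
  · rintro _ ⟨y, ⟨⟨a1, a2⟩, a3⟩, rfl⟩
    have e := (g.ψ n).left_inv a3
    exact ⟨⟨(g.ψ n).map_source a3, (congrArg (· ∈ κ.source) e).mpr a1⟩, (mem_ofPred.1 a2).trans_eq
      (congrArg (fun y => cut φ κ (κ x) s y ^ 2) e.symm)⟩
  have b2 : ball (κ x) (2 * s) ⊆ closedBall (κ x) (2 * s) := ball_subset_closedBall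
  refine (measure_mono (image_mono (closedBall_subset_ball (by linarith : s < 2 * s)))).trans
    (le_of_eq_of_le ?_ ((h2 (2 * s) (by linarith) (by linarith)).trans_eq (by rw [mul_pow, mul_assoc])))
  rw [← iso_meas ((hg.rel n).iso (hg.H n).vol (hg.G n).vol) (κ.symm.isOpen_image_of_subset_source isOpen_ball
    fun z hz => (hη (b1 (b2 hz))).2) (by rintro _ ⟨z, hz, rfl⟩; exact (h3.tgt (b2 hz)).2), image_image]
  rfl

variable {r : ℕ} {c : ∀ n, Cfg (X n) ι lam r}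

/-- concentration passes to the density `f` -/
theorem conc_of (hb : g.Bub c x) (h : NC g f' x) {a b : ℝ} (a0 : 0 < a) (b0 : 0 < b) (m : ∀ n, Measurable (f n))
    (f0 : ∀ n y, 0 ≤ f n y) (f1 : ∀ n y, 0 ≤ f' n y) (k : ∀ᶠ q in (g.l : Filter α) ×ˢ 𝓝 x,
      ‖g.Fg c q.1 (g.ψ q.1 q.2)‖ ^ 2 ≤ a * f q.1 (g.ψ q.1 q.2) + b * f' q.1 (g.ψ q.1 q.2)) :
    ∃ e > 0, ∀ N ∈ 𝓝 x, ∀ᶠ n in (g.l : Filter α), ENNReal.ofReal e ≤ li g f n N := by
  obtain ⟨ε, ε0, hε⟩ := hb
  have e0 : (0 : ℝ) < ε := ε0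
  obtain ⟨A, hA, T, hT, k⟩ := eventually_prod_iff.1 k
  obtain ⟨N', n1, n2⟩ := h (ε / 2 / b) (by positivity)
  refine ⟨ε / 2 / a, by positivity, fun N hN => ?_⟩
  obtain ⟨O, o1, o2, o3⟩ := mem_nhds_iff.1 (inter_mem hN (inter_mem n1 hT))
  filter_upwards [hA, n2, hε O (o2.mem_nhds o3)] with n h1 h2 h3
  have h4 : g.en c n O ≤ ENNReal.ofReal a * li g f n O + ENNReal.ofReal b * li g f' n O := by
    rw [li, li, ← lintegral_const_mul' _ _ ENNReal.ofReal_ne_top, ← lintegral_const_mul' _ _ ENNReal.ofReal_ne_top,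
      ← lintegral_add_left ((m n).ennreal_ofReal.const_mul _)]
    refine setLIntegral_mono' ((g.ψ n).isOpen_image_of_subset_source (o2.inter (g.ψ n).open_source)
      inter_subset_right).measurableSet ?_
    rintro _ ⟨y, hy, rfl⟩
    rw [← ENNReal.ofReal_mul a0.le, ← ENNReal.ofReal_mul b0.le, ← ENNReal.ofReal_add (mul_nonneg a0.le (f0 ..))
      (mul_nonneg b0.le (f1 ..))]
    exact ENNReal.ofReal_le_ofReal (k h1 (o1 hy.1).2.2)
  refine by_contra fun h5 => (h3.trans h4).not_gt ?_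
  have h6 := (ENNReal.mul_lt_mul_right (ENNReal.ofReal_pos.2 a0).ne' ENNReal.ofReal_ne_top
    ((li_mono fun _ hy => (o1 hy).1).trans_lt (not_le.1 h5)))
  have h7 := mul_le_mul_right ((li_mono fun _ hy => (o1 hy).2.1).trans h2) (ENNReal.ofReal b)
  refine (ENNReal.add_lt_add_of_lt_of_le (ne_top_of_le_ne_top (by finiteness) h7) h6 h7).trans_eq ?_
  rw [← ENNReal.ofReal_mul a0.le, ← ENNReal.ofReal_mul b0.le, ← ENNReal.ofReal_add (by positivity) (by positivity),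
    ENNReal.coe_nnreal_eq]
  congr 1; field_simp; ring

/-- without a bubble the curvature is bounded -/
theorem bd_of_hyp (hg : g.OK) (h : g.Hyp c) (hx : x ∉ g.S c) :
    ∃ C, ∀ᶠ q in (g.l : Filter α) ×ˢ 𝓝 x, ‖g.Fg c q.1 (g.ψ q.1 q.2)‖ ≤ C := by
  choose C hC using fun s => (Fb.cb_iff.1 (h.cbF hg x s)).2.2 []
  refine ⟨√(∑ s, C s ^ 2), (eventually_all.2 fun s => le_nF hx (hC s)).mono fun q hq => ?_⟩
  rw [PiLp.norm_eq_of_L2]
  exact Real.sqrt_le_sqrt (Finset.sum_le_sum fun s _ => pow_le_pow_left₀ (norm_nonneg _) (hq s) 2)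

/-- **BF** from bounds off a compact set -/
theorem bf_of (hg : g.OK) (ha : ∀ n, (c n).Adm (g.B n) (g.G n)) {b : Cfg M ι lam r} {S T : Set M}
    {u : ∀ n, M → CL (c n).m.V b.m.V} (l : g.Lim c b S u) (hT : IsCompact T) {C : ℝ}
    (h : ∀ x ∉ T, ∀ᶠ n in (g.l : Filter α), ‖g.Fg c n (g.ψ n x)‖ ≤ C) :
    ∃ R, ∀ x, ‖b.m.Fg g.G₀.F b.W x‖ ≤ R := by
  have cf := (sm_Fg hg.B₀ hg.G₀ l.adm.ok l.adm.conn).continuous
  obtain ⟨C', hC⟩ := hT.exists_bound_of_continuousOn cf.continuousOn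
  refine ⟨max C C', fun x => closure_minimal (s := Sᶜ) (t := {x | ‖b.m.Fg g.G₀.F b.W x‖ ≤ max C C'}) (fun x hx => ?_)
    (isClosed_le cf.norm continuous_const) (dense_of_fin (I₀ := I₀) hg.h4 l.fin x)⟩
  by_cases e : x ∈ T
  · exact le_max_of_le_right (hC x e)
  have t : Tendsto (fun n => ‖g.Fg c n (g.ψ n x)‖) g.l (𝓝 ‖b.m.Fg g.G₀.F b.W x‖) := by
    rw [funext fun n => PiLp.norm_eq_of_L2 (g.Fg c n (g.ψ n x)), PiLp.norm_eq_of_L2]
    refine (tendsto_finsetSum _ fun s _ => ((((l.Fg hg ha s).cv.pt x hx).norm.congr' ?_).pow 2)).sqrt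
    exact (tendsto_id.prodMk (tendsto_const_nhds (x := x))).eventually (l.nr hg ha hx) |>.mono fun n hn =>
      hn.norm_cj l hg ha (Wz78.Fg_mem _ _)
  exact le_max_of_le_left (le_of_tendsto t (h x e))

end Crest.Agent.X212.Shi84

end
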