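import Crest.Agent.X212.Cmp73.Val
import Crest.Agent.X212.Eqv71.Nat
import Crest.Agent.X212.Wrd81.In

/-!
# CQ-PUL (helper84): values of words pull back along dense local equivalences
-/

set_option autoImplicit false
set_option linter.unusedSectionVars false
open Set Filter Topology MeasureTheory
open scoped Manifold ContDiff InnerProductSpace NNReal

noncomputable section

namespace Crest.Agent.X212.Shi84

open Cmp73 An Eqv71 Wz78

theorem vw_pul {τ τ' σ σ' : Type*} {st : τ → σ → σ → Prop} {st' : τ' → σ' → σ' → Prop} {s₀ : σ'} {f : σ' → σ}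
    {R : τ → τ' → Prop} {p : τ' → Prop} {q : σ' → Prop} (h0 : q s₀)
    (h : ∀ t t' a b, R t t' → p t' → q a → st' t' a b → q b ∧ st t (f a) (f b)) {l : List τ} {l' : List τ'}
    (hl : List.Forall₂ R l l') (hp : ∀ t ∈ l', p t) {b : σ'} (hb : VW st' s₀ l' b) : q b ∧ VW st (f s₀) l (f b) := by
  induction hl generalizing b with
  | nil => obtain rfl : b = s₀ := hb; exact ⟨h0, rfl⟩
  | cons k _ ih =>
    obtain ⟨s, h1, h2⟩ := hb
    rw [List.forall_mem_cons] at hp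
    have k1 := ih hp.2 h1
    have k2 := h _ _ _ _ k hp.1 k1.1 h2
    exact ⟨k2.1, _, k1.2, k2.2⟩

variable {E : Type} [NormedAddCommGroup E] [NormedSpace ℝ E] [FiniteDimensional ℝ E]
  [MeasurableSpace E] [BorelSpace E]
  {HM : Type} [TopologicalSpace HM] {I : ModelWithCorners ℝ E HM} [I.Boundaryless]
  {M : Type} [TopologicalSpace M] [ChartedSpace HM M] [IsManifold I ∞ M]
  [MeasurableSpace M] [BorelSpace M] [T2Space M] {ι : Type} [Fintype ι] {lam : Type} [Fintype lam]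
  {E' : Type} [NormedAddCommGroup E'] [NormedSpace ℝ E'] [FiniteDimensional ℝ E']
  [MeasurableSpace E'] [BorelSpace E']
  {HM' : Type} [TopologicalSpace HM'] {I' : ModelWithCorners ℝ E' HM'} [I'.Boundaryless]
  {M' : Type} [TopologicalSpace M'] [ChartedSpace HM' M'] [IsManifold I' ∞ M']
  [MeasurableSpace M'] [BorelSpace M'] [T2Space M'] {ι' : Type} [Fintype ι'] {lam' : Type}
  [Fintype lam']
  {B : Base M ι lam} {G : Geo I M ι lam} {B' : Base M' ι' lam'} {G' : Geo I' M' ι' lam'}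
  {O' : Set M'} {φ : M → M'} {ψ : M' → M} {U : M → ι' → ι → ℝ} {v : M → CL (Eu lam) (Eu lam')}
  {r n : ℕ} {c : Cfg M ι lam r} {y : Cfg M' ι' lam' r} {u : M → CL c.m.V y.m.V} {K : ℝ≥0} {w : M' → ℝ}

section z
variable (μ : Measure M) (O : Set M)

/-- the sections in the weight two scalars vanish off `O` -/
def SgZ (g : Sg M lam) : Prop := ∀ᵐ x ∂μ, x ∉ O → g.s x = 0

def CoZ : Co M lam r → Prop
  | .z _ => True
  | .s g L => SgZ μ O g ∧ ∀ g' ∈ L, SgZ μ O g'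

def TmZ : Tm M lam r n → Prop
  | .anti d _ _ => CoZ μ O d
  | .adj d _ _ _ _ _ _ => CoZ μ O d
  | .cut _ _ g => SgZ μ O g
  | _ => True

variable {μ O}

theorem tmZ_null (h : μ Oᶜ = 0) (T : Tm M lam r n) : TmZ μ O T := by
  have a : ∀ g : Sg M lam, SgZ μ O g := fun _ => Eventually.mono (mem_ae_iff.2 h) fun _ hx h => absurd hx h
  have b : ∀ d : Co M lam r, CoZ μ O d := fun d => by cases d; exacts [trivial, ⟨a _, fun _ _ => a _⟩]
  cases T; exacts [trivial, b _, trivial, b _, trivial, a _, trivial]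

theorem tmZ_in {Ω : Set M} (h : Ω ⊆ O) {T : Tm M lam r n} (hT : Wrd81.TmIn I Ω T) : TmZ μ O T := by
  have a : ∀ g : Sg M lam, Wrd81.SgIn I Ω g → SgZ μ O g := fun _ k => .of_forall fun _ hx =>
    image_eq_zero_of_notMem_tsupport fun e => hx (h (k.1.sub e))
  have b : ∀ d : Co M lam r, Wrd81.CoIn I Ω d → CoZ μ O d := fun d k => by
    cases d; exacts [trivial, ⟨a _ k.1, fun _ e => a _ (k.2 _ e)⟩]
  cases T; exacts [trivial, b _ hT.1, trivial, b _ hT.1, trivial, a _ hT, trivial]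

end z

section gen
variable {V V' : Type} [NormedAddCommGroup V] [InnerProductSpace ℝ V] [NormedAddCommGroup V']
  [InnerProductSpace ℝ V'] {A : ι → M → V →L[ℝ] V} {A' : ι' → M' → V' →L[ℝ] V'} {T : M → V' →L[ℝ] V}
  (g : KG B G B' G' univ O' φ ψ U v) (t : IT G' B I O' ψ (fun y a b => U (ψ y) b a) A' A fun y => T (ψ y))
  {s b : M' → V'}
include g t

theorem pul_le (x : M) (a : V') : ‖T x a‖ ≤ ‖a‖ := by
  simpa only [g.inv.linv x trivial] using t.nT _ (g.inv.maps (mem_univ x)) a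

theorem pul_sm (hb : Sm I' b) : Sm I fun x => T x (b (φ x)) := fun x => by
  simpa only [g.inv.linv _ trivial] using
    g.rot.sa_comp (mem_univ x) ((t.sT _ (g.inv.maps (mem_univ x))).app (hb _))

theorem pul_eq (hb : Sm I' b) (he : ∀ z, b z + lap I' G'.F.e G'.F.dv A' b z = s z) (x : M) :
    T x (b (φ x)) + lap I G.F.e G.F.dv A (fun x => T x (b (φ x))) x = T x (s (φ x)) := by
  have hx := g.inv.maps (mem_univ x)
  have := g.symm.toLG.lap hx (fun a => t.mc.sm a _) ⟨fun a z => t.mc'.sm a z, t.pj⟩ (t.sT _ hx) t.it (hb _)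
    (pul_sm g t hb _) (Eventually.mono (g.inv.opn'.mem_nhds hx) fun z hz => by rw [g.inv.rinv z hz])
  rw [g.inv.linv x trivial] at this
  rw [this, ← map_add, he]

theorem pul_rs (hd : DenseRange φ) (hn : ∀ x, ‖s (φ x)‖ ≤ ‖T x (s (φ x))‖) (h : Rs G'.F A' s b) :
    Rs G.F A (fun x => T x (s (φ x))) fun x => T x (b (φ x)) :=
  have cs : Continuous s := by rw [← funext h.eq]; exact (h.sm.add (sm_lap t.mc.sm h.sm)).continuous
  ⟨pul_sm g t h.sm, pul_eq g t h.sm h.eq, fun m hm x => (pul_le g t x _).trans (h.le m (fun z =>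
    hd.induction_on z (isClosed_le cs.norm continuous_const) fun x => (hn x).trans (hm x)) _)⟩

end gen

variable (B G B' G' O' φ ψ U v c y u) in
/-- `c` is the pull-back of `y` along a local equivalence with dense range -/
structure PB : Prop where
  kg : KG B G B' G' univ O' φ ψ U v
  lm : LM B G B' G' univ φ U v c.W y.W u
  dn : DenseRange φ
  Φ : ∀ x, y.Φ (φ x) = u x (c.Φ x)
  p : ∀ x, c.m.p x (c.Φ x) = c.Φ x
  z : y.z = c.z

theorem pb_of_ceq (g : KG B G B' G' univ O' φ ψ U v) (hd : DenseRange φ) (h : Ad0 c B G) (h' : Ad0 y B' G')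
    (e : CEq G.F c y univ φ U v u 1) : PB B G B' G' O' φ ψ U v c y u :=
  ⟨g, g.toLG.of_ceq h h' e, hd, fun x => by simpa only [Circle.coe_one, cs_one] using e.Φ x trivial, p_Φ h,
    by simpa using e.z⟩

theorem pb_pull {φ : OpenPartialHomeomorph M M'} (g : GEq B G B' G' φ U v) (hB : B.OK I) (hG : G.OK B)
    (hB' : B'.OK I') (hG' : G'.OK B') (h1 : φ.source = univ) (hd : DenseRange φ) (h : Ad0 y B' G') :
    PB B G B' G' (range φ) φ φ.symm U v (pullC y φ U v) y fun x => y.m.p (φ x) :=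
  have k := pullC_spec g hB hG hB' hG' h1 h
  pb_of_ceq (image_univ ▸ kg_of_geq g hB hG hB' hG' isOpen_univ h1.ge) hd k.1 h k.2

variable (φ u) in
/-- pull-back of spinors -/
abbrev pV (s : M' → y.m.V) : M → c.m.V := fun x => trn (u x) (s (φ x))

variable (φ u) in
/-- pull-back of endomorphisms -/
abbrev pA (s : M' → y.m.A) : M → c.m.A := fun x => cj (trn (u x)) (s (φ x))

variable (φ U u) in
/-- pull-back of two-forms -/
abbrev pC (s : M' → Fm (ι' × ι') y.m.A) : M → Fm (ι × ι) c.m.A :=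
  fun x => ridx (sq2 fun a b => U x b a) (cj (trn (u x))) (s (φ x))

namespace PB
variable (k : PB B G B' G' O' φ ψ U v c y u)
include k

theorem be (x : M) : BE B' (φ x) B x (fun a b => U x b a) (trn (v x)) := (k.lm.be x trivial).symm k.lm.hB k.lm.hB'

theorem me (x : M) : ME y.m (φ x) c.m x (fun a b => U x b a) (trn (v x)) (trn (u x)) :=
  (k.lm.me x trivial).symm (k.lm.be x trivial) k.lm.ok k.lm.ok'

theorem D {f : M → ℝ} {f' : M' → ℝ} (hf : FR univ φ f f') (sm : Sm I' f') (a : ι) (x : M) :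
    G.F.D a f x = ∑ b, U x b a * G'.F.D b f' (φ x) := by
  obtain rfl : f' ∘ φ = f := eqOn_univ _ _ |>.1 hf
  exact k.kg.rot.D (geo_frm k.kg.hG) trivial a (SA.md (sm _))

theorem nA {x : M} {s : y.m.A} (hs : s ∈ y.m.gS (φ x)) : ‖cj (trn (u x)) s‖ = ‖s‖ := by
  rw [norm_eq_sqrt_real_inner, (k.me x).inner_cj _ hs, ← norm_eq_sqrt_real_inner]

theorem pΦ : pV φ u y.Φ = c.Φ := funext fun x => by
  simp only [pV, k.Φ, ← ContinuousLinearMap.comp_apply, (k.lm.me x trivial).uu]; exact k.p x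

theorem nΦ (x : M) : ‖y.Φ (φ x)‖ = ‖c.Φ x‖ := by rw [k.Φ, (k.lm.me x trivial).norm (k.p x)]

theorem Fg (x : M) : c.m.Fg G.F c.W x = pC φ U u (y.m.Fg G'.F y.W) x := by
  simpa only [k.kg.inv.linv x trivial] using (k.lm.symm k.kg.inv).Fg (k.kg.inv.maps (mem_univ x))

theorem nF (x : M) : ‖y.m.Fg G'.F y.W (φ x)‖ = ‖c.m.Fg G.F c.W x‖ := by
  rw [norm_eq_sqrt_real_inner, norm_eq_sqrt_real_inner]
  nth_rewrite 1 [k.lm.Fg (mem_univ x)]
  rw [inner_ridx _ (inner_cj (u x))]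
  exact congrArg (fun t => √⟪_, t⟫_ℝ) (k.Fg x).symm

/-- the equations pull back -/
theorem eD (sm : Sm I' y.Φ) : dir I G.F.e c.m.ρ c.W c.Φ = pV φ u (dir I' G'.F.e y.m.ρ y.W y.Φ) := funext fun x => by
  have hx := k.kg.inv.maps (mem_univ x)
  simpa only [k.kg.inv.linv x trivial] using (k.lm.symm k.kg.inv).dir hx (sm _)
    (by rw [← k.pΦ]; exact pul_sm (T := fun x => trn (u x)) k.kg (k.lm.symm k.kg.inv).it sm _)
    (Eventually.mono (k.kg.inv.opn'.mem_nhds hx) fun z hz => by rw [← k.pΦ, pV, k.kg.inv.rinv z hz])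

theorem eC (x : M) : c.m.p2 B x (c.m.Fg G.F c.W x) - c.m.mu B x (c.Φ x) (c.Φ x) =
    pC φ U u (fun z => y.m.p2 B' z (y.m.Fg G'.F y.W z) - y.m.mu B' z (y.Φ z) (y.Φ z)) x := by
  rw [pC, map_sub, ← (k.me x).p2 (k.be x) k.lm.hB' k.lm.hB k.lm.ok' k.lm.ok,
    ← (k.me x).mu (k.be x) k.lm.hB' k.lm.hB k.lm.ok' k.lm.ok, k.Fg, ← k.pΦ]

theorem sw {l : SW M} {l' : SW M'} (hl : SWR univ φ l l') (ok : l'.OK G'.F) {a : M' → y.m.V}
    (ha : vS y G'.F l' a) : (∀ x, y.m.p (φ x) (a (φ x)) = a (φ x)) ∧ vS c G.F l (pV φ u a) := by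
  unfold vS
  rw [← k.pΦ]
  refine vw_pul (f := pV φ u) (q := fun a => ∀ x, y.m.p (φ x) (a (φ x)) = a (φ x))
    (fun x => by rw [k.Φ, (k.lm.me x trivial).pu_apply k.lm.ok]) (fun t t' a b ht o q h => ?_) hl ok ha
  cases ht with
  | mul hf =>
    obtain rfl := h
    exact ⟨fun x => by simp only [Cfg.lt, map_smul, q],
      funext fun x => by simp only [Cfg.lt, map_smul, ← hf (mem_univ x)]; rfl⟩
  | cl hf =>
    obtain rfl := h
    refine ⟨fun x => by simp only [Cfg.lt, map_sum, map_smul, ← mul_apply_eq_comp, (k.lm.ok'.cl _).pl],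
      funext fun x => ?_⟩
    have e := fun a w => congrArg (fun T : CL y.m.V c.m.V => T w) ((k.me x).ρ' (k.be x) k.lm.ok' a)
    simp only [ContinuousLinearMap.comp_apply, _root_.sum_apply, smul_apply] at e
    simp only [Cfg.lt, k.D hf o.1, map_sum, map_smul, ← e, Finset.smul_sum, Finset.sum_smul, smul_smul]
    rw [Finset.sum_comm]
    simp only [mul_comm]
  | im =>
    obtain rfl := h
    exact ⟨fun x => by simp only [Cfg.lt]; rw [← mul_apply_eq_comp, ← k.lm.ok'.Jp, mul_apply_eq_comp, q],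
      funext fun x => ((k.me x).J_apply _).symm⟩
  | G => exact ⟨fun x => h.2 _, pul_rs (T := fun x => trn (u x)) k.kg (k.lm.symm k.kg.inv).it k.dn
      (fun x => ((k.me x).norm (q x)).ge) h.1, fun x => (k.me x).pu_apply k.lm.ok' _⟩

theorem la {l : List (La M)} {l' : List (La M')} (hl : List.Forall₂ (LaR univ φ) l l') {s a : M' → y.m.A}
    (hs : ∀ z, s z ∈ y.m.gS z) (ha : VW (vLa y G'.F) s l' a) :
    (∀ z, a z ∈ y.m.gS z) ∧ VW (vLa c G.F) (pA φ u s) l (pA φ u a) := by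
  refine vw_pul (f := pA φ u) (p := fun _ => True) (q := fun a => ∀ z, a z ∈ y.m.gS z) hs (fun t t' a b ht _ q h => ?_) hl
    (fun _ _ => trivial) ha
  cases ht with
  | mul hf =>
    obtain rfl := h
    exact ⟨fun x => Submodule.smul_mem _ _ (q x),
      funext fun x => by simp only [Cfg.la, map_smul, ← hf (mem_univ x)]; rfl⟩
  | G => exact ⟨h.2, pul_rs (T := fun x => cj (trn (u x))) k.kg (k.lm.symm k.kg.inv).it_ad k.dn
      (fun x => (k.nA (q _)).ge) h.1, fun x => (k.me x).cj_mem (k.be x) k.lm.ok' k.lm.ok (h.2 _)⟩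

theorem q (a b : M' → y.m.V) :
    pA φ u (fun z => y.m.q z (a z) (b z)) = fun x => c.m.q x (pV φ u a x) (pV φ u b x) :=
  funext fun x => ((k.me x).q (k.be x) k.lm.hB' k.lm.hB k.lm.ok' k.lm.ok _ _).symm

theorem cv {f a b : M → ℝ} {f' a' b' : M' → ℝ} (hf : FR univ φ f f') (ha : FR univ φ a a') (hb : FR univ φ b b')
    (sa : Sm I' a') (sb : Sm I' b') (x : M) : pA φ u (cvS y G'.F f' a' b') x = cvS c G.F f a b x := by
  simp only [pA, cvS, k.Fg, pC, ridx_apply, Finset.smul_sum, smul_smul, map_sum, map_smul, mul_assoc,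
    k.kg.toLG.DD (mem_univ x) ha hb sa sb, Finset.mul_sum, Finset.sum_smul]
  rw [Finset.sum_comm]
  exact Finset.sum_congr rfl fun s _ => Finset.sum_congr rfl fun t _ => by
    rw [← hf (mem_univ x)]; congr 1; simp only [sq2, Function.comp]; ring

theorem aw {ξ : AW M} {ξ' : AW M'} (hξ : AWR univ φ ξ ξ') (ok : ξ'.s.OK G'.F) {a : M' → y.m.A}
    (ha : vA y G'.F K w ξ' a) : (∀ z, a z ∈ y.m.gS z) ∧ vA c G.F K (w ∘ φ) ξ (pA φ u a) := by
  obtain ⟨s₀, h1, h2⟩ := ha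
  suffices h : (∀ z, s₀ z ∈ y.m.gS z) ∧ vSd c G.F K (w ∘ φ) ξ.s (pA φ u s₀) from
    (k.la hξ.l h.1 h2).imp_right fun e => ⟨_, h.2, e⟩
  obtain ⟨s, l⟩ := ξ
  obtain ⟨s', l'⟩ := ξ'
  obtain ⟨hs, -⟩ := hξ
  cases hs with
  | q ha hb =>
    obtain ⟨a, b, k1, k2, rfl⟩ := h1
    exact ⟨fun z => pg_mem z _, _, _, (k.sw ha ok.1 k1).2, (k.sw hb ok.2 k2).2, k.q a b⟩
  | cv hf ha hb =>
    obtain ⟨s₁, h⟩ := h1
    have t := (k.lm.symm k.kg.inv).it_ad
    have m := fun {s : M' → y.m.A} (h : ∀ z, s z ∈ y.m.gS z) x =>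
      (k.me x).cj_mem (k.be x) k.lm.ok' k.lm.ok (h (φ x))
    refine ⟨h.m, pA φ u s₁, pul_sm (T := fun x => cj (trn (u x))) k.kg t h.sm₁,
      pul_sm (T := fun x => cj (trn (u x))) k.kg t h.sm, m h.m₁, m h.m,
      fun x => (pul_eq (T := fun x => cj (trn (u x))) k.kg t h.sm₁ h.e₁ x).trans (k.cv hf ha hb ok.2.1.1 ok.2.2.1 x),
      pul_eq (T := fun x => cj (trn (u x))) k.kg t h.sm h.e, le_trans ?_ h.l4, fun x => (k.nA (h.m _)).trans_le (h.bd _)⟩
    rw [← Measure.restrict_univ (μ := G.F.μ), ← k.kg.symm.μ]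
    refine (lintegral_map_le _ _).trans ((setLIntegral_mono' k.kg.inv.opn'.measurableSet fun z hz => ?_).trans
      (setLIntegral_le_lintegral _ _))
    rw [enorm_smul, enorm_smul, ← ofReal_norm (pA ..), k.nA (h.m₁ _), Function.comp, k.kg.inv.rinv z hz, ofReal_norm]

theorem aws {L : List (AW M)} {L' : List (AW M')} (hL : List.Forall₂ (AWR univ φ) L L')
    (ok : ∀ ξ ∈ L', AW.OK G'.F ξ) {a : M' → y.m.A} (ha : vAs y G'.F K w L' a) :
    (∀ z, a z ∈ y.m.gS z) ∧ vAs c G.F K (w ∘ φ) L (pA φ u a) := by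
  have e : pA φ u (0 : M' → y.m.A) = 0 := funext fun x => map_zero _
  unfold vAs
  rw [← e]
  refine vw_pul (f := pA φ u) (q := fun a => ∀ z, a z ∈ y.m.gS z) (fun _ => zero_mem _) (fun t t' a b ht o q h => ?_) hL ok ha
  obtain ⟨s, h, rfl⟩ := h
  exact ⟨fun z => add_mem ((k.aw ht o.1 h).1 z) (q z), _, (k.aw ht o.1 h).2, funext fun x => map_add _ _ _⟩

theorem j {s : M → Eu lam} {s' : M' → Eu lam'} (hs : SR univ φ v s s') (x : M) (a : y.m.V) :
    trn (u x) (y.m.j (φ x) (s' (φ x)) a) = c.m.j x (s x) (trn (u x) a) := by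
  rw [← (k.me x).j_apply, hs x trivial, ← ContinuousLinearMap.comp_apply (trn (v x)), (k.lm.be x trivial).vv,
    k.lm.ok.jl]

theorem sg {a : Sg M lam} {a' : Sg M' lam'} (ha : SgR univ φ v a a') (ok : a'.OK G'.F ∧ SgZ G'.F.μ O' a') {z : ℂ}
    (h : vG y G'.F a' z) : vG c G.F a z := by
  obtain ⟨s, t, h1, h2, rfl⟩ := h
  have k2 := k.sw ha.v ok.1.2.2.2 h2
  refine ⟨_, _, (k.sw ha.u ok.1.2.2.1 h1).2, k2.2, ?_⟩
  rw [← setIntegral_eq_integral_of_ae_compl_eq_zero (s := O') (ok.2.mono fun z hz h => by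
    rw [hz h]; simp [hm, Complex.ext_iff]), k.kg.integral_rel fun x _ =>
      ((k.me x).hm k.lm.ok' _ (k2.1 x)).symm.trans (by rw [k.j ha.s]), Measure.restrict_univ]

theorem co {d : Co M lam r} {d' : Co M' lam' r} (hd : CoR univ φ v d d') (ok : d'.OK G'.F) (hz : CoZ G'.F.μ O' d')
    {z : ℂ} (h : vC y G'.F d' z) : vC c G.F d z := by
  cases hd with
  | z i => exact h.trans (by rw [k.z])
  | s ha hL =>
    obtain ⟨a, b, h1, h2, rfl⟩ := h
    exact ⟨a, b, k.sg ha ⟨ok.1, hz.1⟩ h1, (vw_pul (f := id) (q := fun _ => True) trivial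
      (fun _ _ _ _ ht o _ h => ⟨trivial, h.imp fun _ h => ⟨k.sg ht o h.1, h.2⟩⟩) hL
      (fun t ht => ⟨ok.2 t ht, hz.2 t ht⟩) h2).2, rfl⟩

theorem vj {d : Co M lam r} {d' : Co M' lam' r} (hd : CoR univ φ v d d') (ok : d'.OK G'.F) (hz : CoZ G'.F.μ O' d')
    {s : M → Eu lam} {s' : M' → Eu lam'} (hs : SR univ φ v s s') {l : SW M} {l' : SW M'} (hl : SWR univ φ l l')
    (ok' : l'.OK G'.F) {a : M' → y.m.V} (h : vJ y G'.F d' s' l' a) : vJ c G.F d s l (pV φ u a) := by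
  obtain ⟨z, b, h1, h2, rfl⟩ := h
  exact ⟨z, _, k.co hd ok hz h1, (k.sw hl ok' h2).2, funext fun x => by rw [pV, ← (k.me x).cs, k.j hs]⟩

theorem pm (a : M' → y.m.V) : pV φ u (fun z => y.m.pm B' z (a z)) = fun x => c.m.pm B x (pV φ u a x) :=
  funext fun x => ((k.me x).pm (k.be x) k.lm.hB' k.lm.hB k.lm.ok' _).symm

theorem dd {f a b : M → ℝ} {f' a' b' : M' → ℝ} (hf : FR univ φ f f') (ha : FR univ φ a a') (hb : FR univ φ b b')
    (sa : Sm I' a') (sb : Sm I' b') (ξ : M' → y.m.A) :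
    pC φ U u (ddS y B' G'.F f' a' b' ξ) = ddS c B G.F f a b (pA φ u ξ) := funext fun x => by
  refine ((k.me x).p2 (k.be x) k.lm.hB' k.lm.hB k.lm.ok' k.lm.ok _).symm.trans (congrArg _ (toLp_rel _ _ (fun s => ?_) _).symm)
  rw [k.D ha sa, k.D hb sb, ← hf (mem_univ x), mul_assoc, Finset.sum_mul_sum, Fintype.sum_prod_type, Finset.mul_sum]
  exact Finset.sum_congr rfl fun _ _ => by
    rw [Finset.mul_sum]; exact Finset.sum_congr rfl fun _ _ => by simp only [sq2, Function.comp]; ring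

/-- **PUL** -/
theorem tm {T : Tm M lam r n} {T' : Tm M' lam' r n} (hT : TmR univ φ v T T') (ok : T'.OK G'.F)
    (hz : TmZ G'.F.μ O' T') {D : M' → y.m.V} {C : M' → Fm (ι' × ι') y.m.A} {S : Fin n → ℂ}
    (h : vT y B' G'.F K w T' D C S) : vT c B G.F K (w ∘ φ) T (pV φ u D) (pC φ U u C) S := by
  have e1 : pV φ u (0 : M' → y.m.V) = 0 := funext fun x => map_zero _
  have e2 : pC φ U u (0 : M' → Fm (ι' × ι') y.m.A) = 0 := funext fun x => map_zero _
  have o : FR univ φ (1 : M → ℝ) 1 := fun _ _ => rfl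
  cases hT with
  | lin ha =>
    obtain ⟨⟨a, h, rfl⟩, rfl, rfl⟩ := h
    exact ⟨⟨_, (k.sw ha ok h).2, k.pm a⟩, e2, rfl⟩
  | anti hd hs ha =>
    obtain ⟨⟨a, h, rfl⟩, rfl, rfl⟩ := h
    exact ⟨⟨_, k.vj hd ok.1 hz hs ha ok.2.2 h, k.pm a⟩, e2, rfl⟩
  | ad ha hb hξ =>
    obtain ⟨rfl, ⟨a, h, rfl⟩, rfl⟩ := h
    exact ⟨e1, ⟨_, (k.aw hξ ok.2.2.1 h).2, k.dd o ha hb ok.1.1 ok.2.1.1 a⟩, rfl⟩
  | adj hd hs ha hb h1 h2 hl =>
    obtain ⟨rfl, ⟨a, ⟨s, t, k1, k2, k3⟩, rfl⟩, rfl⟩ := h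
    exact ⟨e1, ⟨_, ⟨_, _, k.vj hd ok.1 hz hs h1 ok.2.2.2.2.1 k1, (k.sw h2 ok.2.2.2.2.2.1 k2).2,
      k.q s t ▸ (k.la hl (fun z => pg_mem z _) k3).2⟩, k.dd o ha hb ok.2.2.1.1 ok.2.2.2.1.1 a⟩, rfl⟩
  | adn χ hf ha hb hL =>
    obtain ⟨rfl, ⟨a, h, rfl⟩, rfl⟩ := h
    have k1 := k.aws hL ok.2.2.2.2.2 h
    refine ⟨e1, ⟨_, k1.2, (k.dd hf ha hb ok.2.1.1 ok.2.2.1.1 _).trans (congrArg _ (funext fun x => ?_))⟩, rfl⟩
    rw [pA, map_smul, k.nA (k1.1 _)]
  | cut i z ha =>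
    obtain ⟨rfl, rfl, a, h, rfl⟩ := h
    exact ⟨e1, e2, a, k.sg ha ⟨ok, hz⟩ h, rfl⟩
  | cz i z l =>
    obtain ⟨rfl, rfl, rfl⟩ := h
    exact ⟨e1, e2, by rw [k.z]⟩

end PB

end Crest.Agent.X212.Shi84

end
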