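import Crest.Agent.X212.Shi84.Nc
import Crest.Agent.X212.Bki64.Lm
import Crest.Agent.X212.Nka63.A
import Crest.Agent.X212.Dgr80.Wk
import Crest.Agent.X212.Loc66.Lim

/-!
# CONC, BF (helper84): windows of necks
-/

set_option autoImplicit false
set_option linter.unusedSectionVars false
open Set Filter Topology Metric MeasureTheory
open scoped Manifold ContDiff NNReal InnerProductSpace ENNReal

noncomputable section

namespace Crest.Agent.X212.Shi84

open Cmp73 An Nd18 Cyf70 Bki64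
open Mp86 (Dom)
open Dgr80 (en LB)

theorem bd_cpt {α M : Type} [TopologicalSpace M] {l : Filter α} {T : Set M} (hT : IsCompact T) {f : α → M → ℝ}
    (h : ∀ x ∈ T, ∃ C, ∀ᶠ q in l ×ˢ 𝓝 x, f q.1 q.2 ≤ C) : ∃ C, ∀ᶠ n in l, ∀ x ∈ T, f n x ≤ C :=
  hT.induction_on (p := fun s => ∃ C, ∀ᶠ n in l, ∀ x ∈ s, f n x ≤ C) ⟨0, by simp⟩
    (fun _ _ hs ⟨C, hC⟩ => ⟨C, hC.mono fun _ hn x hx => hn x (hs hx)⟩)
    (fun _ _ ⟨C, hC⟩ ⟨D, hD⟩ => ⟨max C D, (hC.and hD).mono fun _ hn x hx => hx.elim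
      (fun k => le_max_of_le_left (hn.1 x k)) fun k => le_max_of_le_right (hn.2 x k)⟩) fun x hx =>
    let ⟨C, hC⟩ := h x hx; let ⟨_, hs, t, ht, k⟩ := eventually_prod_iff.1 hC
    ⟨_, nhdsWithin_le_nhds ht, C, hs.mono fun _ hn _ hy => k hn hy⟩

theorem exists_sep {t : ℕ → ℝ} (ht : ∀ k : ℕ, (k : ℝ) ≤ |t k|) {p : ℕ → Prop} (hp : ∃ᶠ k in atTop, p k) (m : ℕ) :
    ∃ T : Finset ℕ, T.card = m ∧ (∀ k ∈ T, p k) ∧ (T : Set ℕ).Pairwise fun k j => 2 ≤ |t k - t j| := by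
  induction m with
  | zero => exact ⟨∅, rfl, by simp, by simp⟩
  | succ m ih =>
    obtain ⟨T, h1, h2, h3⟩ := ih
    obtain ⟨k, k1, k2⟩ := (hp.and_eventually ((eventually_all_finset T).2 fun j _ =>
      tendsto_natCast_atTop_atTop.eventually_ge_atTop (|t j| + 2))).exists
    have e : ∀ j ∈ T, 2 ≤ |t k - t j| := fun j hj => by linarith [k2 j hj, ht k, abs_sub_abs_le_abs_sub (t k) (t j)]
    have e' : k ∉ T := fun h => by simpa using (e k h).trans_lt' one_lt_two |>.trans' zero_lt_one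
    refine ⟨insert k T, by rw [Finset.card_insert_of_notMem e', h1], Finset.forall_mem_insert .. |>.2 ⟨k1, h2⟩, ?_⟩
    rw [Finset.coe_insert]
    exact h3.insert fun j hj _ => ⟨e j hj, by rw [abs_sub_comm]; exact e j hj⟩

variable {E3 : Type} [NormedAddCommGroup E3] [NormedSpace ℝ E3] [FiniteDimensional ℝ E3]
  [MeasurableSpace E3] [BorelSpace E3]
  {H3 : Type} [TopologicalSpace H3] {I3 : ModelWithCorners ℝ E3 H3} [I3.Boundaryless]
  {Y : Type} [TopologicalSpace Y] [ChartedSpace H3 Y] [IsManifold I3 ∞ Y] [T2Space Y]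
  [MeasurableSpace Y] [BorelSpace Y] [SecondCountableTopology Y] [CompactSpace Y]
  {κ : Type} [Fintype κ] {lam : Type} [Fintype lam] {D : YD I3 Y κ lam}
  {E : Type} [NormedAddCommGroup E] [NormedSpace ℝ E] [FiniteDimensional ℝ E]
  [MeasurableSpace E] [BorelSpace E]
  {HM : Type} [TopologicalSpace HM] {I : ModelWithCorners ℝ E HM} [I.Boundaryless] {r : ℕ}

section one
variable {M : Type} [TopologicalSpace M] [ChartedSpace HM M] [IsManifold I ∞ M] [MeasurableSpace M]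
  [BorelSpace M] [T2Space M] [SecondCountableTopology M] {B : Base M (Option κ) lam} {G : Geo I M (Option κ) lam}
  (K : Nk D B G) (s : ℝ) {z : Y × ℝ} {c : Cfg M (Option κ) lam r}

/-- the neck seen from the time `s` -/
def nsh : OpenPartialHomeomorph (Y × ℝ) M := (Cht98.tau Y s).toOpenPartialHomeomorph.trans K.ψ

theorem nsh_apply (z : Y × ℝ) : nsh K s z = K.ψ (z.1, z.2 + s) := rfl

theorem mem_nsh : z ∈ (nsh K s).source ↔ z.2 + s ∈ K.J := (and_iff_right trivial).trans K.mem_src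

theorem nsh_rel : Pj41.FRel D.Z G.F (nsh K s) (nsh K s).source :=
  ((Pj41.fRel_of_iso (F := D.Z) (F' := D.Z) (Cht98.iso_tau D.F.toPre s)).mono (nsh K s).open_source
    inter_subset_left).trans K.rel fun _ h => h.2

theorem tm_nsh (hz : z ∈ (nsh K s).source) : K.tm (nsh K s z) = z.2 + s := K.tm_ψ _ hz.2

variable (hD : D.OK) (hB : B.OK I) (hG : G.OK B) (hc : c.Adm B G)
include hD hB hG

/-- the energy density in the coordinates of the neck -/
theorem en_nsh (hz : z.2 + s ∈ Nka63.Dq K.p K.q 1) :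
    en G.F c K.τ (nsh K s z) = eZ D (sh s (K.pb c)) z := by
  classical
  have h0 := (mem_nsh K s).2 (Nka63.Dq_sub zero_le_one hz)
  have h1 := Nka63.ψ_mem_O K (z := (z.1, z.2 + s)) zero_le_one hz
  have P := (Nka63.pn K hD hB hG le_rfl).toPrd
  rw [en_q, en, PiLp.norm_sq_eq_of_L2, nsh_apply, P.xP_eq c h1, ← real_inner_self_eq_norm_sq]
  simp only [P.xA_eq c h1, ← real_inner_self_eq_norm_sq]
  have e1 := (nsh_rel K s).Fg h0 c.W
  have e2 := (nsh_rel K s).nab h0 (A := fun a x => c.W a (nsh K s x)) none (u := fun x => c.Φ (nsh K s x)) rfl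
    (.of_forall fun _ => rfl)
  rw [nsh_apply] at e1 e2
  rw [← e1, ← e2]
  rfl

include hc

theorem fg_le {x : M} (hx : x ∈ Nka63.O K 1) : ‖c.m.Fg G.F c.W x‖ ^ 2 ≤
    32 * en G.F c K.τ x + 6 * ‖c.m.p2 B x (c.m.Fg G.F c.W x)‖ ^ 2 := by
  classical
  have P := Nka63.pn K hD hB hG le_rfl
  have h1 := P.kd_eq hc hx
  have h2 := Loc66.norm_Fg_on hB hG isOpen_univ (Pj41.IsConn.on hc.conn univ) (mem_univ x)
  have h3 := abs_real_inner_le_norm (c.m.p2 B x (c.m.Fg G.F c.W x)) (Dgr80.oT G.F K.τ x (Dgr80.xA G.F c K.τ x))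
  rw [P.toPrd.norm_oT hx] at h3
  rw [en]
  nlinarith [neg_abs_le ⟪c.m.p2 B x (c.m.Fg G.F c.W x), Dgr80.oT G.F K.τ x (Dgr80.xA G.F c K.τ x)⟫_ℝ,
    sq_nonneg (‖c.m.p2 B x (c.m.Fg G.F c.W x)‖ - ‖Dgr80.xA G.F c K.τ x‖), sq_nonneg ‖Dgr80.xP G.F c K.τ x‖]

theorem cont_en : Continuous (en G.F c K.τ) := by
  classical exact ((Nka63.pn K hD hB hG le_rfl).sm_en hc).continuous

omit hD hB hG hc in
theorem en_of_lb {C : ℝ} (h : LB G.F.μ (fun z => K.cut 3 (K.τ z) * en G.F c K.τ z) C) :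
    ∫⁻ x in K.dp 4, ENNReal.ofReal (en G.F c K.τ x) ∂G.F.μ ≤ ENNReal.ofReal C := by
  refine le_trans ?_ (ENNReal.ofReal_le_ofReal h.2)
  rw [ofReal_integral_eq_lintegral_ofReal h.1 (.of_forall fun x => mul_nonneg ct_mem.1 (Dgr80.en_nonneg ..))]
  refine le_of_eq_of_le (setLIntegral_congr_fun K.isClosed_dp.measurableSet fun x hx => ?_)
    (setLIntegral_le_lintegral _ _)
  rw [Nka63.cut_τ_one K (by norm_num) (by norm_num; exact hx), one_mul]

end one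

variable {α : Type} {X : α → Type} [∀ n, TopologicalSpace (X n)] [∀ n, ChartedSpace HM (X n)]
  [∀ n, IsManifold I ∞ (X n)] [∀ n, MeasurableSpace (X n)] [∀ n, BorelSpace (X n)] [∀ n, T2Space (X n)]
  [∀ n, SecondCountableTopology (X n)] {B : ∀ n, Base (X n) (Option κ) lam} {G : ∀ n, Geo I (X n) (Option κ) lam}
  (U : Ultrafilter α) (K : ∀ n, Nk D (B n) (G n)) (s : α → ℝ)

/-- windows of necks -/
def zG : Gs I (IC I3) (Y × ℝ) (Option κ) lam X := ⟨U, B, G, D.B, D.G, fun _ => D.G, fun n => nsh (K n) (s n), ∅⟩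

/-- the times are deep in the necks -/
def Deep : Prop := ∀ R, ∀ᶠ n in (U : Filter α), s n ∈ Dp (K n).p (K n).q R

variable (D B G) in
/-- the backgrounds are admissible -/
structure ZB : Prop where
  h3 : Module.finrank ℝ E3 = 3
  hD : D.OK
  hB : ∀ n, (B n).OK I
  hG : ∀ n, (G n).OK (B n)

variable {U K s} {c : ∀ n, Cfg (X n) (Option κ) lam r} {β : ℝ}

theorem Deep.cw (h : Deep U K s) (d L : ℝ) : ∀ᶠ n in (U : Filter α), ∀ t, |t| ≤ L → t + s n ∈ Dp (K n).p (K n).q d :=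
  (h (d + L)).mono fun n hn t ht => ⟨fun a ha => by linarith [hn.1 a ha, (abs_le.1 ht).1],
    fun a ha => by linarith [hn.2 a ha, (abs_le.1 ht).2]⟩

theorem Deep.ev (h : Deep U K s) (d : ℝ) (x : Y × ℝ) :
    ∀ᶠ q in (U : Filter α) ×ˢ 𝓝 x, q.2.2 + s q.1 ∈ Dp (K q.1).p (K q.1).q d :=
  ((h.cw d (|x.2| + 1)).prod_mk (continuous_snd.abs.continuousAt.eventually (ge_mem_nhds (lt_add_one _)))).mono
    fun _ hq => hq.1 _ hq.2

theorem zG_ok (h : ZB D B G) (hs : Deep U K s) : (zG U K s).OK where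
  h4 := by rw [Module.finrank_prod, h.h3, Module.finrank_self]
  B := h.hB
  G := h.hG
  B₀ := h.hD.B
  G₀ := h.hD.G
  H _ := h.hD.G
  fin := finite_empty
  src x _ := (hs.ev 1 x).mono fun _ hq => (mem_nsh ..).2 (Dp_sub one_pos hq)
  rel n := nsh_rel (K n) (s n)
  bo n _ hx a b c d := (K n).o a b c d _ hx.2
  bl n _ hx := (K n).l _ hx.2
  il n := (K n).il
  la n _ hx a := ((K n).a a _ hx.2).trans (by cases a <;> rfl)
  e a := ⟨fun k x => (Loc66.FCv.fixed (l := (U : Filter α)) (Ω := univ) (F₀ := D.Z) a).mb k x trivial,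
    fun _ => tendsto_const_nhds⟩
  c a b k := .fixed' (D.Z.c_sm a b k)
  a a := .fixed' (h.hD.G.con.sm a)

theorem bd_win (h : ZB D B G) (hs : Deep U K s) (H : (zG U K s).Hyp c) (nb : ∀ x, x ∉ (zG U K s).S c) :
    ∃ C, ∀ᶠ n in (U : Filter α), ∀ y, ‖(c n).m.Fg (G n).F (c n).W ((K n).ψ (y, s n))‖ ≤ C :=
  (bd_cpt (f := fun n x => ‖(zG U K s).Fg c n ((zG U K s).ψ n x)‖) (isCompact_univ.prod
    (isCompact_singleton (x := 0))) fun x _ => bd_of_hyp (zG_ok h hs) H (nb x)).imp fun _ k => k.mono fun n hn y =>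
      (congrArg (fun t => ‖(c n).m.Fg (G n).F (c n).W ((K n).ψ (y, t))‖) (zero_add _)).ge.trans (hn (y, 0) ⟨trivial, rfl⟩)

theorem count {f : ∀ n, X n → ℝ≥0∞} {d C e τ : ℝ} {t : ℕ → ℝ} {a : α → ℝ}
    (he : ∀ᶠ n in (U : Filter α), ∫⁻ x in (K n).dp d, f n x ∂(G n).F.μ ≤ ENNReal.ofReal C)
    (ht : ∀ k : ℕ, (k : ℝ) ≤ |t k|) (e0 : 0 < e) (hp : ∃ᶠ k in atTop, ∀ᶠ n in (U : Filter α), ENNReal.ofReal e ≤
      ∫⁻ x in (K n).tm ⁻¹' Ioo (τ - 1 + (t k + a n)) (τ + 1 + (t k + a n)), f n x ∂(G n).F.μ ∧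
        ∀ t', |t'| ≤ |τ| + 1 → t' + (t k + a n) ∈ Dp (K n).p (K n).q d) : False := by
  obtain ⟨m, hm⟩ := exists_nat_gt (|C| / e)
  obtain ⟨T, p1, p2, p3⟩ := exists_sep ht hp m
  obtain ⟨n, q1, q2⟩ := (((eventually_all_finset T).2 p2).and he).exists
  refine ((ENNReal.ofReal_lt_ofReal_iff_of_nonneg (abs_nonneg C)).2 ((div_lt_iff₀ e0).1 hm)).not_ge
    (le_trans ?_ (q2.trans (ENNReal.ofReal_le_ofReal (le_abs_self C))))
  rw [ENNReal.ofReal_mul m.cast_nonneg, ENNReal.ofReal_natCast, ← p1, ← nsmul_eq_mul]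
  refine (Finset.card_nsmul_le_sum _ _ _ fun k hk => (q1 k hk).1).trans
    ((lintegral_biUnion_finset (fun k hk j hj e => Disjoint.preimage _ (Ioo_disjoint_Ioo.2 ?_))
      (fun k _ => (K n).cont.measurable measurableSet_Ioo) _).symm.trans_le
        (lintegral_mono_set (iUnion₂_subset fun k hk y hy => ?_)))
  · rcases le_abs.1 (p3 hk hj e) with e | e
    exacts [min_le_of_right_le (le_max_of_le_left (by linarith)), min_le_of_left_le (le_max_of_le_right (by linarith))]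
  · have := (q1 k hk).2 ((K n).tm y - (t k + a n)) (abs_le.2
      ⟨by linarith [hy.1, neg_abs_le τ], by linarith [hy.2, le_abs_self τ]⟩)
    rwa [sub_add_cancel] at this

variable (h : ZB D B G) (ha : ∀ n, (c n).Adm (B n) (G n))
  (hd : ∀ᶠ n in (U : Filter α), Dom (G n).F β fun x => ‖(c n).m.p2 (B n) x ((c n).m.Fg (G n).F (c n).W x)‖ ^ 2)
include h ha hd

theorem conc' (hs : Deep U K s) {x : Y × ℝ} (hb : (zG U K s).Bub c x) : ∃ e > 0, ∀ N ∈ 𝓝 x, ∀ᶠ n in (U : Filter α),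
    ENNReal.ofReal e ≤ li (zG U K s) (fun n => en (G n).F (c n) (K n).τ) n N :=
  conc_of hb (nc_of_dom (zG_ok h hs) (notMem_empty x) (fun _ _ => sq_nonneg _) hd) (a := 32) (b := 6) (by norm_num)
    (by norm_num) (fun n => (cont_en (K n) h.hD (h.hB n) (h.hG n) (ha n)).measurable) (fun _ _ => Dgr80.en_nonneg ..)
    (fun _ _ => sq_nonneg _) ((hs.ev 2 x).mono fun q hq => fg_le _ h.hD (h.hB _) (h.hG _) (ha _)
      (Nka63.ψ_mem_O _ zero_le_one (Nka63.Dp_sub_Dq one_lt_two hq)))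

/-- **CONC** -/
theorem conc (hs : Deep U K s) {x : Y × ℝ} (hb : (zG U K s).Bub c x) : ∃ e > 0, ∀ T ∈ 𝓝 x, IsCompact T →
    ∀ᶠ n in (U : Filter α), e ≤ ∫ y in T, eZ D (sh (s n) ((K n).pb (c n))) y ∂D.Z.μ := by
  obtain ⟨e, e0, k⟩ := conc' h ha hd hs hb
  refine ⟨e, e0, fun T hT hc => ?_⟩
  filter_upwards [k _ (interior_mem_nhds.2 hT), ev_compact hc (p := fun n x => x.2 + s n ∈ Dp (K n).p (K n).q 2)
    fun x _ => hs.ev 2 x] with n h1 h2
  have c1 := cont_en (K n) h.hD (h.hB n) (h.hG n) (ha n)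
  rw [li_eq (zG_ok h hs) isOpen_interior c1] at h1
  rw [← setIntegral_congr_fun hc.measurableSet fun y hy => en_nsh (K n) (s n) h.hD (h.hB n) (h.hG n)
    (Nka63.Dp_sub_Dq one_lt_two (h2 y hy)), ← ENNReal.ofReal_le_ofReal_iff (integral_nonneg fun _ => Dgr80.en_nonneg ..),
    ofReal_integral_eq_lintegral_ofReal (f := fun y => en (G n).F (c n) (K n).τ (nsh (K n) (s n) y))
      ((c1.comp_continuousOn ((nsh (K n) (s n)).continuousOn.mono fun y hy =>
      (mem_nsh ..).2 (Dp_sub two_pos (h2 y hy)))).integrableOn_compact hc) (.of_forall fun _ => Dgr80.en_nonneg ..)]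
  exact h1.trans (lintegral_mono_set (inter_subset_left.trans interior_subset))

variable (U K c) in
omit h ha hd in
/-- the hypotheses of COMP hold for all deep windows -/
def HypZ : Prop := ∀ V : Ultrafilter (α × ℝ), Tendsto (Prod.fst : α × ℝ → α) V U →
  Deep V (fun p => K p.1) Prod.snd → (zG V (fun p => K p.1) Prod.snd).Hyp fun p => c p.1

variable (H : HypZ U K c) {d C : ℝ} (he : ∀ᶠ n in (U : Filter α),
  ∫⁻ x in (K n).dp d, ENNReal.ofReal (en (G n).F (c n) (K n).τ x) ∂(G n).F.μ ≤ ENNReal.ofReal C)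
include H he

/-- **BF far out** -/
theorem bf_far (a : α → ℝ) : ∃ C R : ℝ, ∀ t, R ≤ |t| → (∀ᶠ n in (U : Filter α), t + a n ∈ Dp (K n).p (K n).q R) →
    ∀ᶠ n in (U : Filter α), ∀ y, ‖(c n).m.Fg (G n).F (c n).W ((K n).ψ (y, t + a n))‖ ≤ C := by
  by_contra hn
  push Not at hn
  choose t t1 t2 t3 using fun k : ℕ => hn k k
  obtain ⟨V, ev⟩ : ∃ V : Ultrafilter (α × ℝ), ∀ {p : α × ℝ → Prop}, (∀ᶠ q in (V : Filter _), p q) ↔
      ∀ᶠ k in (hyperfilter ℕ : Filter ℕ), ∀ᶠ n in (U : Filter α), p (n, t k + a n) :=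
    ⟨(hyperfilter ℕ).bind fun k => U.map fun n => (n, t k + a n), eventually_bind⟩
  have at' : ∀ R : ℝ, ∀ᶠ k : ℕ in (hyperfilter ℕ : Filter ℕ), R ≤ k := fun R =>
    Nat.hyperfilter_le_atTop (tendsto_natCast_atTop_atTop.eventually_ge_atTop R)
  have v1 : Tendsto (Prod.fst : α × ℝ → α) V U := fun _ hs => ev.2 (.of_forall fun _ => hs)
  have v2 : Deep V (fun p => K p.1) Prod.snd := fun R => ev.2 ((at' R).mono fun k hk => (t2 k).mono fun _ => by
    apply Dp_mono hk)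
  have h' : ZB D (fun p : α × ℝ => B p.1) fun p => G p.1 := ⟨h.h3, h.hD, fun _ => h.hB _, fun _ => h.hG _⟩
  have nb : ∀ x, x ∉ (zG V (fun p => K p.1) Prod.snd).S fun p => c p.1 := fun x hx => by
    obtain ⟨e, e0, k⟩ := conc' h' (fun _ => ha _) (v1.eventually hd) v2 (hx.resolve_left (notMem_empty x))
    refine count he t1 e0 (τ := x.2) (a := a) (((ev.1 ((k _ ((win_op x.2 1).mem_nhds ⟨trivial, by simp, by simp⟩)).and
      (v2.cw d (|x.2| + 1)))).mono fun j hj => hj.mono fun n hn => ⟨hn.1.trans (lintegral_mono_set ?_),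
        hn.2⟩).frequently.filter_mono Nat.hyperfilter_le_atTop)
    rintro _ ⟨y, hy, rfl⟩
    exact (congrArg (· ∈ Ioo _ _) (tm_nsh _ _ hy.2)).mpr ⟨add_lt_add_left hy.1.2.1 _, add_lt_add_left hy.1.2.2 _⟩
  obtain ⟨C', k⟩ := bd_win h' v2 (H V v1 v2) nb
  obtain ⟨j, j1, j2⟩ := ((ev.1 k).and (at' C')).exists
  obtain ⟨n, ⟨y, n1⟩, n2⟩ := (Eventually.and (t3 j) j1).exists
  exact n1.not_ge ((n2 y).trans j2)

/-- **BF on the cylinder** -/
theorem bf_cyl (hs : Deep U K s) {b : Cfg (Y × ℝ) (Option κ) lam r} {S : Set (Y × ℝ)}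
    {u : ∀ n, Y × ℝ → CL (c n).m.V b.m.V} (l : (zG U K s).Lim c b S u) : ∃ R, ∀ x, ‖b.m.Fg D.G.F b.W x‖ ≤ R := by
  obtain ⟨C', R, k⟩ := bf_far h ha hd H he s
  refine bf_of (zG_ok h hs) ha l (cwin_cpt 0 R) (C := C') fun x hx => (k x.2 (le_of_not_gt fun e => hx
    ⟨trivial, by linarith [(abs_lt.1 e).1], by linarith [(abs_lt.1 e).2]⟩)
      ((hs.cw R _).mono fun n hn => hn _ le_rfl)).mono fun n hn => hn x.1

end Crest.Agent.X212.Shi84

end
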