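import Crest.Agent.X212.Shi84.Jl0
import Crest.Agent.X212.M.Scn
import Crest.Agent.X212.Pat85.Fj

/-!
# BFJ, JLJ, ULJ (helper84): leaves of `J.Comp`
-/

set_option autoImplicit false
set_option linter.unusedSectionVars false
open Set Filter Topology MeasureTheory
open scoped Manifold ContDiff

noncomputable section

namespace Crest.Agent.X212.Shi84

open An An.Job M Nd18 Cmp73 Eqv71

variable {Wi : Type} {X : Mf 4} {A κ lam : Type} [Fintype A] [Fintype κ] [Fintype lam]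
  [DecidableEq lam] {M : Mark X A κ} {W : World M} {N : ML M lam} {Λ : Lns W N} {A' h : Type}
  [Fintype A'] [DecidableEq A'] [Fintype h] {r n : ℕ} {J : Job Wi Λ A' h r n}
  {Adm : (Wi →₀ ℝ) → Prop} {α : Type} {c c₀ : M.Cl} {F : Fam J α c c₀} (hJ : J.OK) {a : A}
include hJ

theorem nl_job (k : F.OK Adm) {S : F.Sc} (hS : S.OK) {e : Option Bool} (ha : F.Ac a e) {β : Bool}
    (hb : F.Ac₀ a (some β)) (he : e = none ∨ some β = e) : NL S.up (fun i => S.K a e i (ha i))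
      (fun i => J.K c a e _ (ha i)) (J.K c₀ a _ _ hb) fun i => ls e (some β) ((F.p i).2 a) := by
  have t := fam_tend k hJ
  refine ⟨hS.jf.lit' t ha (fun i => hS.hn a e i (ha i)) hb he (hJ.nk ..), fun i ⟨y, τ⟩ hz => ?_, fun d R => ?_,
    let ⟨_, o⟩ := hS.nu a e ha; (o.S.one ⟨_, hb, he⟩).P⟩
  · have h1 := hS.hn a e i (ha i)
    have h2 := (hJ.nk c a e _ (ha i)).hn (ha i)
    obtain ⟨s, hs, rfl⟩ := (Cht98.bijOn_len h1.le (e.getD false)).surjOn (show τ ∈ _ by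
      rw [← h1.p, ← h1.q]; exact (S.K a e i (ha i)).mem_src.1 hz)
    have q := (h1.ψ y s hs).trans (h2.ψ y s hs).symm
    have m : S.j _ ∈ _ := mem_of_eq_of_mem q ((J.K c a e _ (ha i)).ψ.map_source (h2.src y hs))
    refine ⟨h2.src y hs, q, Eq.trans ?_ (congrArg _ q)⟩
    cases hS.src with
    | cy => rfl
    | pn _ h _ k' => exact congrArg Line51.rl ((hJ.nk ..).xu_eq h (ha i) (k' a e i (ha i)) m)
  have p := fun i => (hJ.nk c a e _ (ha i)).lo
  have q := fun i => (hJ.nk c a e _ (ha i)).hi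
  simp only [p, q, (hJ.nk c₀ a _ _ hb).lo, (hJ.nk c₀ a _ _ hb).hi]
  rcases he with rfl | rfl
  · have t' : Tendsto (fun i => (F.p i).2 a) F.l (𝓝[<] 1) := tendsto_nhdsWithin_iff.2
      ⟨(show F.p₀.2 a = 1 from hb.2.1.2 hb.2.2.2) ▸ tend_a t ha, .of_forall fun i => (ha i).2.2.1 a (ha i).2.2.2.2.1⟩
    refine ((tendsto_nl.comp t').eventually_ge_atTop (R + d)).mono fun i hi τ h1 h2 => ?_
    have := abs_le.1 h2
    cases β <;> simp [Dp, ls] at hi h1 ⊢ <;> constructor <;> linarith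
  · exact .of_forall fun i τ h1 _ => by simpa [ls] using h1

/-- **JLJ** -/
theorem jlj : JLJ J Adm := fun _ _ _ _ k _ hS _ _ hb a _ ha _ h1 he =>
  have H := nl_job hJ k hS ha h1 he
  have ad := fun i => (k.sol i).sol.toAdm
  let ⟨_, _, bd⟩ := k.bd
  (H.cvc hS.up hb.lb.lim ad).imp fun _ h => ⟨h, fun _ => H.conc hS.up (hJ.xs a).1.yd ad fun i => (bd i).g.p2⟩

/-- **BFJ** -/
theorem bfj : BFJ J Adm := fun _ c c₀ F k S hS hN hy b u l => by
  have key : ∀ i : Fin37.Ix J c₀ F.s₀, ∃ C, ∀ᶠ R in atTop, ∀ x ∈ Nka63.O (Fin37.nk J i) R,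
      ∀ᶠ n in (F.l : Filter _), ‖S.g.Fg S.x n (S.g.ψ n x)‖ ≤ C := by
    rintro ⟨⟨a, _ | β⟩, hb⟩
    · refine ⟨0, (eventually_gt_atTop |nl (F.p₀.2 a)|).mono fun R hR x hx => ?_⟩
      have := Nka63.O_sub_dp _ hx
      have h1 := this.1 0 (by rw [(hJ.nk c₀ a _ _ hb).lo]; rfl)
      have h2 := this.2 (nl (F.p₀.2 a)) (by rw [(hJ.nk c₀ a _ _ hb).hi]; rfl)
      linarith [le_abs_self (nl (F.p₀.2 a)), abs_nonneg (nl (F.p₀.2 a))]
    have h0 : a ∈ cylW c₀ := ⟨hb.2.2.2, hb.1⟩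
    obtain ⟨e, ha, he⟩ : ∃ e, F.Ac a e ∧ (e = none ∨ some β = e) := by
      by_cases hc : a ∈ c.1
      exacts [⟨some β, fun i => ⟨hb.1, hJ.memBr k.mem (k.sol i).ov, fam_O k hJ i, hc⟩, .inr rfl⟩,
        ⟨_, (k.new a h0).1 hc, .inl rfl⟩]
    have H := nl_job hJ k hS ha hb he
    obtain ⟨h1, h2⟩ := hN a h0 e ha
    obtain ⟨_, C, ap⟩ := h1.ap
    obtain ⟨C', R, f⟩ := far_cz ⟨h1.h3, h1.hD, fun i => (ap i).1.lh.hB, fun i => (ap i).1.lh.hG⟩
      (fun i => (h1.sol i).toAdm) (.of_forall fun i => en_of_lb _ (ap i).2.en) h2 fun i => ls e (some β) ((F.p i).2 a)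
    refine ⟨C', ((eventually_ge_atTop R).and (eventually_ge_atTop 0)).mono fun R' hR x hx => H.bf hS.up f
      (fun t ht => ?_) (Nka63.O_sub _ hR.2 hx) (Nka63.dp_mono _ hR.1 (Nka63.O_sub_dp _ hx))⟩
    simp only [(hJ.nk c₀ a _ _ hb).lo, (hJ.nk c₀ a _ _ hb).hi] at ht
    cases β <;> simp [Dp] at ht
    exacts [ht.trans (le_abs_self _), (le_neg.1 ht).trans (neg_le_abs _)]
  choose C hC using key
  obtain ⟨R, hR⟩ := (eventually_all.2 hC).exists
  obtain ⟨C', h1⟩ := (finite_range C).bddAbove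
  refine bf_of hS.up.bk.ok hy.adm l (Pat85.cpt hJ c₀ _ ⟨_, k.mem, k.cell, k.inf⟩ R) (C := C') fun x hx => ?_
  obtain ⟨i, hi⟩ := not_forall.1 hx
  exact (hR i x (not_not.1 hi)).mono fun _ h => h.trans (h1 ⟨i, rfl⟩)

/-- **ULJ** -/
theorem ulj (scn : SCN J Adm) : ULJ J Adm := fun _ c c₀ F k h' b u hb hE => by
  have bk := ((scn _ _ _ F k).1 h').up.bk
  have l := hb.lb.lim
  have nS : ∀ x, x ∉ (F.cy h').E := fun x => hE ▸ notMem_empty x
  have key : ∀ x, ∃ O, IsOpen O ∧ x ∈ O ∧ ∀ᶠ i in (F.l : Filter _), ∀ y ∈ O,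
      (F.cy h').g.Nr (F.cy h').x b u i y ∧ (F.cy h').ga b u i y = u i y := fun x => by
    obtain ⟨_, h1, T, h2, h3⟩ := eventually_prod_iff.1 (l.nr bk.ok bk.adm (nS x))
    refine ⟨_, isOpen_interior, mem_interior_iff_mem_nhds.2 h2, h1.mono fun i hi y hy => ?_⟩
    have q := h3 hi (interior_subset hy)
    exact ⟨q, (congrArg _ (trn_of_sym ((bk.adm i).ok.psym _))).trans (comp_proj q.me.uu ((bk.adm i).ok.pidem _))⟩
  have ev := fun x => let ⟨_, o1, o2, q⟩ := key x; (q.prod_mk (o1.mem_nhds o2)).mono fun q hq =>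
    (o1.eventually_mem hq.2).mono fun y hy => (hq.1 y hy).2
  refine ⟨fun x _ => (key x).imp fun O q => ⟨q.1, q.2.1, q.2.2.mono fun i hi => ⟨fun y hy =>
      (hi y hy).1.su.contMDiffWithinAt.congr (fun z hz => (hi z hz).2) (hi y hy).2, ?_, ?_, ?_, ?_, ?_⟩⟩,
    fun a => ((l.A a).mono le_rfl fun x _ => nS x).congr (fun x _ => (ev x).mono fun q hq => ?_) fun _ _ => rfl,
    (l.Φ.mono le_rfl fun x _ => nS x).congr (fun x _ => (ev x).mono fun q hq => ?_) fun _ _ => rfl,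
    by simp only [Circle.coe_one, one_pow, one_smul]; exact l.z⟩
  rotate_left 2
  iterate 5 intro y hy; rw [(hi y hy).2]; rotate_left
  rotate_left 2
  exacts [(hi y hy).1.me.uu, (hi y hy).1.me.uu', (hi y hy).1.me.J, (hi y hy).1.me.ρ, (hi y hy).1.me.j,
    congrArg₂ (fun (T v : CL (F.y q.1).x.m.V b.m.V) => (T + b.W a q.2 ∘L v - v ∘L (F.y q.1).x.W a (W.up c c₀ q.2)) ∘L
      trn v) ((Sob92.dv_congr hq).trans (congrArg (fun e : Option κ → _ => Sob92.dv _ (Met55.pbv _ _ (W.up c c₀) (e a))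
        (u q.1) q.2) ((W.L J.m c).F_e (Mark.mem_Ω _ (fam_O k hJ q.1))).symm)) hq.self_of_nhds, by rw [hq.self_of_nhds, Circle.coe_one, cs_one]; rfl]

end Crest.Agent.X212.Shi84

end
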