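import Crest.Agent.X212.Shi84.Zg
import Crest.Agent.X212.Cmp73.Up
import Crest.Agent.X212.Pj41.Nkg

/-!
# BF, JL (helper84): limits seen in the coordinates of a neck
-/

set_option autoImplicit false
set_option linter.unusedSectionVars false
open Set Filter Topology Metric MeasureTheory
open scoped Manifold ContDiff NNReal InnerProductSpace ENNReal

noncomputable section

namespace Crest.Agent.X212.Shi84

open Cmp73 An Nd18 Cyf70 Bki64 Eqv71 Pj41 Tmp64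
open Mp86 (Dom)
open Dgr80 (en)

variable {E : Type} [NormedAddCommGroup E] [NormedSpace ℝ E] [FiniteDimensional ℝ E]
  [MeasurableSpace E] [BorelSpace E]
  {HM : Type} [TopologicalSpace HM] {I : ModelWithCorners ℝ E HM} [I.Boundaryless]
  {E' : Type} [NormedAddCommGroup E'] [NormedSpace ℝ E'] [FiniteDimensional ℝ E']
  [MeasurableSpace E'] [BorelSpace E']
  {H' : Type} [TopologicalSpace H'] {I' : ModelWithCorners ℝ E' H'} [I'.Boundaryless]
  {E₀ : Type} [NormedAddCommGroup E₀] [NormedSpace ℝ E₀] [FiniteDimensional ℝ E₀]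
  [MeasurableSpace E₀] [BorelSpace E₀]
  {H₀ : Type} [TopologicalSpace H₀] {I₀ : ModelWithCorners ℝ E₀ H₀} [I₀.Boundaryless]
  {M : Type} [TopologicalSpace M] [ChartedSpace HM M] [IsManifold I ∞ M] [MeasurableSpace M]
  [BorelSpace M] [T2Space M] [SecondCountableTopology M]
  {M' : Type} [TopologicalSpace M'] [ChartedSpace H' M'] [IsManifold I' ∞ M'] [MeasurableSpace M']
  [BorelSpace M'] [T2Space M'] [SecondCountableTopology M']
  {N : Type} [TopologicalSpace N] [ChartedSpace H₀ N] [IsManifold I₀ ∞ N] [MeasurableSpace N]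
  [BorelSpace N] [T2Space N] [SecondCountableTopology N] {lam α : Type} [Fintype lam] {r : ℕ}

section gen
variable {ι : Type} [Fintype ι]

theorem cv_comp {V : Type} [NormedAddCommGroup V] [NormedSpace ℝ V] {l : Filter α} {f : α → M → V} {f' : M → V}
    {O : Set M} {Ω : Set N} {k : N → M} (h : Cv I l O f f') (hΩ : IsOpen Ω) (m : MapsTo k Ω O)
    (sm : ∀ z ∈ Ω, ContMDiffAt I₀ I ∞ k z) : Cv I₀ l Ω (fun i z => f i (k z)) fun z => f' (k z) := by
  refine ⟨fun j z hz => ?_, fun z hz => h.pt _ (m hz)⟩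
  have t := tend_symm (I := I₀) (mem_chart_source H₀ z)
  have hs := (sm z hz).continuousAt.eventually (chart_source_mem_nhds HM (k z))
  refine (Pat85.CB.comp_fixed (ψ := fun y => extChartAt I (k z) (k ((extChartAt I₀ z).symm y)))
    (by rw [extChartAt_to_inv]; exact h.mb j _ (m hz)) (ev_smooth_chart (φ := fun y => extChartAt I (k z) (k y)) (mem_chart_source H₀ z) ?_)).congr
    ((tendsto_snd.eventually (t.eventually hs).eventually_nhds).mono fun q hq => hq.mono fun y hy => ?_)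
  · filter_upwards [hs, hΩ.mem_nhds hz] with y h1 h2 using (contMDiffAt_extChartAt' h1).comp y (sm y h2)
  · simp only
    rw [(extChartAt I (k z)).left_inv (by rw [extChartAt_source]; exact hy)]

theorem lint_iso {P : Fr I M ι} {P' : Fr I' M' ι} {ψ : OpenPartialHomeomorph M M'} (h : An.Iso P.toPre P'.toPre ψ)
    {A : Set M} (hA : IsOpen A) (hs : A ⊆ ψ.source) {f : M' → ℝ≥0∞} (hf : Measurable f) :
    ∫⁻ y in ψ '' A, f y ∂P'.μ = ∫⁻ y in A, f (ψ y) ∂P.μ := by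
  have o := (ψ.isOpen_image_of_subset_source hA hs).measurableSet
  have m := ψ.open_source.measurableSet
  rw [← Measure.restrict_restrict_of_subset (t := ψ.target) (image_subset_iff.2 fun y hy => ψ.map_source (hs hy)),
    ← h.μ, ← lintegral_indicator o, lintegral_map' (hf.indicator o).aemeasurable (ψ.continuousOn.aemeasurable m),
    ← Measure.restrict_restrict_of_subset hs, ← lintegral_indicator hA.measurableSet]
  refine setLIntegral_congr_fun m fun y hy => ?_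
  by_cases e : y ∈ A
  · rw [indicator_of_mem e, indicator_of_mem (mem_image_of_mem _ e)]
  · rw [indicator_of_notMem e, indicator_of_notMem]
    exact fun ⟨z, hz, k⟩ => e (ψ.injOn (hs hz) hy k ▸ hz)

theorem eq0_congr {F : Fr I₀ N ι} {j j' : N → M} {O : Set N} {c : Cfg N ι lam r} {y : Cfg M ι lam r}
    {u : N → CL c.m.V y.m.V} (h : Eq0 F c (cmC j y) O u) (e : ∀ z ∈ O, j z = j' z) : Eq0 F c (cmC j' y) O u := by
  refine ⟨⟨h.iso.su, fun z hz => ?_, h.iso.J, fun z hz => ?_, fun z hz => ?_⟩, fun z hz => ?_, fun z hz => ?_, h.z⟩ <;>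
    dsimp only <;> rw [← e z hz]
  exacts [h.iso.iso z hz, h.iso.ρ z hz, h.iso.j z hz, h.par z hz, h.Φ z hz]

section pb
variable {B : Base M ι lam} {G : Geo I M ι lam} {B' : Base M' ι lam} {G' : Geo I' M' ι lam} {O' : Set M'}
  {φ : M → M'} {ψ : M' → M} {U : M → ι → ι → ℝ} {v : M → CL (Eu lam) (Eu lam)} {c : Cfg M ι lam r}
  {y : Cfg M' ι lam r} {u : M → CL c.m.V y.m.V} (k : PB B G B' G' O' φ ψ U v c y u)
include k

theorem pb_dom {β : ℝ} {f : M' → ℝ} (h : Dom G'.F β f) : Dom G.F β fun x => f (φ x) := by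
  obtain ⟨h, h1, h2⟩ := h
  refine ⟨fun x => h (φ x), fun x => k.kg.rot.sa_comp trivial (h1 _), fun x =>
    ⟨(h2 _).1, (h2 _).2.1, (h2 _).2.2.trans_eq ?_⟩⟩
  have := k.kg.rot.lap' (A' := fun _ _ => 0) (geo_frm k.kg.hG) (geo_frm k.kg.hG') (mem_univ x)
    (k.kg.toLG.dvF trivial) (fun _ => contMDiffAt_const) (.of_forall fun _ _ => by simp) (h1 _)
  have e : Eqv71.pb φ (fun b a x => U x b a) (fun _ _ => (0 : ℝ →L[ℝ] ℝ)) = fun _ _ => 0 :=
    funext₂ fun _ _ => by simp [Eqv71.pb]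
  have e1 : ∀ a u, Wz78.nab I' G'.F.e (fun _ _ => (0 : ℝ →L[ℝ] ℝ)) a u = _ := fun _ _ => funext fun _ => add_zero _
  have e2 : ∀ a u, Wz78.nab I G.F.e (fun _ _ => (0 : ℝ →L[ℝ] ℝ)) a u = _ := fun _ _ => funext fun _ => add_zero _
  simpa only [Wz78.lap, e, e1, e2, neg_inj, Mp86.Lop] using this

/-- literal frames and lines: the pull-back is literal -/
theorem pb_eq0 {F : Fr I₀ N ι} {j : N → M} {O : Set N} (h : FRel F G.F j O) (h' : FRel F G'.F (fun z => φ (j z)) O)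
    (hv : ∀ z ∈ O, v (j z) = B'.l (φ (j z))) :
    Eq0 F (cmC j c) (cmC (fun z => φ (j z)) y) O fun z => u (j z) := by
  have hP : ∀ z ∈ O, ∀ a b, B.P a b (j z) = B'.P a b (φ (j z)) := fun z hz a b => by
    rw [← k.kg.hG.P, ← k.kg.hG'.P, ← h.P hz, h'.P hz]
  have hU : ∀ z ∈ O, ∀ b a, U (j z) b a = B'.P a b (φ (j z)) := fun z hz b a => by
    classical
    have e : ∀ a, mfderiv I I' φ (j z) (G.F.e a (j z)) = G'.F.e a (φ (j z)) := fun a => by
      rw [← h.e a z hz, ← h'.e a z hz]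
      exact (mfderiv_comp_apply z (k.kg.rot.md trivial)
        ((h.ld z hz).contMDiffAt.mdifferentiableAt (by simp)) _).symm
    have := geo_ker k.kg.hG' (φ (j z)) (fun a => U (j z) b a - if a = b then 1 else 0) (by
      simp only [sub_smul, Finset.sum_sub_distrib, ite_smul, one_smul, zero_smul, Finset.sum_ite_eq',
        Finset.mem_univ, if_true, sub_eq_zero]
      rw [k.kg.rot.fr b _ trivial]; simp only [e]) a
    simp only [mul_sub, Finset.sum_sub_distrib, mul_ite, mul_one, mul_zero, Finset.sum_ite_eq', Finset.mem_univ,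
      if_true, sub_eq_zero] at this
    rw [← this, ← (k.kg.be _ trivial).UP k.kg.hB]
    exact Finset.sum_congr rfl fun i _ => by rw [hP z hz, mul_comm, (k.kg.hB'.pr _).symm]
  have su := fun z hz => h.sm hz (k.lm.su (j z) trivial)
  refine ⟨⟨su, fun z hz => CIso.of_prj (k.lm.ok.pidem _) (by rw [ad_trn]; exact (k.lm.me _ trivial).uu)
    (by rw [ad_trn]; exact (k.lm.me _ trivial).uu'), fun z _ => (k.lm.me _ trivial).J.symm, fun z hz b => ?_,
    fun z hz s => ?_⟩, fun z hz a => ?_, fun z _ => k.Φ _, k.z⟩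
  · have := (k.lm.me (j z) trivial).ρ b
    simp only [hU z hz, ← hP z hz, (k.kg.hB.pr _).symm _ b] at this
    rwa [(k.lm.ok.cl _).proj b] at this
  · have := (k.lm.me (j z) trivial).j s
    rwa [hv z hz, k.lm.ok'.jl] at this
  · have := k.lm.itw (j z) trivial a
    simp only [Eqv71.pb, hU z hz] at this
    rw [k.lm.cn'.cc.proj a] at this
    rw [h.D hz a (u' := u) (.of_forall fun _ => rfl), sub_eq_zero]
    exact this

end pb

theorem cvc_eq0 {F : Fr I M ι} {l : Filter α} {Ω : Set M} {c d : α → Cfg M ι lam r} {c' : Cfg M ι lam r}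
    {w : ∀ n, M → CL (c n).m.V c'.m.V} {t : ∀ n, M → CL (d n).m.V (c n).m.V} (hΩ : IsOpen Ω)
    (h : ∀ z ∈ Ω, ∃ O ∈ 𝓝 z, ∀ᶠ n in l, Iso0 I (c n).m c'.m O (w n) ∧ Eq0 F (d n) (c n) O (t n))
    (hA : ∀ a, Cv I l Ω (fun n => Bki64.dA F (c n) c' (w n) a) fun _ => 0)
    (hP : Cv I l Ω (fun n z => w n z ((c n).Φ z)) c'.Φ) (sm : ∀ z ∈ Ω, FSm I c'.Φ z) :
    CvC F l (ρ := fun _ => r) d c' (fun n z => w n z ∘L t n z) Ω := by
  have := Manifold.locallyCompact_of_finiteDimensional (M := M) I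
  refine CvC.of_cv hΩ (fun z hz => (h z hz).imp fun O k => ⟨k.1, k.2.mono fun n a => a.2.iso.trans a.1⟩)
    (fun a => (hA a).congr (fun z hz => ?_) fun _ _ => rfl)
    ((hP.sub (.fixed hΩ sm)).congr (fun z hz => ?_) fun _ _ => (sub_self _).symm) <;>
  obtain ⟨O, o, k⟩ := h z hz <;> refine (k.prod_mk o).mono fun q hq => ?_
  · have : Bki64.dA F (d q.1) (c q.1) (t q.1) a q.2 = 0 :=
      (congrArg (· ∘L _) (hq.1.2.par _ hq.2 a)).trans (ContinuousLinearMap.zero_comp _)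
    rw [dA_comp hq.1.2.iso hq.1.1 hq.2, this]
    simp
  · rw [Bki64.dP, hq.1.2.Φ _ hq.2, Circle.coe_one, cs_one]; rfl

end gen

variable {E3 : Type} [NormedAddCommGroup E3] [NormedSpace ℝ E3] [FiniteDimensional ℝ E3]
  [MeasurableSpace E3] [BorelSpace E3]
  {H3 : Type} [TopologicalSpace H3] {I3 : ModelWithCorners ℝ E3 H3} [I3.Boundaryless]
  {Y : Type} [TopologicalSpace Y] [ChartedSpace H3 Y] [IsManifold I3 ∞ Y] [T2Space Y]
  [MeasurableSpace Y] [BorelSpace Y] [SecondCountableTopology Y] [CompactSpace Y]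
  {κ : Type} [Fintype κ] {D : YD I3 Y κ lam}

section one
variable {B : Base M (Option κ) lam} {G : Geo I M (Option κ) lam} (K : Nk D B G) (s : ℝ)
  {c : Cfg M (Option κ) lam r} (hc : c.Adm B G)
include hc

theorem adm_nsh : AdmOn (sh s (K.pb c)) D.B D.G (nsh K s).source :=
  (admOn_sh ((nk_gRel K).admOn_iff.2 ((admOn_univ.2 hc).mono (subset_univ _))) s).mono fun _ h => h.2

theorem lint_nsh (hD : D.OK) (hB : B.OK I) (hG : G.OK B) {O : Set (Y × ℝ)} (hO : IsOpen O)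
    (hs : ∀ z ∈ O, z.2 + s ∈ Dp K.p K.q 2) :
    ∫⁻ x in nsh K s '' O, ENNReal.ofReal (en G.F c K.τ x) ∂G.F.μ =
      ∫⁻ z in O, ENNReal.ofReal (eZ D (sh s (K.pb c)) z) ∂D.Z.μ :=
  (lint_iso ((nsh_rel K s).iso hD.G.vol hG.vol) hO (fun z hz => (mem_nsh ..).2 (Dp_sub two_pos (hs z hz)))
    (cont_en K hD hB hG hc).measurable.ennreal_ofReal).trans (setLIntegral_congr_fun hO.measurableSet
      fun z hz => congrArg _ (en_nsh K s hD hB hG (Nka63.Dp_sub_Dq one_lt_two (hs z hz))))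

end one

variable {X : α → Type} [∀ n, TopologicalSpace (X n)] [∀ n, ChartedSpace HM (X n)]
  [∀ n, IsManifold I ∞ (X n)] [∀ n, MeasurableSpace (X n)] [∀ n, BorelSpace (X n)] [∀ n, T2Space (X n)]
  [∀ n, SecondCountableTopology (X n)]

/-- **BF far out** from the compactness of windows -/
theorem far_cz {B : ∀ n, Base (X n) (Option κ) lam} {G : ∀ n, Geo I (X n) (Option κ) lam} {U : Ultrafilter α}
    {K : ∀ n, Nk D (B n) (G n)} {c : ∀ n, Cfg (X n) (Option κ) lam r} (h : ZB D B G)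
    (ha : ∀ n, (c n).Adm (B n) (G n)) {d C : ℝ} (he : ∀ᶠ n in (U : Filter α),
      ∫⁻ x in (K n).dp d, ENNReal.ofReal (en (G n).F (c n) (K n).τ x) ∂(G n).F.μ ≤ ENNReal.ofReal C)
    {N : ND Y lam} {q : YW I3 Y →₀ ℝ} (H : ∀ V : Ultrafilter (α × ℝ), Tendsto (Prod.fst : α × ℝ → α) V U →
      Deep V (fun p => K p.1) Prod.snd →
        ∃ γ S v, Lm N D q V (ρ := fun _ => r) (fun p : α × ℝ => sh p.2 ((K p.1).pb (c p.1))) γ S v) (a : α → ℝ) :
    ∃ C R : ℝ, ∀ t, R ≤ |t| → (∀ᶠ n in (U : Filter α), t + a n ∈ Dp (K n).p (K n).q R) →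
      ∀ᶠ n in (U : Filter α), ∀ y, ‖(c n).m.Fg (G n).F (c n).W ((K n).ψ (y, t + a n))‖ ≤ C := by
  by_contra hn
  push Not at hn
  choose t t1 t2 t3 using fun k : ℕ => hn k k
  obtain ⟨V, ev⟩ : ∃ V : Ultrafilter (α × ℝ), ∀ {p : α × ℝ → Prop}, (∀ᶠ q in (V : Filter _), p q) ↔
      ∀ᶠ k in (hyperfilter ℕ : Filter ℕ), ∀ᶠ n in (U : Filter α), p (n, t k + a n) :=
    ⟨(hyperfilter ℕ).bind fun k => U.map fun n => (n, t k + a n), eventually_bind⟩
  have at' : ∀ R : ℝ, ∀ᶠ k : ℕ in (hyperfilter ℕ : Filter ℕ), R ≤ k := fun R =>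
    Nat.hyperfilter_le_atTop (tendsto_natCast_atTop_atTop.eventually_ge_atTop R)
  have v2 : Deep V (fun p => K p.1) Prod.snd := fun R => ev.2 ((at' R).mono fun k hk => (t2 k).mono fun _ => by
    apply Dp_mono hk)
  obtain ⟨γ, S, v, L⟩ := H V (fun _ hs => ev.2 (.of_forall fun _ => hs)) v2
  have nb : ∀ x, x ∉ S := fun x hx => by
    obtain ⟨e, e0, k⟩ := L.conc x hx
    have sb : cw Y x.2 (1 / 2) ⊆ win Y x.2 1 := prod_mono_right (Icc_subset_Ioo (by linarith) (by linarith))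
    refine count he t1 e0 (τ := x.2) (a := a) (((ev.1 ((k _ (cw_nhds x one_half_pos) (cwin_cpt ..)).and
      ((v2.cw d (|x.2| + 1)).and (v2.cw 2 (|x.2| + 1))))).mono fun j hj => hj.mono fun n hn => ⟨?_,
        hn.2.1⟩).frequently.filter_mono Nat.hyperfilter_le_atTop)
    have w : ∀ z ∈ win Y x.2 1, z.2 + (t j + a n) ∈ Dp (K n).p (K n).q 2 := fun z hz => hn.2.2 _ (abs_le.2
      ⟨by linarith [hz.2.1, neg_abs_le x.2], by linarith [hz.2.2, le_abs_self x.2]⟩)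
    refine ((ENNReal.ofReal_le_ofReal hn.1).trans ((Real.ofReal_le_enorm _).trans
      ((enorm_integral_le_lintegral_enorm _).trans (lintegral_mono_set sb)))).trans (le_of_eq_of_le
        ((lintegral_congr fun _ => Real.enorm_eq_ofReal (Dgr80.en_nonneg ..)).trans (lint_nsh (K n) _ (ha n) h.hD
          (h.hB n) (h.hG n) (win_op ..) w).symm) (lintegral_mono_set ?_))
    rintro _ ⟨y, hy, rfl⟩
    exact (congrArg (· ∈ Ioo _ _) (tm_nsh _ _ ((mem_nsh ..).2 (Dp_sub two_pos (w y hy))))).mpr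
      ⟨add_lt_add_left hy.2.1 _, add_lt_add_left hy.2.2 _⟩
  have ag := admOn_univ.2 L.sol.toAdm
  obtain ⟨C', c1, c2⟩ := ((q_bd h.hD.B isOpen_univ ag (cwin_cpt 0 1) (subset_univ _)).and (exists_bd
    (f := fun s => qF D.Z γ s s) (cwin_cpt 0 1) fun s x _ => fsm_inner (fsm_Fg h.hD.B isOpen_univ ag trivial s)
      (fsm_Fg h.hD.B isOpen_univ ag trivial s))).exists
  obtain ⟨j, j1, j2⟩ := ((ev.1 ((L.cv.cz (cwin_cpt 0 1) (fun x _ => nb x) (win_op 0 1) (win_cw ..) 1 1 one_pos).and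
    (v2.cw 1 1))).and (at' √(Fintype.card (Option κ × Option κ) * (C' + C')))).exists
  obtain ⟨n, ⟨y, n1⟩, n2, n3⟩ := (Eventually.and (t3 j) j1).exists
  have m : win Y 0 1 ⊆ (nsh (K n) (t j + a n)).source := fun z hz => (mem_nsh ..).2 (Dp_sub one_pos (n3 _ (abs_le.2
    ⟨by linarith [hz.2.1], by linarith [hz.2.2]⟩)))
  have y0 : (y, 0) ∈ win Y 0 1 := ⟨trivial, by simp⟩
  refine n1.not_ge (le_trans ?_ j2)
  rw [← zero_add (t j + a n), ← nsh_apply _ _ (y, 0), ← (nsh_rel ..).Fg (m y0), PiLp.norm_eq_of_L2,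
    ← nsmul_eq_mul]
  refine Real.sqrt_le_sqrt (Finset.sum_le_card_nsmul _ _ _ fun s _ => ?_)
  have := (c1 _ _ _ 1 _ _ ((adm_nsh _ _ (ha n)).mono m) n2 le_rfl _ ⟨y0, win_cw _ _ y0⟩).1 s s
  rw [← real_inner_self_eq_norm_sq]
  exact (sub_le_iff_le_add.1 (abs_le.1 this).2).trans (add_le_add (mul_one _).le
    ((le_abs_self _).trans (c2 s _ (win_cw _ _ y0))))

variable {Z : α → Type} [∀ n, TopologicalSpace (Z n)] [∀ n, ChartedSpace H' (Z n)]
  [∀ n, IsManifold I' ∞ (Z n)] [∀ n, MeasurableSpace (Z n)] [∀ n, BorelSpace (Z n)] [∀ n, T2Space (Z n)]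
  [∀ n, SecondCountableTopology (Z n)] {g : Gs I I₀ N (Option κ) lam X} {h : Up I' Z g r}
  {K₁ : ∀ n, Nk D (g.B n) (g.G n)} {K : ∀ n, Nk D (h.B n) (h.G n)} {K' : Nk D g.B₀ g.G₀} {s : α → ℝ}

variable (h K₁ K K' s) in
/-- the necks agree literally with an end of the limit -/
structure NL : Prop where
  lit : ∀ R, ∀ᶠ n in (g.l : Filter α), ∀ τ ∈ K'.J, |τ| ≤ R →
    τ + s n ∈ (K₁ n).J ∧ ∀ y, (K₁ n).ψ (y, τ + s n) = g.ψ n (K'.ψ (y, τ))
  φ : ∀ n, ∀ z ∈ (K₁ n).ψ.source, z ∈ (K n).ψ.source ∧ h.φ n ((K₁ n).ψ z) = (K n).ψ z ∧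
    h.v n ((K₁ n).ψ z) = (h.B n).l ((K n).ψ z)
  dp : ∀ d R, ∀ᶠ n in (g.l : Filter α), ∀ t ∈ Dp K'.p K'.q d, |t| ≤ R → t + s n ∈ Dp (K n).p (K n).q d
  P : K'.ψ.target ⊆ g.Pᶜ

namespace NL
variable (H : NL h K₁ K K' s) (k : h.OK)
include H

theorem ev {z : Y × ℝ} (hz : z ∈ K'.ψ.source) : ∃ O, IsOpen O ∧ z ∈ O ∧ O ⊆ K'.ψ.source ∧ ∀ᶠ n in (g.l : Filter α),
    ∀ w ∈ O, w ∈ (nsh (K₁ n) (s n)).source ∧ nsh (K₁ n) (s n) w = g.ψ n (K'.ψ w) :=
  ⟨_, K'.ψ.open_source.inter (isOpen_lt continuous_snd.abs continuous_const), ⟨hz, lt_add_one |z.2|⟩, inter_subset_left,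
    (H.lit (|z.2| + 1)).mono fun _ hn w hw => have e := hn _ (K'.mem_src.1 hw.1) (le_of_lt hw.2)
      ⟨(mem_nsh ..).2 e.1, e.2 w.1⟩⟩

include k

theorem bf {C R : ℝ} (far : ∀ t, R ≤ |t| → (∀ᶠ n in (g.l : Filter α), t + s n ∈ Dp (K n).p (K n).q R) →
      ∀ᶠ n in (g.l : Filter α), ∀ y, ‖(h.y n).m.Fg (h.G n).F (h.y n).W ((K n).ψ (y, t + s n))‖ ≤ C)
    (he : ∀ t ∈ Dp K'.p K'.q R, R ≤ |t|) {x : N} (hx : x ∈ K'.ψ.target) (hR : x ∈ K'.dp R) :
    ∀ᶠ n in (g.l : Filter α), ‖g.Fg h.x n (g.ψ n x)‖ ≤ C := by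
  obtain ⟨_, -, o, -, e⟩ := H.ev (K'.ψ.map_target hx)
  filter_upwards [e, far _ (he _ hR) ((H.dp R _).mono fun n hn => hn _ hR le_rfl)] with n h1 h2
  obtain ⟨h3, h4⟩ := h1 _ o
  rw [K'.ψ.right_inv hx] at h4
  rw [← (k.pb n).nF, ← h4, nsh_apply, (H.φ n _ ((K₁ n).mem_src.2 ((mem_nsh ..).1 h3))).2.1, K'.snd_symm hx]
  exact h2 _

theorem cvc {b : Cfg N (Option κ) lam r} {S : Set N} {u : ∀ n, N → CL (h.x n).m.V b.m.V} (l : g.Lim h.x b S u)
    (ha : ∀ n, (h.y n).Adm (h.B n) (h.G n)) : ∃ v, CvC D.Z g.l (ρ := fun _ => r)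
      (fun n => sh (s n) ((K n).pb (h.y n))) (K'.pb b) v ((univ ×ˢ K'.J) \ K'.ψ ⁻¹' S) := by
  have hg := k.bk.ok
  rw [← K'.src]
  have o : IsOpen (K'.ψ.source \ K'.ψ ⁻¹' S) := K'.ψ.isOpen_inter_preimage l.op
  have sm : ∀ z ∈ K'.ψ.source, ContMDiffAt (IC I3) I₀ ∞ K'.ψ z := fun z hz => (K'.rel.ld z hz).contMDiffAt
  refine ⟨_, cvc_eq0 (c := fun n => sh (s n) ((K₁ n).pb (h.x n))) (c' := K'.pb b) (w := fun n z => u n (K'.ψ z))
    (d := fun n => sh (s n) ((K n).pb (h.y n))) (t := fun n z => Pj41.ad (h.u n (nsh (K₁ n) (s n) z))) o (fun z hz => ?_)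
    (fun a => (cv_comp (l.A a) o (fun _ hz => hz.2) fun z hz => sm z hz.1).congr (fun z hz => ?_) fun _ _ => rfl)
    ((cv_comp l.Φ o (fun _ hz => hz.2) fun z hz => sm z hz.1).congr (fun z hz => ?_) fun _ _ => rfl)
    fun z hz => K'.rel.sm hz.1 (l.adm.sm _)⟩ <;> obtain ⟨O, o1, o2, o3, e⟩ := H.ev hz.1
  · obtain ⟨O', p1, p2, p3⟩ := l.iso _ hz.2
    refine ⟨_, inter_mem (o1.mem_nhds o2) ((sm z hz.1).continuousAt.preimage_mem_nhds (p1.mem_nhds p2)), ?_⟩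
    filter_upwards [e, p3] with n h1 h2
    have t := fun w (hw : w ∈ O ∩ K'.ψ ⁻¹' O') => (h1 w hw.1).2
    have f := fun w (hw : w ∈ (nsh (K₁ n) (s n)).source) => H.φ n _ hw.2
    have so := (nsh (K₁ n) (s n)).open_source
    have q := pb_eq0 (k.pb n) (nsh_rel (K₁ n) (s n)) (((nsh_rel (K n) (s n)).mono so fun w hw =>
      ⟨trivial, (f w hw).1⟩).congr fun w hw => (f w hw).2.1)
        fun w hw => (f w hw).2.2.trans (congrArg _ (f w hw).2.1.symm)
    refine ⟨⟨fun w hw => (h2.su _ hw.2).comp w (sm w (o3 hw.1)),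
      fun w hw => (congrArg (fun x => CIso _ ((h.x n).m.p x) _) (t w hw)).mpr (h2.iso _ hw.2), fun w hw => h2.J _ hw.2,
      fun w hw a => (h2.ρ _ hw.2 a).trans (congrArg (fun x => _ ∘L (h.x n).m.ρ a x) (t w hw).symm),
      fun w hw a => (h2.j _ hw.2 a).trans (congrArg (fun x => _ ∘L (h.x n).m.j x a) (t w hw).symm)⟩, ?_⟩
    exact ((eq0_congr q fun w hw => (f w hw).2.1).symm (adm_nsh _ _ (k.bk.adm n)) ((adm_nsh _ _ (ha n)).mono
      fun w hw => ⟨trivial, (f w hw).1⟩)).mono fun w hw => (h1 w hw.1).1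
  · filter_upwards [e.prod_mk (o1.mem_nhds o2), (tendsto_id.prodMap (sm z hz.1).continuousAt).eventually
      (ev_ev_prod (p := fun n x => x ∈ (g.ψ n).source) (hg.src _ (l.sub hz.2)))] with ⟨n, w⟩ ⟨h1, h2⟩ h3
    have d1 := (hg.rel n).D h3.self_of_nhds a (u := u n) (u' := fun x => u n ((g.ψ n).symm x))
      (h3.mono fun x hx => by rw [(g.ψ n).left_inv hx])
    have d2 := (nsh_rel (K₁ n) (s n)).D (h1 w h2).1 a (u := fun z => u n (K'.ψ z))
      (u' := fun x => u n ((g.ψ n).symm x)) (((o1.eventually_mem h2).and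
        ((sm w (o3 h2)).continuousAt.eventually h3)).mono fun x hx => by rw [(h1 x hx.1).2, (g.ψ n).left_inv hx.2])
    rw [(h1 w h2).2] at d2
    exact congrArg₂ (fun (T : CL (h.x n).m.V b.m.V) x => (T + b.W a (K'.ψ w) ∘L u n (K'.ψ w) - u n (K'.ψ w) ∘L (h.x n).W a x) ∘L
      trn (u n (K'.ψ w))) (d2.trans d1.symm) (h1 w h2).2
  · exact (e.prod_mk (o1.mem_nhds o2)).mono fun q hq => congrArg (fun x => u q.1 _ ((h.x q.1).Φ x)) (hq.1 _ hq.2).2

theorem conc (hD : D.OK) (ha : ∀ n, (h.y n).Adm (h.B n) (h.G n)) {β : ℝ} (hd : ∀ n, Dom (h.G n).F β fun x =>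
      ‖(h.y n).m.p2 (h.B n) x ((h.y n).m.Fg (h.G n).F (h.y n).W x)‖ ^ 2) {z : Y × ℝ}
    (hz : z ∈ (univ ×ˢ Dp K'.p K'.q 3) ∩ K'.ψ ⁻¹' g.S h.x) : ∃ ε > 0, ∀ L ∈ 𝓝 z, IsCompact L →
      L ⊆ univ ×ˢ Dp K'.p K'.q 2 → ∀ᶠ n in (g.l : Filter α),
        ε ≤ ∫ x in L, eZ D (sh (s n) ((K n).pb (h.y n))) x ∂D.Z.μ := by
  have hg := k.bk.ok
  have hB := fun n => (k.pb n).kg.hB'
  have hG := fun n => (k.pb n).kg.hG'
  have z0 := K'.mem_src.2 (Dp_sub three_pos hz.1.2)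
  have xP := H.P (K'.ψ.map_source z0)
  have c1 := fun n => cont_en (K n) hD (hB n) (hG n) (ha n)
  have c2 := fun n => (c1 n).comp (continuous_iff_continuousAt.2 fun x =>
    ((k.pb n).kg.rot.sφ x trivial).continuousAt)
  obtain ⟨O, o1, o2, o3, e⟩ := H.ev z0
  have key : ∀ L : Set (Y × ℝ), IsCompact L → L ⊆ univ ×ˢ Dp K'.p K'.q 2 → ∀ᶠ n in (g.l : Filter α), ∀ w ∈ L,
      w.2 + s n ∈ Dp (K n).p (K n).q 2 := fun L hL e =>
    (hL.exists_bound_of_continuousOn continuous_snd.continuousOn).elim fun R hR =>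
      (H.dp 2 R).mono fun n hn w hw => hn _ (e hw).2 (hR w hw)
  have op : ∀ {A}, IsOpen A → z ∈ A → K'.ψ '' (A ∩ O) ∈ 𝓝 (K'.ψ z) := fun hA m =>
    K'.ψ.image_mem_nhds z0 ((hA.inter o1).mem_nhds ⟨m, o2⟩)
  have φe : ∀ n w, w ∈ (nsh (K₁ n) (s n)).source → h.φ n (nsh (K₁ n) (s n) w) = nsh (K n) (s n) w :=
    fun n w hw => (H.φ n _ hw.2).2.1
  obtain ⟨L₀, l1, l2, l3⟩ := local_compact_nhds (prod_mem_nhds univ_mem (Dp_mem_nhds (show (2 : ℝ) < 3 by norm_num)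
    hz.1.2) : univ ×ˢ Dp K'.p K'.q 2 ∈ 𝓝 z)
  obtain ⟨ε, e0, k1⟩ := conc_of (f := fun n x => en (h.G n).F (h.y n) (K n).τ (h.φ n x)) (hz.2.resolve_left xP)
    (nc_of_dom hg xP (fun _ _ => sq_nonneg _) (.of_forall fun n => pb_dom (k.pb n) (hd n))) (a := 32) (b := 6)
    (by norm_num) (by norm_num) (fun n => (c2 n).measurable) (fun _ _ => Dgr80.en_nonneg ..) (fun _ _ => sq_nonneg _)
    (((e.and (key _ l3 l2)).prod_mk (op isOpen_interior (mem_interior_iff_mem_nhds.2 l1))).mono (by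
      rintro ⟨n, _⟩ ⟨⟨h1, h2⟩, w, hw, rfl⟩
      rw [← (k.pb n).nF]
      refine fg_le (K n) hD (hB n) (hG n) (ha n) ?_
      rw [← (h1 w hw.2).2, φe n w (h1 w hw.2).1]
      exact Nka63.ψ_mem_O _ zero_le_one (Nka63.Dp_sub_Dq one_lt_two (h2 w (interior_subset hw.1)))))
  refine ⟨ε, e0, fun L hL hc sb => ?_⟩
  filter_upwards [k1 _ (op isOpen_interior (mem_interior_iff_mem_nhds.2 hL)), e, key L hc sb] with n h1 h2 h3
  have m : L ⊆ (nsh (K n) (s n)).source := fun w hw => (mem_nsh ..).2 (Dp_sub two_pos (h3 w hw))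
  have q := fun w hw => en_nsh (c := h.y n) (K n) (s n) hD (hB n) (hG n) (Nka63.Dp_sub_Dq one_lt_two (h3 w hw))
  rw [← ENNReal.ofReal_le_ofReal_iff (integral_nonneg fun _ => Dgr80.en_nonneg ..),
    ofReal_integral_eq_lintegral_ofReal ((((c1 n).comp_continuousOn ((nsh (K n) (s n)).continuousOn.mono m)).congr
      fun w hw => (q w hw).symm).integrableOn_compact hc) (.of_forall fun _ => Dgr80.en_nonneg ..)]
  refine h1.trans ((lintegral_mono_set (t := nsh (K₁ n) (s n) '' (interior L ∩ O)) ?_).trans (le_of_eq_of_le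
    ((lint_iso ((nsh_rel ..).iso hD.G.vol (hg.G n).vol) (isOpen_interior.inter o1) (fun w hw => (h2 w hw.2).1)
      (c2 n).measurable.ennreal_ofReal).trans (setLIntegral_congr_fun (isOpen_interior.inter o1).measurableSet
        fun w hw => congrArg _ ((congrArg _ (φe n w (h2 w hw.2).1)).trans (q w (interior_subset hw.1)))))
    (lintegral_mono_set (inter_subset_left.trans interior_subset))))
  rintro _ ⟨_, ⟨⟨w, hw, rfl⟩, -⟩, rfl⟩
  exact ⟨w, hw, (h2 w hw.2).2⟩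

end NL

end Crest.Agent.X212.Shi84

end
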