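import Crest.Agent.X212.Shi84.Shi
import Crest.Agent.X212.Cmp73.St

/-!
# SHI (helper84): uniform charts: cut-offs at scale `s`, SHI on balls, LIP, TAY, mass
-/

set_option autoImplicit false
set_option linter.unusedSectionVars false
open Set Filter Topology Metric MeasureTheory
open scoped Manifold ContDiff NNReal

noncomputable section

namespace Crest.Agent.X212.Shi84

open Mp86 Cmp73

variable {E' : Type} [NormedAddCommGroup E'] [NormedSpace ℝ E']

/-- smooth with bounded first and second derivatives -/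
structure Bd2 (ψ : E' → ℝ) (B : ℝ) : Prop where
  sm : ContDiff ℝ ∞ ψ
  d1 : ∀ y, ‖fderiv ℝ ψ y‖ ≤ B
  d2 : ∀ y, ‖fderiv ℝ (fderiv ℝ ψ) y‖ ≤ B

theorem exists_bd2 {ψ : E' → ℝ} (h : ContDiff ℝ ∞ ψ) (hc : HasCompactSupport ψ) :
    ∃ B, ∀ B', B ≤ B' → Bd2 ψ B' := by
  have h1 : ContDiff ℝ ∞ (fderiv ℝ ψ) := h.fderiv_right (by simp)
  obtain ⟨B₁, a1⟩ := h1.continuous.bounded_above_of_compact_support (hc.fderiv ℝ)
  obtain ⟨B₂, a2⟩ := (h1.continuous_fderiv (by simp)).bounded_above_of_compact_support ((hc.fderiv ℝ).fderiv ℝ)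
  exact ⟨max B₁ B₂, fun B' hB => ⟨h, fun y => (a1 y).trans ((le_max_left _ _).trans hB),
    fun y => (a2 y).trans ((le_max_right _ _).trans hB)⟩⟩

/-- a bump function on the unit ball -/
structure Bmp (φ : E' → ℝ) (B : ℝ) : Prop where
  nn : 0 ≤ B
  one : φ 0 = 1
  le : ∀ y, |φ y| ≤ 1
  sup : ∀ y, φ y ≠ 0 → ‖y‖ < 1
  b1 : Bd2 φ B
  b2 : Bd2 (fun y => φ y * φ y) B

variable (E') in
theorem exists_bmp [FiniteDimensional ℝ E'] : ∃ φ B, Bmp (E' := E') φ B := by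
  let φ : ContDiffBump (0 : E') := ⟨1 / 2, 1, by norm_num, by norm_num⟩
  obtain ⟨B₁, a1⟩ := exists_bd2 (φ.contDiff (n := ⊤)) φ.hasCompactSupport
  obtain ⟨B₂, a2⟩ := exists_bd2 (ψ := fun y => φ y * φ y) ((φ.contDiff (n := ⊤)).mul φ.contDiff)
    φ.hasCompactSupport.mul_left
  refine ⟨φ, max 0 (max B₁ B₂), le_max_left _ _, φ.one_of_mem_closedBall (mem_closedBall_self φ.rIn_pos.le),
    fun y => by rw [abs_of_nonneg φ.nonneg]; exact φ.le_one, fun y hy => ?_,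
    a1 _ ((le_max_left _ _).trans (le_max_right _ _)), a2 _ ((le_max_right _ _).trans (le_max_right _ _))⟩
  have : y ∈ Function.support φ := hy
  rw [φ.support_eq] at this
  exact mem_ball_zero_iff.1 this

variable {E : Type} [NormedAddCommGroup E] [NormedSpace ℝ E] {HM : Type} [TopologicalSpace HM]
  {I : ModelWithCorners ℝ E HM} {ι : Type} [Fintype ι]
  {N : Type} [TopologicalSpace N] [ChartedSpace HM N] [IsManifold I ∞ N]

section cmp
variable {ψ : E' → ℝ} {B : ℝ} {v : (x : N) → TangentSpace I x} {u : N → E'} {x : N}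

theorem Bd2.dv1 (h : Bd2 ψ B) (hu : MD I u x) : |dv I v (fun y => ψ (u y)) x| ≤ B * ‖dv I v u x‖ := by
  rw [dv_comp (h.sm.differentiable (by simp) _).hasFDerivAt hu]
  exact (fderiv ℝ ψ (u x)).le_of_opNorm_le (h.d1 _) _

theorem Bd2.dv2 (h : Bd2 ψ B) (hv : VF I 1 v x) (hu : CM I 2 u x) :
    |dv I v (dv I v fun y => ψ (u y)) x| ≤ B * ‖dv I v u x‖ ^ 2 + B * ‖dv I v (dv I v u) x‖ := by
  have h1 : ContDiff ℝ ∞ (fderiv ℝ ψ) := h.sm.fderiv_right (by simp)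
  have e1 : (dv I v fun y => ψ (u y)) =ᶠ[𝓝 x] fun y => fderiv ℝ ψ (u y) (dv I v u y) :=
    (hu.ev_md one_le_two).mono fun y hy => dv_comp (h.sm.differentiable (by simp) _).hasFDerivAt hy
  have m1 := hu.md one_le_two
  have d1 := h1.differentiable (by simp) (u x)
  rw [dv_congr e1, dv_app (md_comp d1 m1) (md_dv hu hv), dv_comp d1.hasFDerivAt m1]
  refine (abs_add_le _ _).trans (add_le_add ?_ ((fderiv ℝ ψ (u x)).le_of_opNorm_le (h.d1 _) _))
  rw [sq, ← mul_assoc]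
  exact ContinuousLinearMap.le_of_opNorm_le _ (ContinuousLinearMap.le_of_opNorm_le _ (h.d2 _) _) _

theorem dv_aff (c : ℝ) (z : E') (hu : MD I u x) : dv I v (fun y => c • (u y - z)) x = c • dv I v u x := by
  have : MD I (fun y => u y - z) x := hu.sub mdifferentiableAt_const
  rw [dv_smul mdifferentiableAt_const this, dv_const,
    dv_sub hu mdifferentiableAt_const, dv_const]
  simp

theorem dv_dv_aff (c : ℝ) (z : E') (hv : VF I 1 v x) (hu : CM I 2 u x) :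
    dv I v (dv I v fun y => c • (u y - z)) x = c • dv I v (dv I v u) x := by
  rw [dv_congr ((hu.ev_md one_le_two).mono fun y hy => dv_aff c z hy),
    dv_smul mdifferentiableAt_const (md_dv hu hv), dv_const]
  simp

end cmp

/-- the cut-off function at the scale `s` -/
def cut (φ : E' → ℝ) (κ : OpenPartialHomeomorph N E') (z : E') (s : ℝ) : N → ℝ :=
  fun y => φ (s⁻¹ • (κ y - z))

variable [MeasurableSpace N] {e : ι → (x : N) → TangentSpace I x} {μ : Measure N}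
  {κ : OpenPartialHomeomorph N E'} {T : Set E'} {K B s : ℝ} {φ ψ : E' → ℝ} {z z' : E'}

theorem vf1 (he : SmV I e) (a : ι) (x : N) : VF I 1 (e a) x := (he a x).of_le (by simp)

theorem two_le : (2 : ℕ∞ω) ≤ ∞ := by norm_cast

theorem ch_cm (h : Ch I e μ κ T K) (hz : z ∈ T) : CM I 2 κ (κ.symm z) :=
  (h.sm.contMDiffAt (κ.open_source.mem_nhds (κ.map_target (h.tgt hz)))).of_le two_le

theorem ch_cm_aff (h : Ch I e μ κ T K) (hz : z' ∈ T) (c : ℝ) : CM I 2 (fun y => c • (κ y - z)) (κ.symm z') :=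
  (contMDiffAt_const (I' := 𝓘(ℝ, ℝ))).smul ((ch_cm h hz).sub contMDiffAt_const)

theorem cut_cm (h : Ch I e μ κ T K) (hψ : Bd2 ψ B) (hz : z' ∈ T) : CM I 2 (cut ψ κ z s) (κ.symm z') :=
  (hψ.sm.of_le two_le).contDiffAt.comp_contMDiffAt (ch_cm_aff h hz _)

theorem cut_d1 (h : Ch I e μ κ T K) (hψ : Bd2 ψ B) (s0 : 0 < s) (hz : z' ∈ T) (a : ι) :
    s * |dv I (e a) (cut ψ κ z s) (κ.symm z')| ≤ B * K := by
  have a1 := hψ.dv1 (v := e a) ((ch_cm_aff (z := z) h hz s⁻¹).md one_le_two)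
  rw [dv_aff _ _ ((ch_cm h hz).md one_le_two), norm_smul, norm_inv, Real.norm_of_nonneg s0.le] at a1
  have B0 := (norm_nonneg _).trans (hψ.d1 0)
  calc _ ≤ s * (B * (s⁻¹ * K)) := mul_le_mul_of_nonneg_left (a1.trans (by gcongr; exact h.d1 _ hz a)) s0.le
    _ = _ := by field_simp

theorem cut_d2 (h : Ch I e μ κ T K) (he : SmV I e) (hψ : Bd2 ψ B) (s0 : 0 < s) (s1 : s ≤ 1) (hz : z' ∈ T)
    (a : ι) : s ^ 2 * |dv I (e a) (dv I (e a) (cut ψ κ z s)) (κ.symm z')| ≤ B * K ^ 2 + B * K := by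
  have a1 := hψ.dv2 (vf1 he a _) (ch_cm_aff (z := z) h hz s⁻¹)
  rw [dv_aff _ _ ((ch_cm h hz).md one_le_two), dv_dv_aff _ _ (vf1 he a _) (ch_cm h hz), norm_smul, norm_smul,
    norm_inv, Real.norm_of_nonneg s0.le] at a1
  have B0 := (norm_nonneg _).trans (hψ.d1 0)
  have K0 := (norm_nonneg _).trans (h.d1 _ hz a)
  calc _ ≤ s ^ 2 * (B * (s⁻¹ * K) ^ 2 + B * (s⁻¹ * K)) := mul_le_mul_of_nonneg_left
        (a1.trans (by gcongr; exacts [h.d1 _ hz a, h.d2 _ hz a a])) (sq_nonneg s)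
    _ = B * K ^ 2 + s * (B * K) := by field_simp
    _ ≤ _ := by nlinarith [mul_nonneg B0 K0]

theorem ch_cpt [ProperSpace E'] (h : Ch I e μ κ T K) (hb : closedBall z s ⊆ T) :
    IsCompact (κ.symm '' closedBall z s) :=
  (isCompact_closedBall z s).image_of_continuousOn (κ.continuousOn_symm.mono (hb.trans h.tgt))

theorem ch_open (h : Ch I e μ κ T K) (hb : ball z s ⊆ T) : IsOpen (κ.symm '' ball z s) :=
  κ.symm.isOpen_image_of_subset_source isOpen_ball (hb.trans h.tgt)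

theorem cut_nhds (h : Ch I e μ κ T K) (hφ : Bmp φ B) (s0 : 0 < s) (hb : closedBall z s ⊆ T) :
    ∀ x ∈ κ.symm '' closedBall z s, cut φ κ z s x ≠ 0 → κ.symm '' closedBall z s ∈ 𝓝 x := by
  rintro _ ⟨y, hy, rfl⟩ h0
  have := hφ.sup _ h0
  rw [κ.right_inv (h.tgt (hb hy)), norm_smul, norm_inv, Real.norm_of_nonneg s0.le, inv_mul_lt_iff₀ s0,
    mul_one] at this
  exact mem_of_superset ((ch_open h (ball_subset_closedBall.trans hb)).mem_nhds
    ⟨y, mem_ball_iff_norm.2 this, rfl⟩) (image_mono ball_subset_closedBall)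

theorem cut_one (h : Ch I e μ κ T K) (hφ : Bmp φ B) (hz : z ∈ T) : cut φ κ z s (κ.symm z) = 1 := by
  rw [cut, κ.right_inv (h.tgt hz), sub_self, smul_zero, hφ.one]

/-- **LIP**: bounded frame derivatives give a Lipschitz bound in the chart -/
theorem lip {V : Type*} [NormedAddCommGroup V] [NormedSpace ℝ V] (h : Ch I e μ κ T K) {U : Set E'}
    (hU : Convex ℝ U) (hT : U ⊆ T) {f : N → V} {A : ℝ} (hf : ∀ y ∈ U, MD I f (κ.symm y))
    (hA : ∀ y ∈ U, ∀ a, ‖dv I (e a) f (κ.symm y)‖ ≤ A) (hz : z ∈ U) (hz' : z' ∈ U) :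
    ‖f (κ.symm z') - f (κ.symm z)‖ ≤ Fintype.card ι * |K| * |A| * ‖z' - z‖ := by
  have df : ∀ y ∈ U, DifferentiableAt ℝ (fun y => f (κ.symm y)) y := fun y hy =>
    mdifferentiableAt_iff_differentiableAt.1 ((hf y hy).comp y
      ((h.sm'.contMDiffAt (κ.open_target.mem_nhds (h.tgt (hT hy)))).mdifferentiableAt (by simp)))
  refine hU.norm_image_sub_le_of_norm_fderiv_le df (fun y hy => ?_) hz hz'
  have ht := h.tgt (hT hy)
  refine ContinuousLinearMap.opNorm_le_bound _ (by positivity) fun v => ?_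
  obtain ⟨θ, rfl, h2⟩ := h.sp y (hT hy) v
  have e1 : ∀ a, fderiv ℝ (fun y => f (κ.symm y)) y (dv I (e a) κ (κ.symm y)) = dv I (e a) f (κ.symm y) := fun a => by
    have d := (df y hy).hasFDerivAt
    rw [← dv_comp (by rwa [κ.right_inv ht]) ((ch_cm h (hT hy)).md one_le_two)]
    exact dv_congr (mem_of_superset (κ.open_source.mem_nhds (κ.map_target ht)) fun x hx => by
      simp only [mem_ofPred_eq, κ.left_inv hx])
  rw [map_sum]
  refine (norm_sum_le_of_le _ (n := fun _ => |K| * |A| * ‖∑ a, θ a • dv I (e a) κ (κ.symm y)‖) fun a _ => ?_).trans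
    (by simp [mul_assoc])
  rw [map_smul, e1, norm_smul, mul_right_comm]
  exact mul_le_mul ((h2 a).trans (by gcongr; exact le_abs_self _)) ((hA y hy a).trans (le_abs_self _))
    (norm_nonneg _) (by positivity)

/-- **mass**: a lower bound on a ball is paid by the integral -/
theorem mass [OpensMeasurableSpace N] (h : Ch I e μ κ T K) (K0 : 0 < K) (s0 : 0 < s) (hb : ball z s ⊆ T)
    {D : Set N} (hD : κ.symm '' ball z s ⊆ D) {f : N → ENNReal} {c : ℝ} (c0 : 0 ≤ c)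
    (hf : ∀ y ∈ ball z s, ENNReal.ofReal c ≤ f (κ.symm y)) {ε : ℝ≥0} (hI : ∫⁻ x in D, f x ∂μ ≤ ε) :
    c * s ^ 4 ≤ K * ε := by
  have a1 : ENNReal.ofReal (c * (s ^ 4 / K)) ≤ ε := by
    rw [ENNReal.ofReal_mul c0]
    refine le_trans (mul_le_mul_right (h.vol z s s0 hb) _) (le_trans ?_ ((lintegral_mono_set hD).trans hI))
    rw [← setLIntegral_const]
    exact setLIntegral_mono' (ch_open h hb).measurableSet (by rintro _ ⟨y, hy, rfl⟩; exact hf y hy)
  rw [ENNReal.ofReal_le_coe, ← mul_div_assoc, div_le_iff₀ K0] at a1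
  linarith

variable [CompleteSpace E] [BoundarylessManifold I N] [ProperSpace E']

/-- **TAY**: a bounded function cannot be very convex along a frame field -/
theorem tay (h : Ch I e μ κ T K) (he : SmV I e) (hφ : Bmp φ B) (s0 : 0 < s) (s1 : s ≤ 1)
    (hb : closedBall z s ⊆ T) {g : N → ℝ} {A c : ℝ} (a : ι) (hg : ∀ y ∈ closedBall z s, CM I 2 g (κ.symm y))
    (g0 : 0 ≤ g (κ.symm z)) (g1 : ∀ y ∈ closedBall z s, g (κ.symm y) ≤ A)
    (hc : ∀ y ∈ closedBall z s, c ≤ dv I (e a) (dv I (e a) g) (κ.symm y)) :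
    s ^ 2 * c ≤ (A + 1) * (B * K ^ 2 + B * K) := by
  have hz := mem_closedBall_self (x := z) s0.le
  have A0 : 0 ≤ A + 1 := by have := g1 z hz; linarith
  have cm : ∀ y ∈ closedBall z s, CM I 2 (fun x => (A + 1) * cut φ κ z s x) (κ.symm y) := fun y hy =>
    contMDiffAt_const.mul (cut_cm h hφ.b1 (hb hy))
  obtain ⟨_, ⟨y, hy, rfl⟩, hm⟩ := (ch_cpt h hb).exists_isMaxOn ⟨_, z, hz, rfl⟩
    (f := fun x => g x + (A + 1) * cut φ κ z s x) (by
      rintro _ ⟨y, hy, rfl⟩; exact ((hg y hy).add (cm y hy)).continuousAt.continuousWithinAt)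
  have a1 : g _ + (A + 1) * cut φ κ z s _ ≤ g _ + (A + 1) * cut φ κ z s _ := hm ⟨z, hz, rfl⟩
  rw [cut_one h hφ (hb hz)] at a1
  have h0 : cut φ κ z s (κ.symm y) ≠ 0 := fun h0 => by have := g1 y hy; rw [h0] at a1; linarith
  have hv : ∀ _ : Unit, VF I 1 (e a) (κ.symm y) := fun _ => vf1 he a _
  have a2 := Lop_nonpos (e := fun _ : Unit => e a) (b := 0) hv (f := fun x => g x + (A + 1) * cut φ κ z s x)
    ((hg y hy).add (cm y hy)) (hm.isLocalMax (cut_nhds h hφ s0 hb _ ⟨y, hy, rfl⟩ h0))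
  rw [Lop_add hv (hg y hy) (cm y hy), Lop_mul _ hv (cut_cm h hφ.b1 (hb hy))] at a2
  simp only [Lop, Finset.univ_unique, Finset.sum_singleton, Pi.zero_apply, zero_smul, add_zero] at a2
  have a3 := mul_le_mul_of_nonneg_left (cut_d2 (z := z) h he hφ.b1 s0 s1 (hb hy) a) A0
  have a4 := mul_le_mul_of_nonneg_left
    (neg_le_abs (dv I (e a) (dv I (e a) (cut φ κ z s)) (κ.symm y))) (mul_nonneg A0 (sq_nonneg s))
  have a5 := mul_le_mul_of_nonneg_left ((add_le_add (hc y hy) le_rfl).trans a2) (sq_nonneg s)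
  linarith

variable (ι) in
/-- the constant of SHI on balls -/
def ballC (B K K' R : ℝ) : ℝ := shiC K' R (Fintype.card ι * (8 * (B * K) ^ 2 + (B * K ^ 2 + B * K)))

/-- **SHI on a ball** of radius `s`, derivatives cost `√m` -/
theorem shi_ball (h : Ch I e μ κ T K) (K0 : 0 ≤ K) (he : SmV I e) (hφ : Bmp φ B) (s0 : 0 < s) (s1 : s ≤ 1)
    (hb : closedBall z s ⊆ T) {m K' R : ℝ} {h0 h1 h2 : N → ℝ} (m0 : 0 < m) (ms : s ^ 2 * m ≤ 1) (K1 : 0 ≤ K')
    (R0 : 0 ≤ R) (hs : ∀ y ∈ closedBall z s, SI I e m K' R h0 h1 h2 (κ.symm y)) :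
    s ^ 2 * m * h1 (κ.symm z) ≤ ballC ι B K K' R := by
  have hz := mem_closedBall_self (x := z) s0.le
  have B0 := hφ.nn
  have e1 : √(s ^ 2 * m) ^ 2 = s ^ 2 * m := Real.sq_sqrt (by positivity)
  have := shi (χ := cut φ κ z s) (l := √(s ^ 2 * m)) (Kc := Fintype.card ι * (8 * (B * K) ^ 2 + (B * K ^ 2 + B * K)))
    (ch_cpt h hb) (fun a x _ => vf1 he a x) m0 K1 R0 (by positivity) (Real.sqrt_nonneg _)
    (by rintro _ ⟨y, hy, rfl⟩; exact hs y hy) (by rintro _ ⟨y, hy, rfl⟩; exact cut_cm h hφ.b1 (hb hy))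
    (fun x _ => mul_le_one₀ (Real.sqrt_le_one.2 ms) (abs_nonneg _) (hφ.le _)) (cut_nhds h hφ s0 hb) ?_ ⟨z, hz, rfl⟩
  · rwa [e1, cut_one h hφ (hb hz), one_mul, one_mul] at this
  rintro _ ⟨y, hy, rfl⟩
  rw [e1, mul_comm (s ^ 2), mul_assoc]
  refine mul_le_mul_of_nonneg_left ?_ m0.le
  simp only [Lop, Pi.zero_apply, zero_smul, add_zero, Finset.mul_sum, ← Finset.sum_sub_distrib]
  refine (Finset.sum_le_card_nsmul _ _ (8 * (B * K) ^ 2 + (B * K ^ 2 + B * K)) fun a _ => ?_).trans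
    (by rw [Finset.card_univ, nsmul_eq_mul])
  have a1 := pow_le_pow_left₀ (by positivity) (cut_d1 (z := z) h hφ.b1 s0 (hb hy) a) 2
  have a2 := cut_d2 (z := z) h he hφ.b2 s0 s1 (hb hy) a
  have a3 := mul_le_mul_of_nonneg_left (neg_le_abs
    (dv I (e a) (dv I (e a) (cut (fun y => φ y * φ y) κ z s)) (κ.symm y))) (sq_nonneg s)
  rw [mul_pow, sq_abs] at a1
  change s ^ 2 * (_ - dv I (e a) (dv I (e a) (cut (fun y => φ y * φ y) κ z s)) (κ.symm y)) ≤ _
  linarith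

end Crest.Agent.X212.Shi84

end
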