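import Crest.Agent.X212.Shi84.ChM

/-!
# AN (helper84): bounded geometry, finiteness of the bubble set, bounded jets for `Cmp73.Gs`
-/

set_option autoImplicit false
set_option linter.unusedSectionVars false
open Set Filter Topology Metric MeasureTheory
open scoped Manifold ContDiff NNReal InnerProductSpace

noncomputable section

namespace Crest.Agent.X212.Shi84

open Cmp73 An
open Sob92 (dv)

variable {E : Type} [NormedAddCommGroup E] [NormedSpace ℝ E] [FiniteDimensional ℝ E]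
  [MeasurableSpace E] [BorelSpace E]
  {HM : Type} [TopologicalSpace HM] {I : ModelWithCorners ℝ E HM} [I.Boundaryless]
  {E₀ : Type} [NormedAddCommGroup E₀] [NormedSpace ℝ E₀] [FiniteDimensional ℝ E₀]
  [MeasurableSpace E₀] [BorelSpace E₀]
  {H₀ : Type} [TopologicalSpace H₀] {I₀ : ModelWithCorners ℝ E₀ H₀} [I₀.Boundaryless]
  {M : Type} [TopologicalSpace M] [ChartedSpace H₀ M] [IsManifold I₀ ∞ M] [MeasurableSpace M]
  [BorelSpace M] [T2Space M] [SecondCountableTopology M]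
  {ι lam : Type} [Fintype ι] [Fintype lam] {α : Type}
  {X : α → Type} [∀ n, TopologicalSpace (X n)] [∀ n, ChartedSpace HM (X n)]
  [∀ n, IsManifold I ∞ (X n)] [∀ n, MeasurableSpace (X n)] [∀ n, BorelSpace (X n)] [∀ n, T2Space (X n)]
  [∀ n, SecondCountableTopology (X n)] {r : ℕ}
  {g : Gs I I₀ M ι lam X} {c : ∀ n, Cfg (X n) ι lam r} {U : Set M} {x : M} {L : Sy ι X}
  {V : Type} [NormedAddCommGroup V] [NormedSpace ℝ V]

theorem nab_tv {N : Type} [TopologicalSpace N] [ChartedSpace HM N] (e : ι → (x : N) → TangentSpace I x)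
    (a : ι) (u : N → V) : Wz78.nab I e (fun _ _ => 0) a u = dv I (e a) u := funext fun _ => add_zero _

theorem Dw_tv {N : Type} [TopologicalSpace N] [ChartedSpace HM N] [IsManifold I ∞ N] [MeasurableSpace N]
    (F : Pre I N ι) : ∀ (v : List ι) (u : N → V), Dw I F.e (fun _ _ => 0) v u = F.Dw v u
  | [], _ => rfl
  | a :: v, u => by rw [Dw, nab_tv]; exact Dw_tv F v _

theorem jb_mono {b : Fb I ι X} {𝓕 𝓖 : Filter (Σ n, X n)} (h : (b.wf 𝓕).JB L) (hG : 𝓖 ≤ 𝓕) : (b.wf 𝓖).JB L :=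
  fun r => (h r).imp fun _ hR => hR.filter_mono hG

variable (g) in
/-- the charts of `X n` over the chart at `x` -/
abbrev chX (x : M) (n : α) : OpenPartialHomeomorph (X n) E₀ := (g.ψ n).symm.trans (ch0 I₀ x)

theorem lF_eq {y : M} (hy : y ∈ (ch0 I₀ x).source) (hU : y ∈ U) : lF (chX g x) g.l (ch0 I₀ x y) = g.F U y := by
  rw [Gs.F, nF_eq hU, ← ev_chart hy, map_map]; rfl

theorem gF_eq : gF (chX g x) g.l (ch0 I₀ x x) = g.F {x}ᶜ x := by
  rw [Gs.F, ← pF_nF (ch0_mem (I := I₀) x), map_map]; rfl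

theorem ne' {p : M → Prop} (hp : ∀ᶠ y in 𝓝[≠] x, p y) :
    ∀ᶠ z in 𝓝[≠] (ch0 I₀ x x), z ∈ (ch0 I₀ x).target ∧ p ((ch0 I₀ x).symm z) := by
  have h1 := tend_ne (φ := (ch0 I₀ x).symm) ((ch0 I₀ x).map_source (ch0_mem x))
  rw [(ch0 I₀ x).left_inv (ch0_mem x)] at h1
  exact inter_mem (nhdsWithin_le_nhds ((ch0 I₀ x).open_target.mem_nhds ((ch0 I₀ x).map_source (ch0_mem x))))
    (h1.eventually hp)

variable (hg : g.OK)
include hg

theorem ev_src (hU : U ⊆ g.Pᶜ) : ∀ᶠ q in nF g.l U x, q.2 ∈ (g.ψ q.1).source :=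
  ev_nF.2 (eventually_nhdsWithin_of_forall fun y hy => hg.src y (hU hy))

theorem mb_Dw : ∀ (v : List ι) {f : α → M → V}, (∀ k, MB I₀ g.l x k f) →
    ∀ k, MB I₀ g.l x k fun n => (g.H n).F.Dw v (f n)
  | [], _, h => h
  | a :: v, _, h => mb_Dw v fun k => (h (k + 1)).dv ((hg.e a).mb k x)

/-- functions which are bounded with all derivatives on the limit manifold -/
theorem cs_of_mb (hU : U ⊆ g.Pᶜ) {f : ∀ n, X n → V} {f' : α → M → V} (sm : ∀ n, Sm I (f n))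
    (e : ∀ n, ∀ y ∈ (g.ψ n).source, f n (g.ψ n y) = f' n y) (h : ∀ k, MB I₀ g.l x k f') :
    (g.fb c (g.F U x)).CB (tv X ι fun _ => V) f := by
  refine Fb.cb_iff.2 ⟨fun _ _ => contMDiff_const, sm, fun v => (mb_Dw hg v h 0).bdd.imp fun K hK => ?_⟩
  refine mem_map.2 (mem_of_superset (inter_mem (nF_le hK) (ev_src hg hU)) fun q hq => ?_)
  refine le_of_eq_of_le (congrArg norm ((congrFun (Dw_tv (g.G q.1).F.toPre v _) _).trans
    ((hg.rel q.1).Dw hq.2 v ?_).symm)) hq.1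
  exact mem_of_superset ((g.ψ q.1).open_source.mem_nhds hq.2) fun y hy => (e _ y hy).symm

theorem mb_of_cb (hU : U ⊆ g.Pᶜ) (hx : x ∈ U) : ∀ (k : ℕ) {f : ∀ n, X n → V},
    (g.fb c (g.F U x)).CB (tv X ι fun _ => V) f → MB I₀ g.l x k fun n y => f n (g.ψ n y) := by
  have s := le_nF hx (ev_src (x := x) hg hU)
  have h0 : ∀ {f : ∀ n, X n → V}, (g.fb c (g.F U x)).CB (tv X ι fun _ => V) f →
      MB I₀ g.l x 0 fun n y => f n (g.ψ n y) := fun h =>
    MB.zero_of (mem_of_superset s fun q hq => (hg.rel q.1).sm hq (h.sm _ _))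
      (((Fb.cb_iff.1 h).2.2 []).imp fun _ hK => le_nF hx hK)
  intro k
  induction k with
  | zero => exact h0
  | succ k ih =>
    intro f h
    refine MB.gain (X := fun a n => (g.H n).F.e a) (fun a => (hg.e a).mb k x)
      (fun a => ((hg.e a).mb 1 x).tendsto ((hg.e a).pt x))
      (span_chart g.G₀.F.toPre (Pat85.sch_echart (.refl ℝ E₀) x) (ch0_mem x)) (h0 h) fun a =>
        (ih (h.D a)).congr (mem_of_superset s fun q hq => ?_)
    exact ((hg.rel q.1).D hq a (.of_forall fun _ => rfl)).trans (add_zero _).symm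

theorem P_rel (n : α) (a a' : ι) : ∀ y ∈ (g.ψ n).source, (g.B n).P a a' (g.ψ n y) = g.B₀.P a a' y := fun y hy => by
  rw [← (hg.G n).P, ← (hg.H n).P, (hg.rel n).P hy]

/-- **bounded geometry** -/
theorem gb (hU : U ⊆ g.Pᶜ) : GB (g.fb c (g.F U x)) g.B g.G := by
  refine ⟨fun a a' k => cs_of_mb hg hU (fun n => (g.G n).F.c_sm a a' k)
      (fun n y hy => ((hg.rel n).c hy a a' k).symm) fun j => (hg.c a a' k).mb j x trivial,
    fun a => cs_of_mb hg hU (fun n => (g.G n).F.dv_sm a)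
      (f' := fun n y => ∑ b, ∑ l, (g.H n).F.c b a l y * g.B₀.P l b y) (fun n y hy => ?_)
      fun j => MB.sum fun b => MB.sum fun l => ((hg.c b a l).mb j x trivial).mul (MB.fixed' (hg.B₀.sP l b)),
    fun a a' => cs_of_mb hg hU (fun n => (hg.B n).sP a a') (fun n => P_rel hg n a a')
      fun _ => MB.fixed' (hg.B₀.sP a a'),
    fun a a' k k' => cs_of_mb hg hU (fun n => (hg.B n).so a a' k k') (fun n y hy => hg.bo n y hy a a' k k')
      fun _ => MB.fixed' (hg.B₀.so a a' k k'),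
    cs_of_mb hg hU (fun n => (hg.B n).sl) hg.bl fun _ => MB.fixed' hg.B₀.sl,
    fun a => cs_of_mb hg hU (fun n => (hg.G n).con.sm a) (fun n y hy => hg.la n y hy a)
      fun j => (hg.a a).mb j x trivial⟩
  rw [← (hg.rel n).dv hy (hg.H n).vol (hg.G n).vol, Met55.dv_vol (hg.H n).vol, (hg.H n).P]

theorem fcv : Loc66.FCv g.l univ (fun n => (g.H n).F) g.G₀.F := fun a =>
  ⟨fun k x _ => (hg.e a).mb k x, fun x _ => (hg.e a).pt x⟩

theorem ch_X (x : M) : ∃ K δ, 0 < K ∧ 0 < δ ∧ ∀ T, IsCompact T → T ⊆ closedBall (ch0 I₀ x x) δ →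
    (∀ z ∈ T, (ch0 I₀ x).symm z ∉ g.P) → ∀ᶠ n in (g.l : Filter α), Ch I (g.G n).F.e (g.G n).F.μ (chX g x n) T K := by
  obtain ⟨K, δ, K0, δ0, k⟩ := ch_frames (fcv hg) isOpen_univ (.of_forall fun n => (hg.H n).vol) hg.G₀.vol hg.h4
    (mem_univ x)
  refine ⟨K, δ, K0, δ0, fun T h1 h2 h3 => ?_⟩
  obtain ⟨n, hn⟩ := k.exists
  filter_upwards [k, ev_compact h1 (p := fun n z => (ch0 I₀ x).symm z ∈ (g.ψ n).source) fun z hz =>
    (tendsto_id.prodMap ((ch0 I₀ x).continuousAt_symm (hn.tgt (h2 hz))).tendsto).eventually (hg.src _ (h3 z hz))]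
    with n k1 k3
  exact ch_rel (hg.rel n) (hg.H n).vol (hg.G n).vol (ch_mono k1 h2) k3

theorem chAt {𝓕 : Filter (Σ n, X n)} (h0 : x ∉ g.P) : ChAt (g.fb c 𝓕) (chX g x) g.l (ch0 I₀ x x) := by
  have := FiniteDimensional.proper_real E₀
  obtain ⟨K, δ, K0, δ0, k⟩ := ch_X hg x
  obtain ⟨γ, γ0, hγ⟩ := nhds_basis_closedBall.mem_iff.1 (inter_mem ((ch0 I₀ x).tendsto_symm (ch0_mem x)
    (hg.fin.isClosed.isOpen_compl.mem_nhds h0)) (closedBall_mem_nhds _ δ0))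
  exact ⟨K, γ, K0, γ0, k _ (isCompact_closedBall _ _) (fun z hz => (hγ hz).2) fun z hz => (hγ hz).1⟩

theorem nF_pt : nF (g.l : Filter α) {x}ᶜ x ≤ nF g.l g.Pᶜ x := fun _ hD =>
  ev_nF.2 ((ev_nF.1 hD).filter_mono (nhdsWithin_le_iff.2 (iso_of_fin hg.fin x)))

theorem ploc (he : (g.fb c (g.F g.Pᶜ x)).En) : PLoc (g.fb c (g.F g.Pᶜ x)) (chX g x) g.l (ch0 I₀ x x) := by
  have hm := ch0_mem (I := I₀) x
  have le : gF (chX g x) g.l (ch0 I₀ x x) ≤ g.F g.Pᶜ x := gF_eq.trans_le (map_mono (nF_pt hg))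
  refine ⟨le, ?_, ⟨_, span_chart g.G₀.F.toPre (Pat85.sch_echart _ x) hm, fun a => ?_⟩, ?_⟩
  · obtain ⟨K, δ, K0, δ0, k⟩ := ch_X hg x
    obtain ⟨γ, γ0, hγ⟩ := small_ann (ne' (I₀ := I₀) (iso_of_fin hg.fin x))
    exact ⟨K, min δ γ, K0, lt_min δ0 γ0, fun δ' h0 => k _ (cpt_ann ..)
      (ann_sub.trans (closedBall_subset_closedBall (min_le_left _ _)))
      fun z hz => (hγ δ' h0 z (ann_mono le_rfl (min_le_right _ _) hz)).2⟩
  · have t1 := (((hg.e a).mb 1 x).tendsto ((hg.e a).pt x)).mono_left (nF_le (U := {x}ᶜ))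
    have e1 := nF_pt hg (ev_src (x := x) hg Subset.rfl)
    rw [← pF_nF hm] at t1 e1
    exact Tendsto.congr' (mem_of_superset e1 fun p h1 => (rel_d1 (φ := ch0 I₀ x) (hg.rel p.1) a h1).symm) t1
  · obtain ⟨C, D, hD, k⟩ := he
    obtain ⟨δ, δ0, h⟩ := le hD
    exact ⟨δ, δ0, C, fun δ' h0 => mem_of_superset (h δ' h0) fun n hn => (lintegral_mono_set
      (by rintro _ ⟨z, hz, rfl⟩; exact hn z hz.1 hz.2)).trans (k n)⟩

omit hg in
theorem en_le_H (𝓕 : Filter (Σ n, X n)) (n : α) (y : X n) :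
    ‖g.Fg c n y‖ ^ 2 ≤ (g.fb c 𝓕).H ((g.bs c).sum L) 3 1 0 n y := by
  rw [Fb.H_sum, PiLp.norm_sq_eq_of_L2]
  refine le_add_of_le_of_nonneg (le_trans ?_ (Fintype.sum_sum_type _).ge) (Fb.H_nonneg ..)
  refine le_add_of_le_of_nonneg (le_of_eq ?_) (Finset.sum_nonneg fun _ _ => mul_nonneg (by positivity) (hs_nonneg _ _ _))
  simp only [one_pow, inv_one, one_mul]
  rfl

/-- bounded curvature excludes bubbles -/
theorem not_bub {R : ℝ} (h : ∀ᶠ q in (g.l : Filter α) ×ˢ 𝓝 x, ‖g.Fg c q.1 (g.ψ q.1 q.2)‖ ^ 2 ≤ R) :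
    ¬g.Bub c x := by
  rintro ⟨ε, ε0, hε⟩
  obtain ⟨A, hA, T, hT, h⟩ := mem_prod_iff.1 h
  have p0 : (0 : ℝ) < ε / (2 * (|R| + 1)) := by positivity
  obtain ⟨N, ⟨hx, o⟩, k⟩ := (nhds_basis_opens x).smallSets.eventually_iff.1 ((vol_small (fcv hg) isOpen_univ
    (.of_forall fun n => (hg.H n).vol) hg.G₀.vol hg.h4 (mem_univ x) p0).and (eventually_smallSets_subset.2 hT))
  obtain ⟨k1, k2⟩ := k (mem_powerset Subset.rfl)
  obtain ⟨n, h1, h2, h3⟩ := ((hε N (o.mem_nhds hx)).and (k1.and hA)).exists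
  have o' := o.inter (g.ψ n).open_source
  have a1 : g.en c n N ≤ ENNReal.ofReal ((|R| + 1) * (ε / (2 * (|R| + 1)))) := by
    refine (setLIntegral_mono' ((g.ψ n).isOpen_image_of_subset_source o' inter_subset_right).measurableSet
      (g := fun _ => ENNReal.ofReal (|R| + 1)) ?_).trans ?_
    · rintro _ ⟨y, hy, rfl⟩
      exact ENNReal.ofReal_le_ofReal ((h (mk_mem_prod h3 (k2 hy.1))).trans (by linarith [le_abs_self R]))
    · rw [setLIntegral_const, iso_meas ((hg.rel n).iso (hg.H n).vol (hg.G n).vol) o' inter_subset_right,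
        ENNReal.ofReal_mul (by positivity)]
      exact mul_le_mul_right ((measure_mono inter_subset_left).trans h2) _
  have a2 := (ENNReal.coe_nnreal_eq ε).symm.trans_le (h1.trans a1)
  rw [ENNReal.ofReal_le_ofReal_iff (by positivity), show (|R| + 1) * (ε / (2 * (|R| + 1))) = ε / 2 by field_simp] at a2
  have : (0 : ℝ) < ε := ε0
  linarith

theorem an_iso (hc : Cons (g.fb c (g.F g.Pᶜ x)) ((g.bs c).sum L)) (he : (g.fb c (g.F g.Pᶜ x)).En) :
    ∀ᶠ y in 𝓝[≠] x, y ∉ g.S c := by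
  have := FiniteDimensional.complete ℝ E
  filter_upwards [(tend_ne (ch0_mem x)).eventually (H0_near hc (ploc hg he)), iso_of_fin hg.fin x,
    nhdsWithin_le_nhds ((ch0 I₀ x).open_source.mem_nhds (ch0_mem x))] with y ⟨R, h1⟩ h2 h3
  rw [lF_eq h3 (mem_univ y)] at h1
  exact fun h => h.elim h2 (not_bub hg (mem_of_superset (le_nF (mem_univ y) h1) fun q hq => (en_le_H _ _ _).trans hq))

/-- **the exceptional set is locally finite** -/
theorem an_fin (hc : ∀ x, ∃ L, Cons (g.fb c (g.F g.Pᶜ x)) ((g.bs c).sum L)) (he : ∀ x, (g.fb c (g.F g.Pᶜ x)).En)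
    (K : Set M) (hK : IsCompact K) : (g.S c ∩ K).Finite :=
  fin_of_iso (Ω := univ) (fun x _ => let ⟨_, h⟩ := hc x; an_iso hg h (he x)) hK (subset_univ _)

theorem an_iso' (hc : Cons (g.fb c (g.F g.Pᶜ x)) L) (hk : Kat (g.fb c (g.F g.Pᶜ x)) L)
    (he : (g.fb c (g.F g.Pᶜ x)).En) : ∀ᶠ y in 𝓝[≠] x, y ∉ g.S c := by
  have := FiniteDimensional.complete ℝ E
  filter_upwards [(tend_ne (ch0_mem x)).eventually (en_near hc hk (ploc hg he)), iso_of_fin hg.fin x,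
    nhdsWithin_le_nhds ((ch0 I₀ x).open_source.mem_nhds (ch0_mem x))] with y ⟨R, h1⟩ h2 h3
  rw [lF_eq h3 (mem_univ y)] at h1
  exact fun h => h.elim h2 (not_bub hg (le_nF (mem_univ y) h1))

/-- the exceptional set is locally finite (any consistent system with the Kato inequality) -/
theorem an_fin' (hc : ∀ x, ∃ L, Cons (g.fb c (g.F g.Pᶜ x)) L ∧ Kat (g.fb c (g.F g.Pᶜ x)) L)
    (he : ∀ x, (g.fb c (g.F g.Pᶜ x)).En) (K : Set M) (hK : IsCompact K) : (g.S c ∩ K).Finite :=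
  fin_of_iso (Ω := univ) (fun x _ => let ⟨_, h, k⟩ := hc x; an_iso' hg h k (he x)) hK (subset_univ _)

/-- bounded jets at points without bubbles -/
theorem an_jb0 (hc : Cons (g.fb c (g.F g.Pᶜ x)) L) (hx : x ∉ g.S c) : (g.fb c (g.F g.Pᶜ x)).JB L := by
  have := FiniteDimensional.complete ℝ E
  have h0 : x ∉ g.P := fun h => hx (.inl h)
  have e := lF_eq (g := g) (U := g.Pᶜ) (ch0_mem x) h0
  obtain ⟨ε, ε0, k⟩ := jb_small hc e.le (chAt hg h0)
  have h1 : ¬g.Bub c x := fun h => hx (.inr h)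
  simp only [Gs.Bub, not_exists, not_and, not_forall, ← Ultrafilter.eventually_not, not_le] at h1
  obtain ⟨N, hN, h1⟩ := h1 ε ε0
  obtain ⟨K, δ, -, δ0, h2⟩ := chAt (c := c) (𝓕 := ⊤) hg h0
  obtain ⟨ρ, ρ0, hρ⟩ := nhds_basis_closedBall.mem_iff.1
    (inter_mem ((ch0 I₀ x).tendsto_symm (ch0_mem x) hN) (closedBall_mem_nhds _ δ0))
  have := k.self_of_nhds e.le ⟨ρ, ρ0, (h1.and h2).mono fun n hn => le_trans (lintegral_mono_set ?_) hn.1.le⟩
  · rwa [e] at this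
  rintro _ ⟨z, hz, rfl⟩
  exact ⟨_, ⟨(hρ hz).1, (hn.2.tgt (hρ hz).2).2⟩, rfl⟩

/-- **all jets are bounded off the exceptional set, uniformly up to it** -/
theorem an_jb (hc : Cons (g.fb c (g.F g.Pᶜ x)) L) (hk : Kat (g.fb c (g.F g.Pᶜ x)) L)
    (he : (g.fb c (g.F g.Pᶜ x)).En) : (g.fb c (g.F (g.S c)ᶜ x)).JB L := by
  have := FiniteDimensional.complete ℝ E
  by_cases hx : x ∈ g.S c
  · exact jb_mono (jb_gF hg.h4 hc hk (ploc hg he))
      ((map_mono (nF_mono (compl_subset_compl.2 (singleton_subset_iff.2 hx)))).trans gF_eq.ge)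
  · exact jb_mono (b := g.fb c (g.F g.Pᶜ x)) (an_jb0 hg hc hx)
      (map_mono (nF_mono (compl_subset_compl.2 subset_union_left)))

end Crest.Agent.X212.Shi84

end
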