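import Crest.Agent.X212.Shi84.Chs
import Crest.Agent.X212.Cmp73.Ine

/-!
# SHI (helper84): BERN and EPS for consistent systems
-/

set_option autoImplicit false
set_option linter.unusedSectionVars false
open Set Filter Topology Metric MeasureTheory
open scoped Manifold ContDiff NNReal InnerProductSpace

noncomputable section

namespace Crest.Agent.X212.Shi84

open Mp86 Cmp73
open An (Sm)
open Wz78 (nab)

theorem sq_mu {σ : ℝ} (hσ : 0 < σ) (d : ℕ) : (((√σ)⁻¹ ^ d) ^ 2)⁻¹ = σ ^ d := by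
  rw [← pow_mul, mul_comm, pow_mul, inv_pow, Real.sq_sqrt hσ.le, inv_pow, inv_inv]

theorem mu4 {σ : ℝ} (hσ : 0 < σ) : (√σ)⁻¹ ^ 4 = (σ ^ 2)⁻¹ := by
  rw [← sq_mu hσ 2, inv_inv, ← pow_mul]

theorem one_le_mu {σ : ℝ} (hσ : 0 < σ) (h1 : σ ≤ 1) : 1 ≤ (√σ)⁻¹ :=
  (one_le_inv₀ (Real.sqrt_pos.2 hσ)).2 (Real.sqrt_le_one.2 h1)

/-- from the homogeneous gauge to the weighted square -/
theorem wt_le {σ a Λ : ℝ} {d : ℕ} (hd : d = 3 ∨ d = 4) (a0 : 0 ≤ a) (Λ0 : 0 ≤ Λ)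
    (h : σ ^ 6 * a ^ (12 / d) ≤ Λ) : σ ^ d * a ^ 2 ≤ 1 + Λ := by
  rcases hd with rfl | rfl
  · have e : σ ^ 6 * a ^ (12 / 3) = (σ ^ 3 * a ^ 2) ^ 2 := by norm_num; ring
    rw [e] at h
    nlinarith [sq_nonneg (σ ^ 3 * a ^ 2 - 1)]
  · have e : σ ^ 6 * a ^ (12 / 4) = (σ ^ 2 * a) ^ 3 := by norm_num; ring
    have e' : σ ^ 4 * a ^ 2 = (σ ^ 2 * a) ^ 2 := by ring
    rw [e] at h
    rw [e']
    have : 0 ≤ σ ^ 2 * a := by positivity
    generalize σ ^ 2 * a = c at *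
    nlinarith [mul_nonneg this (sq_nonneg (c - 1)), sq_nonneg (c - 1)]

theorem wt_ge {σ a η : ℝ} {d : ℕ} (hd : d = 3 ∨ d = 4) (σ0 : 0 ≤ σ) (a0 : 0 ≤ a) (η0 : 0 ≤ η) (η1 : η ≤ 1)
    (h : σ ^ d * a ^ 2 ≤ η ^ 2) : σ ^ 6 * a ^ (12 / d) ≤ η := by
  rcases hd with rfl | rfl
  · have e : σ ^ 6 * a ^ (12 / 3) = (σ ^ 3 * a ^ 2) ^ 2 := by norm_num; ring
    rw [e]
    exact (pow_le_pow_left₀ (by positivity) h 2).trans (by rw [← pow_mul]; exact pow_le_of_le_one η0 η1 (by norm_num))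
  · have e : σ ^ 6 * a ^ (12 / 4) = (σ ^ 2 * a) ^ 3 := by norm_num; ring
    have e' : σ ^ 4 * a ^ 2 = (σ ^ 2 * a) ^ 2 := by ring
    rw [e]
    rw [e'] at h
    exact (pow_le_pow_left₀ (by positivity) (abs_le_of_sq_le_sq' h η0).2 3).trans
      (pow_le_of_le_one η0 η1 (by norm_num))

variable {E : Type} [NormedAddCommGroup E] [NormedSpace ℝ E] {HM : Type} [TopologicalSpace HM]
  {I : ModelWithCorners ℝ E HM} {ι : Type} [Fintype ι]
  {E' : Type} [NormedAddCommGroup E'] [NormedSpace ℝ E']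

section one
variable {N : Type} [TopologicalSpace N] [ChartedSpace HM N] [IsManifold I ∞ N] [MeasurableSpace N]
  {e : ι → (x : N) → TangentSpace I x} {μ : Measure N} {κ : OpenPartialHomeomorph N E'} {T : Set E'}
  {K B σ C η t : ℝ} {φ : E' → ℝ} {z : E'} {V : Type} [NormedAddCommGroup V] [InnerProductSpace ℝ V]
  {A : ι → N → V →L[ℝ] V} {s w : N → V} {d : ℕ}

theorem hs_one (σ0 : 0 < σ) {x : N} (h : σ ^ d * hs I e A (√σ)⁻¹ 1 s x ≤ C) :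
    σ ^ d * ‖s x‖ ^ 2 ≤ C ∧ ∀ a, σ ^ d * (σ * ‖nab I e A a s x‖) ^ 2 ≤ C := by
  simp only [hs, mu4 σ0, inv_inv] at h
  have a1 := sq_nonneg ‖s x‖
  have a2 : 0 ≤ σ ^ 2 * ∑ a, ‖nab I e A a s x‖ ^ 2 := by positivity
  refine ⟨le_trans (by gcongr; linarith) h, fun a => le_trans (mul_le_mul_of_nonneg_left ?_ (by positivity)) h⟩
  have := mul_le_mul_of_nonneg_left (Finset.single_le_sum (f := fun a => ‖nab I e A a s x‖ ^ 2)
    (fun _ _ => sq_nonneg _) (Finset.mem_univ a)) (sq_nonneg σ)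
  rw [mul_pow]; linarith

/-- a large field stays large on a ball of comparable size -/
theorem fld_low (h : Ch I e μ κ T K) (K0 : 0 ≤ K) (sk : ∀ a x v w, ⟪A a x v, w⟫_ℝ = -⟪v, A a x w⟫_ℝ)
    (hs' : Sm I s) (σ0 : 0 < σ) (C0 : 0 ≤ C) (hb : closedBall z (σ / 2) ⊆ T)
    (hC : ∀ y ∈ closedBall z (σ / 2), σ ^ d * hs I e A (√σ)⁻¹ 1 s (κ.symm y) ≤ C)
    (t1 : t ≤ 1 / 2) (t2 : 2 * Fintype.card ι * K * C * t ≤ η) (hη : 2 * η ≤ σ ^ d * ‖s (κ.symm z)‖ ^ 2) :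
    ∀ y ∈ closedBall z (t * σ), η ≤ σ ^ d * ‖s (κ.symm y)‖ ^ 2 := by
  intro y hy
  have md : ∀ x, MD I (fun x => ‖s x‖ ^ 2) x := fun x => (cm_normSq (hs' x)).md (by simp)
  have := lip h (convex_closedBall z (σ / 2)) hb (f := fun x => σ ^ d * ‖s x‖ ^ 2) (A := 2 * C / σ)
    (fun y _ => md_mul mdifferentiableAt_const (md _)) (fun y hy a => ?_) (mem_closedBall_self (by positivity))
    (closedBall_subset_closedBall (by nlinarith) hy)
  · rw [abs_of_nonneg K0, abs_of_nonneg (by positivity), Real.norm_eq_abs] at this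
    have a1 : Fintype.card ι * K * (2 * C / σ) * ‖y - z‖ ≤ Fintype.card ι * K * (2 * C / σ) * (t * σ) := by
      gcongr; exact mem_closedBall_iff_norm.1 hy
    have a2 : Fintype.card ι * K * (2 * C / σ) * (t * σ) = 2 * Fintype.card ι * K * C * t := by field_simp
    have := neg_le_of_abs_le this
    linarith
  obtain ⟨a1, a2⟩ := hs_one σ0 (hC y hy)
  have m1 : MD I s (κ.symm y) := (hs' _).mdifferentiableAt (by simp)
  have a3 := dv_inner_cd (v := e a) (sk a _) m1 m1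
  simp only [real_inner_self_eq_norm_sq] at a3
  rw [dv_mul mdifferentiableAt_const (md _), dv_const, zero_mul, zero_add, a3, real_inner_comm, ← two_mul,
    norm_mul, norm_mul, Real.norm_of_nonneg (by positivity), Real.norm_ofNat, le_div_iff₀ σ0]
  have a4 := mul_le_mul_of_nonneg_left (norm_inner_le_norm (𝕜 := ℝ) (s (κ.symm y)) (cd I (e a) (A a) s (κ.symm y)))
    (show 0 ≤ σ ^ d * σ by positivity)
  have a5 := mul_nonneg (pow_nonneg σ0.le d) (sq_nonneg (‖s (κ.symm y)‖ - σ * ‖nab I e A a s (κ.symm y)‖))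
  have a6 := a2 a
  change _ ≤ _ * (_ * ‖nab I e A a s (κ.symm y)‖) at a4
  linarith

theorem tay_arith {σ η C W p q J : ℝ} (σ0 : 0 < σ) (η0 : 0 < η)
    (h1 : η ≤ σ ^ 3 * p ^ 2) (h2 : σ ^ 3 * (σ * q) ^ 2 ≤ C) (h3 : σ * (4 * W ^ 2 * C) ≤ η ^ 2)
    (h4 : -(q * W) ≤ J) : η / σ ^ 3 ≤ 2 * J + 2 * p ^ 2 := by
  have a1 : (2 * W * (σ ^ 3 * q)) ^ 2 ≤ η ^ 2 := by
    have := mul_le_mul_of_nonneg_left h2 (show 0 ≤ σ * (4 * W ^ 2) by positivity)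
    linarith
  have a2 := (abs_le_of_sq_le_sq' a1 η0.le).2
  have a3 := mul_le_mul_of_nonneg_left h4 (pow_nonneg σ0.le 3)
  rw [div_le_iff₀ (by positivity)]
  linarith

end one

variable {α : Type} {X : α → Type} [∀ n, TopologicalSpace (X n)] [∀ n, ChartedSpace HM (X n)]
  [∀ n, IsManifold I ∞ (X n)] [∀ n, MeasurableSpace (X n)] {b : Fb I ι X} {L : Sy ι X}
  {κ : ∀ n, OpenPartialHomeomorph (X n) E'} {𝓑 : Filter (α × E' × ℝ)}

theorem si (hc : Cons b L) (r : ℕ) (R : ℝ) : ∃ K, 0 ≤ K ∧ ∀ᶠ q in b.F, ∀ μ, 1 ≤ μ → (μ = 1 ∨ r = 0) →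
    b.H L 3 μ r q.1 q.2 ≤ R → SI I (b.e q.1) (μ ^ 4) K (|R| + 1) (b.H L 3 μ r q.1) (b.H L 3 μ (r + 1) q.1)
      (b.H L 3 μ (r + 2) q.1) q.2 := by
  obtain ⟨K, K0, hK⟩ := hc.ine r R
  refine ⟨K, K0, hK.mono fun q hq μ h1 h2 h3 => ?_⟩
  have g : ∀ r, ∑ a, dv I (b.e q.1 a) (b.H L 3 μ r q.1) q.2 ^ 2 ≤
      4 * μ ^ 4 * b.H L 3 μ r q.1 q.2 * b.H L 3 μ (r + 1) q.1 q.2 := fun r => by
    refine (hc.grad (by linarith) r q.2).trans ?_
    have := mul_nonneg (mul_nonneg (b.H_nonneg L 3 μ r q.1 q.2) (b.H_nonneg L 3 μ 0 q.1 q.2))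
      (show 0 ≤ μ ^ 4 by positivity)
    linarith
  exact ⟨(hc.sm_H 3 μ _ _ _).of_le two_le, (hc.sm_H 3 μ _ _ _).of_le two_le, b.H_nonneg ..,
    b.H_nonneg .., b.H_nonneg .., h3.trans (by nlinarith [le_abs_self R, abs_nonneg R]),
    (hq μ h1 h2 h3).1, (hq μ h1 h2 h3).2, g r, g (r + 1)⟩

variable [CompleteSpace E] [I.Boundaryless] [FiniteDimensional ℝ E']

/-- SHI on all sub-balls, at all scales -/
theorem shi_sub (hc : Cons b L) (hB : Bl b κ 𝓑) (r : ℕ) (R : ℝ) : ∃ C, 0 ≤ C ∧ ∀ᶠ p in 𝓑, ∀ μ, 1 ≤ μ →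
    (μ = 1 ∨ r = 0) → ∀ z s, 0 < s → s ^ 2 * μ ^ 4 ≤ 1 → closedBall z s ⊆ closedBall p.2.1 p.2.2 →
      (∀ y ∈ closedBall z s, b.H L 3 μ r p.1 ((κ p.1).symm y) ≤ R) →
        s ^ 2 * μ ^ 4 * b.H L 3 μ (r + 1) p.1 ((κ p.1).symm z) ≤ C := by
  have := FiniteDimensional.proper_real E'
  obtain ⟨φ, B, hφ⟩ := exists_bmp E'
  obtain ⟨K, K0, hK⟩ := hB.ch
  obtain ⟨K', K1, hK'⟩ := si hc r R
  refine ⟨max 0 (ballC ι B K K' (|R| + 1)), le_max_left _ _, (hK.and (hB.sub _ hK')).mono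
    fun p hp μ h1 h2 z s s0 s1 hb hR => le_trans ?_ (le_max_right _ _)⟩
  have m1 : 1 ≤ μ ^ 4 := one_le_pow₀ h1
  exact shi_ball (h0 := b.H L 3 μ r p.1) (h2 := b.H L 3 μ (r + 2) p.1) hp.1.2.2 K0.le (b.frm _).se hφ s0
    (abs_le_of_sq_le_sq' (by nlinarith [sq_nonneg s]) zero_le_one).2 hb (by linarith) s1 K1 (by positivity)
    fun y hy => hp.2 y (hb hy) μ h1 h2 (hR y hy)

/-- **BERN** -/
theorem bern (hc : Cons b L) (hB : Bl b κ 𝓑) : Bern b L κ 𝓑 := fun r R => by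
  obtain ⟨C, -, hC⟩ := shi_sub hc hB r R
  obtain ⟨K, -, hK⟩ := hB.ch
  refine ⟨C, (hC.and hK).mono fun p hp hR => ?_⟩
  simpa using hp.1 1 le_rfl (.inl rfl) p.2.1 p.2.2 hp.2.1 (by nlinarith [hp.2.1, hp.2.2.1]) Subset.rfl hR

variable [∀ n, OpensMeasurableSpace (X n)]

/-- a field with bounded one-jet is small at small scales -/
theorem fld_small {f : Fld ι X} (hf : f.O3 b L) (hB : Bl b κ 𝓑) {C η : ℝ} (C0 : 0 ≤ C) (η0 : 0 < η) :
    ∃ δ : ℝ≥0, 0 < δ ∧ ∀ᶠ p in 𝓑, b.eb κ p ≤ δ → ∀ z (σ : ℝ), 0 < σ → σ ≤ δ →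
      closedBall z (σ / 2) ⊆ closedBall p.2.1 p.2.2 →
      (∀ y ∈ closedBall z (σ / 2), b.H L 3 (√σ)⁻¹ 0 p.1 ((κ p.1).symm y) ≤ C) →
      (∀ y ∈ closedBall z (σ / 2), σ ^ f.d 3 * hs I (b.e p.1) (f.A p.1) (√σ)⁻¹ 1 (f.s p.1) ((κ p.1).symm y) ≤ C) →
        σ ^ f.d 3 * ‖f.s p.1 ((κ p.1).symm z)‖ ^ 2 < 2 * η := by
  have := FiniteDimensional.proper_real E'
  obtain ⟨φ, B, hφ⟩ := exists_bmp E'
  obtain ⟨K, K0, hK⟩ := hB.ch
  have B0 := hφ.nn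
  set t := min (1 / 2) (η / (2 * Fintype.card ι * K * C + 1))
  have t0 : 0 < t := lt_min (by norm_num) (by positivity)
  have t1 : t ≤ 1 / 2 := min_le_left _ _
  have t2 : 2 * Fintype.card ι * K * C * t ≤ η := by
    have := (le_div_iff₀ (by positivity)).1 (min_le_right _ _ : t ≤ _); linarith
  have sb : ∀ {z : E'} {σ : ℝ}, 0 < σ → closedBall z (t * σ) ⊆ closedBall z (σ / 2) := fun σ0 =>
    closedBall_subset_closedBall (by nlinarith)
  suffices H : ∃ δ : ℝ, 0 < δ ∧ ∀ᶠ p in 𝓑, b.eb κ p ≤ δ.toNNReal → ∀ z σ, 0 < σ → σ ≤ δ →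
      closedBall z (σ / 2) ⊆ closedBall p.2.1 p.2.2 →
      (∀ y ∈ closedBall z (σ / 2), b.H L 3 (√σ)⁻¹ 0 p.1 ((κ p.1).symm y) ≤ C) →
      (∀ y ∈ closedBall z (σ / 2), σ ^ f.d 3 * hs I (b.e p.1) (f.A p.1) (√σ)⁻¹ 1 (f.s p.1) ((κ p.1).symm y) ≤ C) →
      ¬ ∀ y ∈ closedBall z (t * σ), η ≤ σ ^ f.d 3 * ‖f.s p.1 ((κ p.1).symm y)‖ ^ 2 by
    obtain ⟨δ, δ0, H⟩ := H
    exact ⟨δ.toNNReal, Real.toNNReal_pos.2 δ0, (H.and hK).mono fun p hp h1 z σ σ0 h2 hb hH hC => not_le.1 fun h3 =>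
      hp.1 h1 z σ σ0 (by rwa [Real.coe_toNNReal _ δ0.le] at h2) hb hH hC
        (fld_low hp.2.2.2 K0.le (hf.sk _) (hf.sm _) σ0 C0 hb hC t1 t2 h3)⟩
  rcases hf.kind with ⟨ht, hk | ⟨C₄, D, hD, hk⟩⟩ | ⟨ht, w, a, sw, ⟨W, hW⟩, hk⟩ <;>
    simp only [Fld.d, ht, Bool.false_eq_true, if_false, if_true]
  · obtain ⟨C₁, C1, hk⟩ := hk C
    refine ⟨min (min 1 (η / (2 * C₁))) (η / (2 * C₁) * t ^ 4 / (2 * K)),
      lt_min (lt_min one_pos (by positivity)) (by positivity),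
      (hK.and (hB.sub _ hk)).mono fun p hp h1 z σ σ0 h2 hb hH _ hl => ?_⟩
    have hs := ball_subset_closedBall.trans ((sb σ0).trans hb)
    have := mass hp.1.2.2 K0 (mul_pos t0 σ0) hs (image_mono hs) (c := η / (2 * C₁) / σ ^ 4) (by positivity)
      (fun y hy => ENNReal.ofReal_le_ofReal ?_) (h1.trans (ENNReal.coe_le_coe.2
        (Real.toNNReal_le_toNNReal (min_le_right _ _))))
    · rw [Real.coe_toNNReal _ (by positivity), mul_pow] at this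
      have e1 : η / (2 * C₁) / σ ^ 4 * (t ^ 4 * σ ^ 4) = η / (2 * C₁) * t ^ 4 := by field_simp
      have e2 : K * (η / (2 * C₁) * t ^ 4 / (2 * K)) = η / (2 * C₁) * t ^ 4 / 2 := by field_simp
      have : 0 < η / (2 * C₁) * t ^ 4 := by positivity
      linarith
    have a1 := h2.trans ((min_le_left _ _).trans (min_le_left _ _))
    have a2 := (le_div_iff₀ (by positivity)).1 (h2.trans ((min_le_left _ _).trans (min_le_right _ _)))
    have a3 := (hl y (ball_subset_closedBall hy)).trans (mul_le_mul_of_nonneg_left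
      (hp.2 y (hs hy) _ (one_le_mu σ0 a1) (hH y (sb σ0 (ball_subset_closedBall hy)))) (by positivity))
    have a4 : σ ^ 4 * (√σ)⁻¹ ^ 6 = σ := by
      rw [show 6 = 2 * 3 from rfl, pow_mul, inv_pow, Real.sq_sqrt σ0.le]; field_simp
    rw [mul_left_comm, mul_add, a4] at a3
    rw [div_le_iff₀' (by positivity), div_le_iff₀ (by positivity)]
    linarith
  · refine ⟨min 1 (η ^ 2 * t ^ 4 / (K * C₄ + 1)), lt_min one_pos (by positivity),
      (hK.and (hB.sub D hD)).mono fun p hp _ z σ σ0 h2 hb _ _ hl => ?_⟩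
    have hs := ball_subset_closedBall.trans ((sb σ0).trans hb)
    have := mass hp.1.2.2 K0 (mul_pos t0 σ0) hs (D := Sigma.mk p.1 ⁻¹' D)
      (by rintro _ ⟨y, hy, rfl⟩; exact hp.2 y (hs hy)) (c := (η / σ ^ 4) ^ 2) (by positivity)
      (fun y hy => ?_) (hk p.1)
    · have e1 : (η / σ ^ 4) ^ 2 * (t * σ) ^ 4 = η ^ 2 * t ^ 4 / σ ^ 4 := by field_simp
      rw [e1, div_le_iff₀ (by positivity)] at this
      have a1 := (le_div_iff₀ (by positivity)).1 (h2.trans (min_le_right _ _))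
      have a2 : σ ^ 4 ≤ σ := pow_le_of_le_one σ0.le (h2.trans (min_le_left _ _)) (by norm_num)
      have a3 := mul_le_mul_of_nonneg_left a2 (show 0 ≤ K * C₄ by positivity)
      linarith
    rw [← ofReal_norm, ← ENNReal.ofReal_pow (norm_nonneg _)]
    refine ENNReal.ofReal_le_ofReal ((pow_le_pow_left₀ (by positivity)
      ((div_le_iff₀' (by positivity)).2 (hl y (ball_subset_closedBall hy))) 2).trans (by rw [← pow_mul]))
  · refine ⟨min 1 (min (η ^ 2 / (4 * W ^ 2 * C + 1)) (η * t ^ 2 / ((W ^ 2 + 1) * (B * K ^ 2 + B * K) + 1))),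
      lt_min one_pos (lt_min (by positivity) (by positivity)),
      (hK.and (hB.sub _ hW)).mono fun p hp _ z σ σ0 h2 hb _ hC hl => ?_⟩
    have hs := (sb σ0).trans hb
    have a1 := h2.trans (min_le_left _ _)
    have a2 := (le_div_iff₀ (by positivity)).1 (h2.trans ((min_le_right _ _).trans (min_le_left _ _)))
    have a3 := (le_div_iff₀ (by positivity)).1 (h2.trans ((min_le_right _ _).trans (min_le_right _ _)))
    have := tay hp.1.2.2 (b.frm _).se hφ (mul_pos t0 σ0) (by nlinarith) hs a (g := fun x => ‖w p.1 x‖ ^ 2)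
      (A := W ^ 2) (c := η / σ ^ 3) (fun y _ => (cm_normSq (sw _ _)).of_le two_le) (sq_nonneg _)
      (fun y hy => pow_le_pow_left₀ (norm_nonneg _) (hp.2 y (hs hy)) 2) fun y hy => ?_
    · have e1 : (t * σ) ^ 2 * (η / σ ^ 3) = η * t ^ 2 / σ := by field_simp
      rw [e1, div_le_iff₀ σ0] at this
      linarith
    have b1 := Lop_normSq (e := fun _ : Unit => b.e p.1 a) (b := 0) (A := fun _ => f.A p.1 a) (u := w p.1)
      (x := (κ p.1).symm y) (fun _ => vf1 (b.frm _).se a _) (fun _ => (hf.sA _ a _).of_le (by simp))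
      (fun _ => .of_forall (hf.sk _ a)) ((sw _ _).of_le two_le)
    simp only [Lop, LA, Finset.univ_unique, Finset.sum_singleton, Pi.zero_apply, zero_smul, add_zero] at b1
    have b2 := (hs_one σ0 (hC y (sb σ0 hy))).2 a
    have b3 := hl y hy
    have b4 : ‖w p.1 ((κ p.1).symm y)‖ ≤ W := hp.2 y (hs hy)
    rw [hk] at b2 b3
    rw [b1]
    exact tay_arith σ0 η0 b3 b2 (by linarith)
      (neg_le_of_abs_le ((abs_real_inner_le_norm _ _).trans (mul_le_mul_of_nonneg_left b4 (norm_nonneg _))))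

variable (L) in
/-- the homogeneous gauge of weight twelve -/
def gm (n : α) (x : X n) : ℝ := ∑ i, ‖(L.f i).s n x‖ ^ (12 / (L.f i).d 3)

theorem gm_nonneg (n : α) (x : X n) : 0 ≤ gm L n x := Finset.sum_nonneg fun _ _ => by positivity

theorem d_cases (f : Fld ι X) : f.d 3 = 3 ∨ f.d 3 = 4 := by unfold Fld.d; split <;> simp

theorem H_of_gm {σ Λ : ℝ} (σ0 : 0 < σ) {n : α} {x : X n} (h : σ ^ 6 * gm L n x ≤ Λ) :
    b.H L 3 (√σ)⁻¹ 0 n x ≤ Fintype.card L.κ * (1 + Λ) := by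
  refine (Finset.sum_le_card_nsmul _ _ (1 + Λ) fun i _ => ?_).trans (by rw [Finset.card_univ, nsmul_eq_mul])
  rw [sq_mu σ0]
  exact wt_le (d_cases _) (norm_nonneg _) ((mul_nonneg (by positivity) (gm_nonneg n x)).trans h)
    (le_trans (mul_le_mul_of_nonneg_left (Finset.single_le_sum (f := fun i => ‖(L.f i).s n x‖ ^ (12 / (L.f i).d 3))
      (fun _ _ => by positivity) (Finset.mem_univ i)) (by positivity)) h)

/-- bounded gauge gives bounded one-jets -/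
theorem shi_gm (hc : Cons b L) (hB : Bl b κ 𝓑) (Λ : ℝ) : ∃ C, 0 ≤ C ∧ ∀ᶠ p in 𝓑, ∀ σ, 0 < σ → σ ≤ 1 → ∀ z,
    closedBall z (σ / 2) ⊆ closedBall p.2.1 p.2.2 →
      (∀ y ∈ closedBall z (σ / 2), σ ^ 6 * gm L p.1 ((κ p.1).symm y) ≤ Λ) →
        b.H L 3 (√σ)⁻¹ 1 p.1 ((κ p.1).symm z) ≤ C := by
  obtain ⟨C, C0, hC⟩ := shi_sub hc hB 0 (Fintype.card L.κ * (1 + Λ))
  refine ⟨4 * C, by positivity, hC.mono fun p hp σ σ0 σ1 z hb hm => ?_⟩
  have e : (σ / 2) ^ 2 * (√σ)⁻¹ ^ 4 = 1 / 4 := by rw [mu4 σ0]; field_simp; norm_num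
  have := hp _ (one_le_mu σ0 σ1) (.inr rfl) z _ (half_pos σ0) (by rw [e]; norm_num) hb fun y hy => H_of_gm σ0 (hm y hy)
  rw [e, zero_add] at this
  linarith

/-- **EPS** -/
theorem eps (hc : Cons b L) (hB : Bl b κ 𝓑) : Eps b L κ 𝓑 := by
  have := FiniteDimensional.proper_real E'
  obtain ⟨C, C0, hC⟩ := shi_gm hc hB (2 ^ 6)
  set η : ℝ := 1 / (Fintype.card L.κ + 1)
  have η0 : 0 < η := by positivity
  have η1 : η * (Fintype.card L.κ + 1) = 1 := one_div_mul_cancel (by positivity)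
  have η2 : 0 ≤ η * Fintype.card L.κ := by positivity
  choose δ δ0 hδ using fun i => fld_small (hc.ok i) hB C0 (η := η ^ 2 / 2) (by positivity)
  obtain ⟨ε, ⟨ε0, ε1⟩, hε⟩ := ((show ∀ᶠ x in 𝓝[>] (0 : ℝ≥0), x ∈ Ioc 0 1 from Ioc_mem_nhdsGT one_pos).and
    (eventually_all.2 fun i => show ∀ᶠ x in 𝓝[>] (0 : ℝ≥0), x ∈ Ioc 0 (δ i) from Ioc_mem_nhdsGT (δ0 i))).exists
  have ε2 : (0 : ℝ) < ε := ε0
  have ε3 : (1 : ℝ) ≤ (ε : ℝ)⁻¹ := (one_le_inv₀ ε2).2 ε1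
  obtain ⟨C', -, hC'⟩ := shi_gm hc hB ((2 * (2 + (ε : ℝ)⁻¹)) ^ 6)
  obtain ⟨K, -, hK⟩ := hB.ch
  refine ⟨ε, ε0, C', ((hC.and hC').and (hK.and (eventually_all.2 hδ))).mono fun p hp hE => ?_⟩
  obtain ⟨⟨h1, h2⟩, ⟨ρ0, ρ1, ch⟩, h3⟩ := hp
  refine h2 _ ρ0 ρ1 _ (closedBall_subset_closedBall (by linarith)) fun y hy => le_trans
    (pick (m := fun y => gm L p.1 ((κ p.1).symm y)) (k := 6) (by norm_num) ρ0 ?_ (fun _ => gm_nonneg _ _) ε3
      (fun z σ σ0 hz hm h1' => ?_) y hy) (by gcongr; nlinarith)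
  · exact (continuous_finsetSum _ fun i _ => ((hc.ok i).sm _).continuous.norm.pow _).comp_continuousOn
      ((κ p.1).continuousOn_symm.mono ch.tgt)
  rw [le_inv_mul_iff₀ ε2, mul_one]
  by_contra hn
  have dn := dist_nonneg (x := z) (y := p.2.1)
  have sb : closedBall z σ ⊆ closedBall p.2.1 p.2.2 := closedBall_subset_closedBall' (by linarith)
  have a1 : ∀ y ∈ closedBall z (σ / 2), b.H L 3 (√σ)⁻¹ 1 p.1 ((κ p.1).symm y) ≤ C := fun y hy => by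
    have : closedBall y (σ / 2) ⊆ closedBall z σ :=
      closedBall_subset_closedBall' (by have := mem_closedBall.1 hy; linarith)
    exact h1 σ σ0 (by linarith) y (this.trans sb) fun x hx => hm x (this hx)
  have a2 := Finset.sum_le_card_nsmul Finset.univ
    (fun i => σ ^ 6 * ‖(L.f i).s p.1 ((κ p.1).symm z)‖ ^ (12 / (L.f i).d 3)) η fun i _ => by
      refine wt_ge (d_cases _) σ0.le (norm_nonneg _) η0.le (by linarith) ?_
      have := h3 i (hE.trans (by exact_mod_cast (hε i).2)) z σ σ0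
        ((not_le.1 hn).le.trans (by exact_mod_cast (hε i).2))
        ((closedBall_subset_closedBall (by linarith)).trans sb)
        (fun y hy => (b.H_mono ..).trans (a1 y hy)) fun y hy => le_trans ?_ (a1 y hy)
      · linarith
      rw [← sq_mu σ0]
      exact Finset.single_le_sum (f := fun i => (((√σ)⁻¹ ^ (L.f i).d 3) ^ 2)⁻¹ *
        hs I (b.e p.1) ((L.f i).A p.1) (√σ)⁻¹ 1 ((L.f i).s p.1) ((κ p.1).symm y))
        (fun _ _ => mul_nonneg (by positivity) (hs_nonneg _ _ _)) (Finset.mem_univ i)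
  rw [← Finset.mul_sum, Finset.card_univ, nsmul_eq_mul] at a2
  have a3 : σ ^ 6 * ∑ i, ‖(L.f i).s p.1 ((κ p.1).symm z)‖ ^ (12 / (L.f i).d 3) = 1 := h1'
  linarith

end Crest.Agent.X212.Shi84

end
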