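import Crest.Agent.X212.Shi84.BE
import Crest.Agent.X212.Eps63.Dec

/-!
# BUB (helper84): regular points, isolated bubble points, the puncture hypotheses at every point
-/

set_option autoImplicit false
set_option linter.unusedSectionVars false
open Set Filter Topology Metric MeasureTheory
open scoped Manifold ContDiff NNReal InnerProductSpace

noncomputable section

namespace Crest.Agent.X212.Shi84

open Mp86 Cmp73
open An (Sm)

variable {E : Type} [NormedAddCommGroup E] [NormedSpace ℝ E] {HM : Type} [TopologicalSpace HM]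
  {I : ModelWithCorners ℝ E HM} {ι : Type} [Fintype ι]
  {E' : Type} [NormedAddCommGroup E'] [NormedSpace ℝ E']

/-- a spanning family is a Parseval frame for a Euclidean structure -/
theorem exists_parseval [FiniteDimensional ℝ E'] {v : ι → E'} (hv : ∀ w, ∃ θ : ι → ℝ, ∑ a, θ a • v a = w) :
    ∃ (R : E' →L[ℝ] EuclideanSpace ℝ ι) (K : ℝ), (∀ w, ‖w‖ ^ 2 ≤ K * ‖R w‖ ^ 2 ∧ ‖R w‖ ^ 2 ≤ K * ‖w‖ ^ 2) ∧
      (∀ w, ∑ a, ⟪R w, R (v a)⟫_ℝ ^ 2 = ‖R w‖ ^ 2) ∧ ∑ a, ‖R (v a)‖ ^ 2 = Module.finrank ℝ E' := by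
  classical
  let β := EuclideanSpace.basisFun ι ℝ
  let T : EuclideanSpace ℝ ι →ₗ[ℝ] E' := β.toBasis.constr ℝ v
  have Tb : ∀ a, T (β a) = v a := fun a => β.toBasis.constr_basis ℝ v a
  obtain ⟨R₀, h0⟩ := T.exists_rightInverse_of_surjective (LinearMap.range_eq_top.2 fun w =>
    let ⟨θ, hθ⟩ := hv w; ⟨∑ a, θ a • β a, by simp only [map_sum, map_smul, Tb, hθ]⟩)
  have h1 : ∀ w, T (R₀ w) = w := fun w => LinearMap.congr_fun h0 w
  let P := (LinearMap.ker T)ᗮ.starProjection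
  have k0 : ∀ θ ∈ LinearMap.ker T, P θ = 0 := fun θ hθ =>
    (Submodule.starProjection_apply_eq_zero_iff _).2 (Submodule.le_orthogonal_orthogonal _ hθ)
  have TP : ∀ θ, T (P θ) = T θ := fun θ => by
    have := (LinearMap.ker T)ᗮ.sub_starProjection_mem_orthogonal θ
    rw [Submodule.orthogonal_orthogonal, LinearMap.mem_ker, map_sub] at this
    exact (sub_eq_zero.1 this).symm
  let R : E' →ₗ[ℝ] EuclideanSpace ℝ ι := P.toLinearMap ∘ₗ R₀
  have RT : ∀ θ, R (T θ) = P θ := fun θ => sub_eq_zero.1 (by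
    change P _ - P _ = 0
    rw [← map_sub]; exact k0 _ (by rw [LinearMap.mem_ker, map_sub, h1, sub_self]))
  have TR : ∀ w, T (R w) = w := fun w => (TP _).trans (h1 w)
  have PP : ∀ θ η, ⟪P θ, P η⟫_ℝ = ⟪P θ, η⟫_ℝ := fun θ η => by
    rw [← Submodule.inner_starProjection_left_eq_right, Submodule.starProjection_eq_self_iff.2 (Submodule.starProjection_apply_mem _ _)]
  refine ⟨R.toContinuousLinearMap, ‖T.toContinuousLinearMap‖ ^ 2 + ‖R.toContinuousLinearMap‖ ^ 2,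
    fun w => ⟨?_, ?_⟩, fun w => ?_, ?_⟩
  · have := pow_le_pow_left₀ (norm_nonneg _) (T.toContinuousLinearMap.le_opNorm (R w)) 2
    rw [LinearMap.coe_toContinuousLinearMap', TR] at this
    rw [LinearMap.coe_toContinuousLinearMap']
    nlinarith [sq_nonneg (‖R.toContinuousLinearMap‖ * ‖R w‖)]
  · have := pow_le_pow_left₀ (norm_nonneg _) (R.toContinuousLinearMap.le_opNorm w) 2
    nlinarith [sq_nonneg (‖T.toContinuousLinearMap‖ * ‖w‖)]
  · simp only [LinearMap.coe_toContinuousLinearMap', ← Tb, RT]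
    rw [← β.sum_sq_inner_left]
    exact Finset.sum_congr rfl fun a _ => congrArg (· ^ 2) (PP _ _)
  · have t1 := LinearMap.trace_comp_comm' T R
    rw [show T ∘ₗ R = LinearMap.id from LinearMap.ext TR, LinearMap.trace_id, LinearMap.trace_eq_sum_inner _ β] at t1
    rw [← t1]
    refine Finset.sum_congr rfl fun a _ => ?_
    rw [LinearMap.coe_toContinuousLinearMap', ← Tb, LinearMap.comp_apply R T, RT, ← real_inner_self_eq_norm_sq, PP,
      real_inner_comm]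

section one
variable {N : Type} [TopologicalSpace N] [ChartedSpace HM N] [IsManifold I ∞ N] [MeasurableSpace N]
  {e : ι → (x : N) → TangentSpace I x} {μ : Measure N} {κ : OpenPartialHomeomorph N E'} {T T' : Set E'}
  {K : ℝ} {y : E'} {V : Type} [NormedAddCommGroup V] [InnerProductSpace ℝ V]

theorem ch_mono (h : Ch I e μ κ T K) (hT : T' ⊆ T) : Ch I e μ κ T' K :=
  ⟨hT.trans h.tgt, h.sm, h.sm', fun z hz => h.d1 z (hT hz), fun z hz => h.d2 z (hT hz),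
    fun z hz => h.sp z (hT hz), fun z s s0 hs => h.vol z s s0 (hs.trans hT)⟩

theorem Q_pt (h : Ch I e μ κ T K) (he : SmV I e) (hy : y ∈ T) (R : E' →L[ℝ] V) (z : E') :
    (∀ a, dv I (e a) (fun x => ‖R (κ x - z)‖ ^ 2) (κ.symm y) = 2 * ⟪R (y - z), R (dv I (e a) κ (κ.symm y))⟫_ℝ) ∧
    Lop I e 0 (fun x => ‖R (κ x - z)‖ ^ 2) (κ.symm y) =
      2 * ⟪R (∑ a, dv I (e a) (dv I (e a) κ) (κ.symm y)), R (y - z)⟫_ℝ +
        2 * ∑ a, ‖R (dv I (e a) κ (κ.symm y))‖ ^ 2 := by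
  have c := ch_cm h hy
  have c1 : CM I 2 (fun x => R (κ x - z)) (κ.symm y) := R.contDiff.contDiffAt.comp_contMDiffAt (c.sub contMDiffAt_const)
  have d : ∀ a x, MD I κ x → dv I (e a) (fun x => R (κ x - z)) x = R (dv I (e a) κ x) := fun a x hx => by
    have : MD I (fun x => κ x - z) x := hx.sub mdifferentiableAt_const
    rw [dv_clm R this, dv_sub hx mdifferentiableAt_const, dv_const, sub_zero]
  have d1 := fun a => d a _ (c.md one_le_two)
  refine ⟨fun a => ?_, ?_⟩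
  · have := dv_inner (v := e a) (c1.md one_le_two) (c1.md one_le_two)
    simp only [real_inner_self_eq_norm_sq, d1, κ.right_inv (h.tgt hy)] at this
    rw [this, real_inner_comm, two_mul]
  · have z0 : ∀ v (u : N → V), cd I v 0 u = dv I v u := fun v u => funext fun x => by simp [cd]
    rw [Lop_normSq (A := 0) (fun a => vf1 he a _) (fun _ => contMDiffAt_const) (fun _ => .of_forall fun _ => by simp) c1]
    simp only [LA, Pi.zero_apply, z0, zero_smul, add_zero, d1, κ.right_inv (h.tgt hy), map_sum]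
    congr 3
    refine Finset.sum_congr rfl fun a _ => ?_
    rw [dv_congr ((c.ev_md one_le_two).mono (d a)), dv_clm R (md_dv c (vf1 he a _))]

end one

variable {α : Type} {X : α → Type} [∀ n, TopologicalSpace (X n)] [∀ n, ChartedSpace HM (X n)]
  [∀ n, IsManifold I ∞ (X n)] [∀ n, MeasurableSpace (X n)] {b : Fb I ι X} {L : Sy ι X}
  {κ : ∀ n, OpenPartialHomeomorph (X n) E'} {l : Filter α} {z : E'} {F : Filter (Σ n, X n)}

theorem ok_wf {f : Fld ι X} (h : f.O3 b L) (hF : F ≤ b.F) : f.O3 (b.wf F) L :=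
  ⟨h.sA, h.sm, h.sk, fun a a' => let ⟨R, k1, k2⟩ := h.crv a a'
      ⟨R, k1.up rfl hF fun _ _ _ => le_rfl, k2⟩,
    let ⟨ϖ, k1, k2, k3⟩ := h.lap; ⟨ϖ, k1, k2, k3.up rfl hF fun _ _ _ => le_rfl⟩,
    h.kind.imp (And.imp_right (Or.imp (fun k R => let ⟨C, C0, k1⟩ := k R; ⟨C, C0, k1.filter_mono hF⟩)
      fun ⟨C, D, hD, k⟩ => ⟨C, D, hF hD, k⟩))
      (And.imp_right fun ⟨w, a, k1, ⟨C, k2⟩, k3⟩ => ⟨w, a, k1, ⟨C, k2.filter_mono hF⟩, k3⟩)⟩

theorem cons_wf (h : Cons b L) (hF : F ≤ b.F) : Cons (b.wf F) L :=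
  ⟨fun a a' k => (h.c a a' k).up rfl hF fun _ _ _ => le_rfl, fun i => ok_wf (h.ok i) hF⟩

theorem kat_wf (h : Kat b L) (hF : F ≤ b.F) : Kat (b.wf F) L :=
  let ⟨h0, f, h1, h2, k, k1, G, G0, h3⟩ := h
  ⟨h0, f, h1, h2, k, k1, G, G0, fun R => let ⟨C, hC⟩ := h3 R; ⟨C, hC.filter_mono hF⟩⟩

variable (κ l z) in
/-- the points of `X n` near the point with coordinate `z` -/
def lF : Filter (Σ n, X n) := (l ×ˢ 𝓝 z).map fun p => ⟨p.1, (κ p.1).symm p.2⟩

variable (l z) in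
/-- small balls near `z` -/
def lB : Filter (α × E' × ℝ) := l ×ˢ 𝓝 z ×ˢ 𝓝[>] 0

variable (b κ l z) in
/-- uniform charts near `z` -/
def ChAt : Prop := ∃ K δ, 0 < K ∧ 0 < δ ∧ ∀ᶠ n in l, Ch I (b.e n) (b.μ n) (κ n) (closedBall z δ) K

variable (b κ l z) in
/-- the local hypotheses at `z` -/
structure Loc : Prop where
  le : lF κ l z ≤ b.F
  ch : ChAt b κ l z
  en : ∃ δ > 0, ∃ C : ℝ≥0, ∀ᶠ n in l, b.eb κ (n, z, δ) ≤ C

/-- closed annuli -/
def ann (z : E') (s t : ℝ) : Set E' := {y | s ≤ ‖y - z‖ ∧ ‖y - z‖ ≤ t}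

theorem ann_mono {s t s' t' : ℝ} (hs : s' ≤ s) (ht : t ≤ t') : ann z s t ⊆ ann z s' t' :=
  fun _ hy => ⟨hs.trans hy.1, hy.2.trans ht⟩

theorem ann_sub {s t : ℝ} : ann z s t ⊆ closedBall z t := fun _ hy => mem_closedBall_iff_norm.2 hy.2

theorem ball_ann {y : E'} {s t : ℝ} (hs : 2 * s ≤ ‖y - z‖) (ht : 2 * ‖y - z‖ ≤ t) :
    closedBall y (‖y - z‖ / 2) ⊆ ann z s t := fun _ hu =>
  ⟨by have := (Eps63.ball_cmp hu).1; linarith, (Eps63.ball_cmp hu).2.trans ht⟩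

variable (b κ l z) in
/-- the local hypotheses at a puncture `z` -/
structure PLoc : Prop where
  le : gF κ l z ≤ b.F
  ch : ∃ K δ, 0 < K ∧ 0 < δ ∧ ∀ δ' > 0, ∀ᶠ n in l, Ch I (b.e n) (b.μ n) (κ n) (ann z δ' δ) K
  fr : ∃ v : ι → E', (∀ w, ∃ θ : ι → ℝ, ∑ a, θ a • v a = w) ∧
    ∀ a, Tendsto (fun p : α × E' => dv I (b.e p.1 a) (κ p.1) ((κ p.1).symm p.2)) (pF l z) (𝓝 (v a))
  en : ∃ δ > 0, ∃ C : ℝ≥0, ∀ δ' > 0, ∀ᶠ n in l,
    ∫⁻ x in (κ n).symm '' ann z δ' δ, ENNReal.ofReal (b.en n x) ∂b.μ n ≤ C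

theorem pF_le : pF l z ≤ l ×ˢ 𝓝 z := fun D hD => by
  obtain ⟨A, hA, B, hB, h⟩ := mem_prod_iff.1 hD
  obtain ⟨δ, δ0, hδ⟩ := nhds_basis_closedBall.mem_iff.1 hB
  exact ⟨δ, δ0, fun _ _ => mem_of_superset hA fun n hn y _ hy => h ⟨hn, hδ (mem_closedBall_iff_norm.2 hy)⟩⟩

theorem gF_le : gF κ l z ≤ lF κ l z := map_mono pF_le

theorem ev_lB {P : α × E' → Prop} (h : ∀ᶠ p in l ×ˢ 𝓝 z, P p) :
    ∀ᶠ p in lB l z, ∀ y ∈ closedBall p.2.1 p.2.2, P (p.1, y) := by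
  obtain ⟨A, hA, B, hB, h⟩ := mem_prod_iff.1 h
  obtain ⟨δ, δ0, hδ⟩ := nhds_basis_closedBall.mem_iff.1 hB
  refine mem_of_superset (prod_mem_prod hA (prod_mem_prod (closedBall_mem_nhds z (half_pos δ0))
    (Ioc_mem_nhdsGT (half_pos δ0)))) fun p hp y hy => h ⟨hp.1, hδ (closedBall_subset_closedBall' ?_ hy)⟩
  have := mem_closedBall.1 hp.2.1; have := hp.2.2.2; linarith

theorem of_lB {P : α × E' × ℝ → Prop} (h : ∀ᶠ p in lB l z, P p) :
    ∃ δ > 0, ∀ᶠ n in l, ∀ y ∈ ball z δ, ∀ ρ, 0 < ρ → ρ < δ → P (n, y, ρ) := by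
  obtain ⟨A, hA, B, hB, h⟩ := mem_prod_iff.1 h
  obtain ⟨B, hB, D, hD, h'⟩ := mem_prod_iff.1 hB
  obtain ⟨δ, δ0, hδ⟩ := Metric.mem_nhds_iff.1 hB
  obtain ⟨γ, γ0, hγ⟩ := (nhdsGT_basis (0 : ℝ)).mem_iff.1 hD
  exact ⟨min δ γ, lt_min δ0 γ0, mem_of_superset hA fun n hn y hy ρ ρ0 ρ1 => h ⟨hn, h'
    ⟨hδ (ball_subset_ball (min_le_left _ _) hy), hγ ⟨ρ0, ρ1.trans_le (min_le_right _ _)⟩⟩⟩⟩

theorem ChAt.near (h : ChAt b κ l z) : ∀ᶠ y in 𝓝 z, ChAt b κ l y := by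
  obtain ⟨K, δ, K0, δ0, h⟩ := h
  exact mem_of_superset (closedBall_mem_nhds z (half_pos δ0)) fun y hy => ⟨K, δ / 2, K0, half_pos δ0,
    h.mono fun n hn => ch_mono hn (closedBall_subset_closedBall' (by have := mem_closedBall.1 hy; linarith))⟩

theorem bl_lB (hF : lF κ l z ≤ b.F) (h : ChAt b κ l z) : Bl b κ (lB l z) := by
  obtain ⟨K, δ, K0, δ0, h⟩ := h
  refine ⟨fun D hD => ev_lB (P := fun p => (⟨p.1, (κ p.1).symm p.2⟩ : Σ n, X n) ∈ D) (hF hD), K, K0, ?_⟩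
  filter_upwards [ev_lB (h.prod_mk (closedBall_mem_nhds z δ0)), h.prod_inl _,
    ((show ∀ᶠ ρ in 𝓝[>] (0 : ℝ), ρ ∈ Ioc 0 1 from Ioc_mem_nhdsGT one_pos).prod_inr _).prod_inr _] with p h1 h2 h3
  exact ⟨h3.1, h3.2, ch_mono h2 fun y hy => (h1 y hy).2⟩

theorem PLoc.ev (h : PLoc b κ l z) : ∃ K, 0 < K ∧ ∀ᶠ p in pF l z,
    Ch I (b.e p.1) (b.μ p.1) (κ p.1) (closedBall p.2 (‖p.2 - z‖ / 2)) K := by
  obtain ⟨K, δ, K0, δ0, h⟩ := h.ch
  exact ⟨K, K0, Eps63.ev_pF.2 ⟨δ / 2, half_pos δ0, fun δ' h0 => (h _ (half_pos h0)).mono fun n hn y y1 y2 =>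
    ch_mono hn (ball_ann (by linarith) (by linarith))⟩⟩

theorem PLoc.near (h : PLoc b κ l z) : ∀ᶠ y in 𝓝[≠] z, ChAt b κ l y := by
  obtain ⟨K, K0, δ, δ0, h⟩ := h.ev
  filter_upwards [nhdsWithin_le_nhds (closedBall_mem_nhds z δ0), self_mem_nhdsWithin] with y hy h0
  have y0 : 0 < ‖y - z‖ := norm_pos_iff.2 (sub_ne_zero.2 h0)
  exact ⟨K, _, K0, half_pos y0, mem_of_superset (h _ y0) fun n hn => hn y le_rfl (mem_closedBall_iff_norm.1 hy)⟩

theorem bl_gB (h : PLoc b κ l z) : Bl (b.wf (gF κ l z)) κ (gB l z) := by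
  obtain ⟨K, K0, h⟩ := h.ev
  refine ⟨fun D hD => Eps63.pF_ball (P := fun p => (⟨p.1, (κ p.1).symm p.2⟩ : Σ n, X n) ∈ D) hD, K, K0,
    Eps63.ev_B.2 ?_⟩
  filter_upwards [h, Eps63.pF_small one_pos] with p h2 h3
  exact ⟨half_pos h3.1, by linarith [h3.2, h3.1], h2⟩

theorem eb_mono {n : α} {y y' : E'} {ρ ρ' : ℝ} (h : closedBall y ρ ⊆ closedBall y' ρ') :
    b.eb κ (n, y, ρ) ≤ b.eb κ (n, y', ρ') := lintegral_mono_set (image_mono h)

theorem H_scale {σ : ℝ} (σ0 : 0 < σ) (σ1 : σ ≤ 1) (n : α) (x : X n) :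
    σ ^ 4 * b.H L 3 1 0 n x ≤ b.H L 3 (√σ)⁻¹ 0 n x := by
  simp only [Fb.H, sq_mu σ0, one_pow, inv_one, one_mul, Finset.mul_sum, hs]
  exact Finset.sum_le_sum fun i _ => mul_le_mul_of_nonneg_right
    (pow_le_pow_of_le_one σ0.le σ1 (by unfold Fld.d; split <;> omega)) (sq_nonneg _)

section en
variable [∀ n, OpensMeasurableSpace (X n)]

/-- no energy between the scales -/
theorem en_gB {U : Ultrafilter α} (h : PLoc b κ U z) (ε : ℝ≥0) (ε0 : 0 < ε) : ∀ᶠ p in gB U z, b.eb κ p ≤ ε := by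
  obtain ⟨K, δ, -, δ0, hK⟩ := h.ch
  obtain ⟨γ, γ0, C, hC⟩ := h.en
  by_contra hn
  have key : ∀ k : ℕ, ∃ s > 0, s ≤ δ ∧ ∀ δ' > 0, ∀ᶠ n in (U : Filter α),
      k * ε + ∫⁻ x in (κ n).symm '' ann z δ' s, ENNReal.ofReal (b.en n x) ∂b.μ n ≤ C := by
    intro k
    induction k with
    | zero => exact ⟨min δ γ, lt_min δ0 γ0, min_le_left _ _, fun δ' h0 => (hC δ' h0).mono fun n hn => by
        simpa using (lintegral_mono_set (image_mono (ann_mono le_rfl (min_le_right _ _)))).trans hn⟩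
    | succ k ih =>
      obtain ⟨s, s0, s1, hs⟩ := ih
      rw [Eps63.ev_B, Eps63.ev_pF] at hn
      push Not at hn
      obtain ⟨t, t0, ht⟩ := hn (s / 2) (half_pos s0)
      obtain ⟨-, y, y1, y2, -⟩ := ht.exists
      refine ⟨t / 4, by positivity, by linarith, fun δ' h0 => ?_⟩
      have m0 : 0 < min δ' (t / 4) := lt_min h0 (by positivity)
      refine (ht.and ((hs _ m0).and (hK _ m0))).mono fun n ⟨⟨y, y1, y2, y3⟩, h1, h2⟩ => le_trans ?_ h1
      have sy : closedBall y (‖y - z‖ / 2) ⊆ ann z (min δ' (t / 4)) s :=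
        ball_ann (by have := min_le_right δ' (t / 4); linarith) (by linarith)
      have sa : ann z δ' (t / 4) ⊆ ann z (min δ' (t / 4)) s := ann_mono (min_le_left _ _) (by linarith)
      have tg := (ann_mono le_rfl s1).trans h2.tgt
      rw [Nat.cast_succ, add_mul, one_mul, add_assoc, add_comm (ε : ENNReal)]
      refine add_le_add le_rfl (le_trans (add_le_add (lintegral_mono_set (subset_inter (image_mono sa) ?_))
        (y3.le.trans (lintegral_mono_set (subset_sdiff.2 ⟨image_mono sy, disjoint_left.2 ?_⟩))))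
        (lintegral_inter_add_sdiff _ _ ((κ n).isOpen_inter_preimage
          (isOpen_ball (x := z) (ε := t / 3))).measurableSet).le) <;> rintro _ ⟨u, hu, rfl⟩
      · refine ⟨(κ n).map_target (tg (sa hu)), ?_⟩
        rw [mem_preimage, (κ n).right_inv (tg (sa hu)), mem_ball_iff_norm]
        linarith [hu.2]
      · rintro ⟨-, h3⟩
        rw [mem_preimage, (κ n).right_inv (tg (sy hu)), mem_ball_iff_norm] at h3
        linarith [(Eps63.ball_cmp hu).1]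
  obtain ⟨k, hk⟩ := exists_nat_gt (C / ε)
  obtain ⟨s, -, -, hs⟩ := key k
  obtain ⟨n, hn⟩ := (hs 1 one_pos).exists
  have : (k : ℝ≥0) * ε ≤ C := by exact_mod_cast le_self_add.trans hn
  exact absurd ((div_lt_iff₀ ε0).1 hk) (not_lt.2 this)

end en

variable [∀ n, OpensMeasurableSpace (X n)] [CompleteSpace E] [I.Boundaryless] [FiniteDimensional ℝ E']

theorem jb_of0 (hc : Cons b L) (hF : lF κ l z ≤ b.F) (h : ChAt b κ l z) {R : ℝ}
    (h0 : ∀ᶠ q in lF κ l z, b.H L 3 1 0 q.1 q.2 ≤ R) : (b.wf (lF κ l z)).JB L := by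
  intro r
  induction r with
  | zero => exact ⟨R, h0⟩
  | succ r ih =>
    obtain ⟨R, hR⟩ := ih
    obtain ⟨C, hC⟩ := bern hc (bl_lB hF h) r R
    obtain ⟨δ, δ0, hδ⟩ := of_lB (hC.and (ev_lB (P := fun p => b.H L 3 1 r p.1 ((κ p.1).symm p.2) ≤ R) hR))
    refine ⟨C / (δ / 2) ^ 2, (hδ.prod_mk (ball_mem_nhds z δ0)).mono fun p hp => ?_⟩
    have := hp.1 _ hp.2 _ (half_pos δ0) (half_lt_self δ0)
    exact (le_div_iff₀' (by positivity)).2 (this.1 this.2)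

/-- small energy gives bounded jets, uniformly near `z` -/
theorem jb_small (hc : Cons b L) (hF : lF κ l z ≤ b.F) (h : ChAt b κ l z) : ∃ ε : ℝ≥0, 0 < ε ∧ ∀ᶠ y in 𝓝 z,
    lF κ l y ≤ b.F → (∃ ρ > 0, ∀ᶠ n in l, b.eb κ (n, y, ρ) ≤ ε) → (b.wf (lF κ l y)).JB L := by
  obtain ⟨ε, ε0, C, hC⟩ := eps hc (bl_lB hF h)
  obtain ⟨δ, δ0, hδ⟩ := of_lB hC
  refine ⟨ε, ε0, (h.near.and (ball_mem_nhds z δ0)).mono fun y hy hF' ⟨ρ, ρ0, hρ⟩ => ?_⟩
  set σ := min 1 (min (ρ / 2) (δ / 2))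
  have σ0 : 0 < σ := lt_min one_pos (lt_min (half_pos ρ0) (half_pos δ0))
  have σ1 : σ ≤ ρ / 2 := (min_le_right _ _).trans (min_le_left _ _)
  have σ2 : σ ≤ δ / 2 := (min_le_right _ _).trans (min_le_right _ _)
  refine jb_of0 hc hF' hy.1 (R := C / σ ^ 4) (((hδ.and hρ).prod_mk
    (inter_mem (isOpen_ball.mem_nhds hy.2) (closedBall_mem_nhds y σ0))).mono fun p hp => ?_)
  refine (le_div_iff₀' (by positivity)).2 ((H_scale σ0 (min_le_left _ _) _ _).trans ((b.H_mono ..).trans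
    (hp.1.1 _ hp.2.1 σ σ0 (by linarith) ((eb_mono (closedBall_subset_closedBall' ?_)).trans hp.1.2))))
  have := mem_closedBall.1 hp.2.2; linarith

/-- the fields are bounded near the points close to a puncture -/
theorem H0_near {U : Ultrafilter α} (hc : Cons b L) (h : PLoc b κ U z) :
    ∀ᶠ y in 𝓝[≠] z, ∃ R, ∀ᶠ q in lF κ U y, b.H L 3 1 0 q.1 q.2 ≤ R := by
  obtain ⟨ε, ε0, C, hC⟩ := eps (cons_wf hc h.le) (bl_gB h)
  obtain ⟨δ, δ0, hδ⟩ := Eps63.ev_pF.1 (Eps63.ev_B.1 (hC.and (en_gB h ε ε0)))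
  set γ := min δ 1
  filter_upwards [nhdsWithin_le_nhds (closedBall_mem_nhds z (half_pos (lt_min δ0 one_pos : 0 < γ))),
    self_mem_nhdsWithin] with y h3 h0
  have y0 : 0 < ‖y - z‖ := norm_pos_iff.2 (sub_ne_zero.2 h0)
  have y1 := mem_closedBall_iff_norm.1 h3
  refine ⟨C / (‖y - z‖ / 4) ^ 4,
    ((hδ _ (half_pos y0)).prod_mk (closedBall_mem_nhds y (half_pos y0))).mono fun p hp => ?_⟩
  obtain ⟨a1, a2⟩ := ball_ann (s := ‖y - z‖ / 2) (t := γ) (by linarith) (by linarith) hp.2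
  have a3 := hp.1 p.2 a1 (a2.trans (min_le_left _ _))
  refine (le_div_iff₀' (by positivity)).2 (le_trans (mul_le_mul_of_nonneg_right ?_ (b.H_nonneg ..))
    ((H_scale (σ := ‖p.2 - z‖ / 2) (by linarith) (by linarith [min_le_right δ 1]) _ _).trans
      ((b.H_mono ..).trans (a3.1 a3.2))))
  exact pow_le_pow_left₀ (by positivity) (by linarith) 4

/-- the energy density is bounded near the points close to a puncture -/
theorem en_near {U : Ultrafilter α} (hc : Cons b L) (hk : Kat b L) (h : PLoc b κ U z) :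
    ∀ᶠ y in 𝓝[≠] z, ∃ R, ∀ᶠ q in lF κ U y, b.en q.1 q.2 ≤ R := by
  obtain ⟨ε, ε0, C, hC⟩ := eps (cons_wf hc h.le) (bl_gB h)
  obtain ⟨-, f, -, f0, k, -, G, -, hK⟩ := hk
  obtain ⟨K, hK⟩ := hK C
  obtain ⟨δ, δ0, hδ⟩ := Eps63.ev_pF.1 ((Eps63.ev_B.1 (hC.and (en_gB h ε ε0))).and
    ((eventually_map.1 (hK.filter_mono h.le)).and (Eps63.pF_small one_pos)))
  filter_upwards [nhdsWithin_le_nhds (closedBall_mem_nhds z (half_pos δ0)), self_mem_nhdsWithin]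
    with y h3 h0
  have y0 : 0 < ‖y - z‖ := norm_pos_iff.2 (sub_ne_zero.2 h0)
  have y1 := mem_closedBall_iff_norm.1 h3
  refine ⟨|K| * (|K| * (√(‖y - z‖ / 4))⁻¹ ^ 8 + (√(‖y - z‖ / 4))⁻¹ ^ 6),
    ((hδ _ (half_pos y0)).prod_mk (closedBall_mem_nhds y (half_pos y0))).mono fun p hp => ?_⟩
  obtain ⟨a1, a2⟩ := ball_ann (s := ‖y - z‖ / 2) (t := δ) (by linarith) (by linarith) hp.2
  obtain ⟨a3, a4, a5⟩ := hp.1 p.2 a1 a2
  have m1 := Eps63.one_le_mu a5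
  obtain ⟨c1, -, c3, c2, -⟩ := a4 _ m1 (a3.1 a3.2)
  have m2 : (√(‖p.2 - z‖ / 2))⁻¹ ≤ (√(‖y - z‖ / 4))⁻¹ :=
    inv_anti₀ (by positivity) (Real.sqrt_le_sqrt (by linarith))
  replace c1 := c1.trans (mul_le_mul (le_abs_self K) (pow_le_pow_left₀ (by positivity) m2 8)
    (by positivity) (abs_nonneg _))
  exact c2.trans (mul_le_mul (le_abs_self K) (add_le_add c1 (pow_le_pow_left₀ (by positivity) m2 6))
    (add_nonneg (f0 ..) (by positivity)) (abs_nonneg _))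

/-- bubble points are isolated -/
theorem bub_iso {U : Ultrafilter α} (hc : Cons b L) (h : PLoc b κ U z) (hF : ∀ᶠ y in 𝓝[≠] z, lF κ U y ≤ b.F) :
    ∀ᶠ y in 𝓝[≠] z, (b.wf (lF κ U y)).JB L := by
  filter_upwards [hF, h.near, H0_near hc h] with y h1 h2 ⟨R, h3⟩ using jb_of0 hc h1 h2 h3

/-- the limit of the frame at `z` -/
theorem frame_lim {U : Ultrafilter α} (h : ChAt b κ U z) : ∃ v : ι → E', (∀ w, ∃ θ : ι → ℝ, ∑ a, θ a • v a = w) ∧
    ∀ a, Tendsto (fun p : α × E' => dv I (b.e p.1 a) (κ p.1) ((κ p.1).symm p.2)) (U ×ˢ 𝓝 z) (𝓝 (v a)) := by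
  have := FiniteDimensional.proper_real E'
  obtain ⟨K, δ, K0, δ0, h⟩ := h
  have hz := mem_closedBall_self (x := z) δ0.le
  choose v _ hv using fun a => (isCompact_closedBall (0 : E') K).ultrafilter_le_nhds
    (U.map fun n => dv I (b.e n a) (κ n) ((κ n).symm z))
    (le_principal_iff.2 (h.mono fun n hn => mem_closedBall_zero_iff.2 (hn.d1 z hz a)))
  refine ⟨v, fun w => ?_, fun a => ?_⟩
  · obtain ⟨θ, hθ⟩ := (h.mono fun n hn => hn.sp z hz w).choice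
    obtain ⟨θ', -, h'⟩ := (isCompact_closedBall (0 : ι → ℝ) (K * ‖w‖)).ultrafilter_le_nhds (U.map θ)
      (le_principal_iff.2 (hθ.mono fun n hn => mem_closedBall_zero_iff.2
        ((pi_norm_le_iff_of_nonneg (by positivity)).2 hn.2)))
    exact ⟨θ', tendsto_nhds_unique (tendsto_finsetSum _ fun a _ => (tendsto_pi_nhds.1 h' a).smul (hv a))
      (tendsto_const_nhds.congr' (hθ.mono fun n hn => hn.1.symm))⟩
  · have t1 : Tendsto (fun p : α × E' => Fintype.card ι * |K| * |K| * ‖p.2 - z‖) (U ×ˢ 𝓝 z) (𝓝 0) := by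
      simpa using (tendsto_iff_norm_sub_tendsto_zero.1 (tendsto_snd (f := (U : Filter α)) (g := 𝓝 z))).const_mul
        (Fintype.card ι * |K| * |K|)
    simpa using (squeeze_zero_norm' ((h.prod_mk (closedBall_mem_nhds z δ0)).mono fun p hp =>
      lip hp.1 (convex_closedBall z δ) Subset.rfl (fun y hy => md_dv (ch_cm hp.1 hy) (vf1 (b.frm _).se a _))
        (fun y hy a' => hp.1.d2 y hy a' a) hz hp.2) t1).add (Tendsto.comp (hv a) tendsto_fst)

theorem Loc.ploc {U : Ultrafilter α} (h : Loc b κ U z) : PLoc b κ U z :=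
  ⟨gF_le.trans h.le, let ⟨K, δ, K0, δ0, k⟩ := h.ch; ⟨K, δ, K0, δ0, fun _ _ => k.mono fun _ hn => ch_mono hn ann_sub⟩,
    let ⟨v, h1, h2⟩ := frame_lim h.ch; ⟨v, h1, fun a => (h2 a).mono_left pF_le⟩,
    let ⟨δ, δ0, C, k⟩ := h.en; ⟨δ, δ0, C, fun _ _ => k.mono fun _ hn =>
      (lintegral_mono_set (image_mono ann_sub)).trans hn⟩⟩

/-- the hypotheses of DEC hold at every point -/
theorem pun {U : Ultrafilter α} (hd : Module.finrank ℝ E' = 4) (hc : Cons b L) (hk : Kat b L) (h : PLoc b κ U z) :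
    Pun (b.wf (gF κ U z)) L κ U z := by
  refine ⟨rfl, cons_wf hc h.le, kat_wf hk h.le, bl_gB h, en_gB (b := b) h, ?_⟩
  obtain ⟨v, h1, hv⟩ := h.fr
  obtain ⟨R, K, k1, k2, k3⟩ := exists_parseval h1
  obtain ⟨K', K0, hK⟩ := h.ev
  have hm : ∀ p : α × E', p.2 ∈ closedBall p.2 (‖p.2 - z‖ / 2) := fun p => mem_closedBall_self (by positivity)
  refine ⟨fun y => ‖R (y - z)‖ ^ 2, K, (R.contDiff.comp (contDiff_id.sub contDiff_const)).norm_sq ℝ,
    fun y => k1 _, fun η η0 => mem_map.2 ?_⟩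
  have hv' := fun a => (R.continuous.tendsto _).comp (hv a)
  have t1 := (tendsto_finsetSum Finset.univ fun a _ => ((hv' a).sub_const (R (v a))).norm.mul
    ((hv' a).add_const (R (v a))).norm).const_mul 4
  have t2 : Tendsto (fun p : α × E' => ‖R‖ * (Fintype.card ι * K') * ‖R (p.2 - z)‖) (pF U z) (𝓝 0) := by
    simpa using ((R.continuous.tendsto _).comp (((tendsto_snd (f := (U : Filter α)) (g := 𝓝 z)).mono_left
      pF_le).sub_const z)).norm.const_mul (‖R‖ * (Fintype.card ι * K'))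
  have t3 := ((squeeze_zero_norm' (f := fun p : α × E' => ⟪R (∑ a, dv I (b.e p.1 a) (dv I (b.e p.1 a) (κ p.1))
    ((κ p.1).symm p.2)), R (p.2 - z)⟫_ℝ) (hK.mono fun p hp =>
      (norm_inner_le_norm _ _).trans (mul_le_mul_of_nonneg_right (R.le_of_opNorm_le_of_le le_rfl
        ((norm_sum_le_of_le _ fun a _ => hp.d2 _ (hm p) a a).trans (by simp))) (norm_nonneg _))) t2).const_mul 2).add
    ((tendsto_finsetSum Finset.univ fun a _ => (hv' a).norm.pow 2).const_mul 2)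
  simp only [sub_self, norm_zero, zero_mul, Finset.sum_const_zero, mul_zero] at t1
  rw [k3, hd] at t3
  filter_upwards [hK, t1.eventually (ge_mem_nhds η0),
    t3.eventually (closedBall_mem_nhds _ η0)] with p hp p1 p2
  obtain ⟨q1, q2⟩ := Q_pt hp (b.frm _).se (hm p) R z
  change |∑ a, dv I (b.e p.1 a) _ ((κ p.1).symm p.2) ^ 2 - 4 * ‖R (κ p.1 ((κ p.1).symm p.2) - z)‖ ^ 2| ≤
    η * ‖R (κ p.1 ((κ p.1).symm p.2) - z)‖ ^ 2 ∧ |Lop I (b.e p.1) 0 _ ((κ p.1).symm p.2) - 8| ≤ η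
  rw [q2, (κ p.1).right_inv (hp.tgt (hm p))]
  refine ⟨?_, by convert mem_closedBall_iff_norm.1 p2 using 2; norm_num⟩
  simp only [q1]
  refine le_trans ?_ (mul_le_mul_of_nonneg_right p1 (sq_nonneg _))
  nth_rewrite 1 [← k2]
  rw [Finset.mul_sum, ← Finset.sum_sub_distrib, Finset.mul_sum, Finset.sum_mul]
  refine (Finset.abs_sum_le_sum_abs _ _).trans (Finset.sum_le_sum fun a _ => ?_)
  set w := R (p.2 - z)
  set d := R (dv I (b.e p.1 a) (κ p.1) ((κ p.1).symm p.2))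
  have e1 : (2 * ⟪w, d⟫_ℝ) ^ 2 - 4 * ⟪w, R (v a)⟫_ℝ ^ 2 = 4 * (⟪w, d - R (v a)⟫_ℝ * ⟪w, d + R (v a)⟫_ℝ) := by
    rw [inner_sub_right, inner_add_right]; ring
  rw [e1, abs_mul, abs_mul, Nat.abs_ofNat]
  calc _ ≤ 4 * (‖w‖ * ‖d - R (v a)‖ * (‖w‖ * ‖d + R (v a)‖)) := by
        gcongr <;> exact abs_real_inner_le_norm _ _
    _ = _ := by simp only [Function.comp_apply]; ring

/-- all jets are bounded along the iterated filter at every point -/
theorem jb_gF {U : Ultrafilter α} (hd : Module.finrank ℝ E' = 4) (hc : Cons b L) (hk : Kat b L) (h : PLoc b κ U z) :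
    (b.wf (gF κ U z)).JB L :=
  let P := pun hd hc hk h
  Eps63.dec P (bern P.cons P.bl) (eps P.cons P.bl)

/-- bounded jets make the classes of `L` bounded along the smaller filter -/
theorem cb_of_jb {V : α → Type} [∀ n, NormedAddCommGroup (V n)] [∀ n, NormedSpace ℝ (V n)] {dw : ℕ}
    {A : ∀ n, ι → X n → V n →L[ℝ] V n} {f : ∀ n, X n → V n} {σ : ℕ → ℕ × ℕ} (h : Wt (b.cx L dw) A σ f)
    (hF : F ≤ b.F) (hJ : (b.wf F).JB L) : (b.wf F).CB A f :=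
  Wt.cb (L := L) (dw := dw) (h.up rfl hF fun _ _ _ => le_rfl) fun r => by
    rw [H_one L dw 3]; exact hJ r

end Crest.Agent.X212.Shi84

end
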