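import Crest.Agent.X212.Shi84.Bub
import Crest.Agent.X212.Loc66.Fcv
import Crest.Agent.X212.Cmp73.Lim
import Crest.Agent.X212.Pat85.Star

/-!
# BUB (helper84): uniform charts from converging frames, the bubble set on the limit manifold
-/

set_option autoImplicit false
set_option linter.unusedSectionVars false
open Set Filter Topology Metric MeasureTheory
open scoped Manifold ContDiff NNReal InnerProductSpace

noncomputable section

namespace Crest.Agent.X212.Shi84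

open Mp86 Cmp73 An Pat85 Loc66

theorem span_near {E' ι : Type} [NormedAddCommGroup E'] [NormedSpace ℝ E'] [FiniteDimensional ℝ E'] [Fintype ι]
    {v : ι → E'} (hv : ∀ w, ∃ θ : ι → ℝ, ∑ a, θ a • v a = w) : ∃ K, ∀ᶠ v' in 𝓝 v, ∀ w, ∃ θ : ι → ℝ,
      ∑ a, θ a • v' a = w ∧ ∀ a, |θ a| ≤ K * ‖w‖ := by
  obtain ⟨R₀, h0⟩ := (Fintype.linearCombination ℝ v).exists_rightInverse_of_surjective
    (LinearMap.range_eq_top.2 hv)
  let R := R₀.toContinuousLinearMap
  have h1 : ∀ w, ∑ a, R w a • v a = w := fun w => LinearMap.congr_fun h0 w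
  have t : Tendsto (fun v' : ι → E' => ‖R‖ * ∑ a, ‖v' a - v a‖) (𝓝 v) (𝓝 0) :=
    (by fun_prop : Continuous fun v' : ι → E' => ‖R‖ * ∑ a, ‖v' a - v a‖).tendsto' _ _ (by simp)
  refine ⟨2 * ‖R‖, (t.eventually (ge_mem_nhds one_half_pos)).mono fun v' hv' w => ?_⟩
  have h2 : ∀ u, ‖u‖ ≤ 2 * ‖∑ a, R u a • v' a‖ := fun u => by
    have a1 : ‖∑ a, R u a • v' a - u‖ ≤ 1 / 2 * ‖u‖ := by
      nth_rewrite 2 [← h1 u]
      rw [← Finset.sum_sub_distrib]
      refine (norm_sum_le_of_le _ (n := fun a => ‖R‖ * ‖v' a - v a‖ * ‖u‖) fun a _ => ?_).trans ?_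
      · rw [← smul_sub, norm_smul, mul_right_comm]
        exact mul_le_mul_of_nonneg_right ((norm_le_pi_norm _ a).trans (R.le_opNorm u)) (norm_nonneg _)
      · rw [← Finset.sum_mul, ← Finset.mul_sum]
        exact mul_le_mul_of_nonneg_right hv' (norm_nonneg _)
    linarith [norm_sub_norm_le u (∑ a, R u a • v' a), norm_sub_rev u (∑ a, R u a • v' a)]
  obtain ⟨u, rfl⟩ := LinearMap.surjective_of_injective (f := Fintype.linearCombination ℝ v' ∘ₗ R₀)
    ((injective_iff_map_eq_zero _).2 fun u hu => norm_le_zero_iff.1 ((h2 u).trans (by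
      rw [show ∑ a, R u a • v' a = 0 from hu]; simp))) w
  refine ⟨R u, rfl, fun a => ((norm_le_pi_norm _ a).trans (R.le_opNorm u)).trans ?_⟩
  rw [mul_comm 2, mul_assoc]
  exact mul_le_mul_of_nonneg_left (h2 u) (norm_nonneg _)

variable {E : Type} [NormedAddCommGroup E] [NormedSpace ℝ E] [FiniteDimensional ℝ E]
  [MeasurableSpace E] [BorelSpace E]
  {HM : Type} [TopologicalSpace HM] {I : ModelWithCorners ℝ E HM} [I.Boundaryless]
  {M : Type} [TopologicalSpace M] [ChartedSpace HM M] [IsManifold I ∞ M]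
  [MeasurableSpace M] [BorelSpace M] [T2Space M] [SecondCountableTopology M] {ι : Type} [Fintype ι]
  {α : Type} {l : Filter α} {Ω : Set M} {x : M}

variable (I) in
/-- the chart at `x` -/
abbrev ch0 (x : M) : OpenPartialHomeomorph M E := echart I (ContinuousLinearEquiv.refl ℝ E) x

theorem ch0_mem (x : M) : x ∈ (ch0 I x).source := by rw [echart_source]; exact mem_chart_source HM x

theorem ev_chart {φ : OpenPartialHomeomorph M E} (hx : x ∈ φ.source) :
    (l ×ˢ 𝓝 (φ x)).map (fun p => (p.1, φ.symm p.2)) = l ×ˢ 𝓝 x := by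
  rw [← φ.symm_map_nhds_eq hx, ← map_id (f := l), prod_map_map_eq, map_id]; rfl

theorem vol_two (F : Pre I M ι) (hd : Module.finrank ℝ E = 4) (x : M) : ∃ c > 0,
    ∀ᶠ O in (𝓝 (ch0 I x x)).smallSets, ∀ z s, 0 < s → ball z s ⊆ O →
      ENNReal.ofReal (c * s ^ 4) ≤ F.μ ((ch0 I x).symm '' ball z s) ∧
        F.μ ((ch0 I x).symm '' ball z s) ≤ ENNReal.ofReal (4 * c * s ^ 4) := by
  obtain ⟨O, ρ, ⟨o1, o2, o3, o4⟩, h1, h2⟩ := F.dens x
  have n1 : extChartAt I x '' O ∈ 𝓝 (extChartAt I x x) := extChartAt_image_nhds_mem_nhds_of_boundaryless (o1.mem_nhds o2)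
  have r0 := h2 _ ⟨x, o2, rfl⟩
  have n2 := (h1.continuousOn.continuousAt n1).eventually (Icc_mem_nhds (half_lt_self r0) (lt_two_mul_self r0))
  have hH : (leb E).IsAddHaarMeasure := by unfold leb; infer_instance
  have v0 : 0 < (leb E).real (ball 0 1) :=
    ENNReal.toReal_pos (measure_ball_pos _ 0 one_pos).ne' measure_ball_lt_top.ne
  refine ⟨ρ (extChartAt I x x) / 2 * (leb E).real (ball 0 1), by positivity,
    (eventually_smallSets_subset.2 (inter_mem n1 n2)).mono fun T hT z s s0 hs => ?_⟩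
  have hb := hs.trans hT
  have e1 : (ch0 I x).symm '' ball z s = extChartAt I x ⁻¹' ball z s ∩ O := by
    ext y
    refine ⟨?_, fun hy => ⟨_, hy.1, (extChartAt I x).left_inv (o3 hy.2)⟩⟩
    rintro ⟨u, hu, rfl⟩
    obtain ⟨y, hy, rfl⟩ := (hb hu).1
    rw [show (ch0 I x).symm (extChartAt I x y) = y from (extChartAt I x).left_inv (o3 hy)]
    exact ⟨hu, hy⟩
  have e2 : ∀ c, 0 ≤ c → ENNReal.ofReal (c * (leb E).real (ball 0 1) * s ^ 4) =
      ∫⁻ _ in ball z s, ENNReal.ofReal c ∂leb E := fun c c0 => by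
    rw [setLIntegral_const, Measure.addHaar_ball_of_pos _ _ s0, hd, mul_right_comm, mul_assoc,
      ENNReal.ofReal_mul c0, ENNReal.ofReal_mul (by positivity), ofReal_measureReal measure_ball_lt_top.ne]
  rw [e1, ← Measure.restrict_apply' o1.measurableSet, ← Measure.map_apply_of_aemeasurable
    (((continuousOn_extChartAt x).mono o3).aemeasurable o1.measurableSet) measurableSet_ball, o4,
    withDensity_apply _ measurableSet_ball, Measure.restrict_restrict_of_subset fun u hu => (hb hu).1,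
    ← mul_assoc 4, e2 _ (by positivity), e2 _ (by positivity)]
  exact ⟨setLIntegral_mono' measurableSet_ball fun u hu => ENNReal.ofReal_le_ofReal (hb hu).2.1,
    setLIntegral_mono' measurableSet_ball fun u hu => ENNReal.ofReal_le_ofReal (by linarith [(hb hu).2.2])⟩

theorem span_chart (F : Pre I M ι) {φ : OpenPartialHomeomorph M E} (h : SCh I φ) (hx : x ∈ φ.source) (w : E) :
    ∃ θ : ι → ℝ, ∑ a, θ a • dv I (F.e a) φ x = w := by
  have md : φ.MDifferentiable I 𝓘(ℝ, E) :=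
    ⟨fun y hy => ((h.sm y hy).mdifferentiableAt (by simp)).mdifferentiableWithinAt,
      fun y hy => ((h.sm' y hy).mdifferentiableAt (by simp)).mdifferentiableWithinAt⟩
  obtain ⟨t, ht⟩ := md.mfderiv_surjective hx w
  obtain ⟨θ, hθ⟩ := (Submodule.mem_span_range_iff_exists_fun ℝ).1 (F.span x ▸ Submodule.mem_top (x := t))
  refine ⟨θ, ?_⟩
  rw [← ht, ← hθ, map_sum]
  exact Finset.sum_congr rfl fun a _ => (map_smul (mfderiv I 𝓘(ℝ, E) φ x) _ _).symm

variable [l.NeBot] {F : α → Fr I M ι} {F₀ : Fr I M ι}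

theorem cv_chart (h : FCv l Ω F F₀) (hΩ : IsOpen Ω) (x : M) (a : ι) :
    Cv I l (Ω ∩ (ch0 I x).source) (fun n => dv I ((F n).e a) (ch0 I x)) (dv I (F₀.e a) (ch0 I x)) :=
  ((h a).mono le_rfl inter_subset_left).dv (hΩ.inter (ch0 I x).open_source)
    (Cv.fixed (hΩ.inter (ch0 I x).open_source) fun y hy => (sch_echart _ x).sm y hy.2)

/-- **CH**: converging frames have uniform charts -/
theorem ch_frames (h : FCv l Ω F F₀) (hΩ : IsOpen Ω) (hF : ∀ᶠ n in l, (F n).IsVol) (h₀ : F₀.IsVol)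
    (hd : Module.finrank ℝ E = 4) (hx : x ∈ Ω) : ∃ K δ, 0 < K ∧ 0 < δ ∧ ∀ᶠ n in l,
      Ch I (F n).e (F n).μ (ch0 I x) (closedBall (ch0 I x x) δ) K := by
  set φ := ch0 I x
  have hO := hΩ.inter φ.open_source
  have hx' : x ∈ Ω ∩ φ.source := ⟨hx, ch0_mem x⟩
  have c1 := cv_chart h hΩ x
  choose K1 k1 using fun a => ((c1 a).mb 0 x hx').bdd
  choose K2 k2 using fun a a' => ((((h a).mono le_rfl inter_subset_left).dv hO (c1 a')).mb 0 x hx').bdd
  obtain ⟨K3, k3⟩ := span_near (span_chart F₀.toPre (sch_echart _ x) hx'.2)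
  obtain ⟨c, c0, k4⟩ := vol_two F₀.toPre hd x
  have k5 := (((h.wq hΩ).mb 1 x hx).tendsto ((h.wq hΩ).pt x hx)).eventually (le_mem_nhds one_half_lt_one)
  have k6 := (tendsto_pi_nhds.2 fun a => ((c1 a).mb 1 x hx').tendsto ((c1 a).pt x hx')).eventually k3
  have k7 := (eventually_all.2 k1).and ((eventually_all.2 fun a => eventually_all.2 (k2 a)).and (k6.and k5))
  rw [← ev_chart hx'.2, eventually_map] at k7
  obtain ⟨A, hA, T, hT, k7⟩ := mem_prod_iff.1 k7
  obtain ⟨δ, δ0, k8⟩ := (nhds_basis_closedBall.smallSets.eventually_iff.1 (k4.and (eventually_smallSets_subset.2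
    (inter_mem hT (φ.open_target.mem_nhds (φ.map_source hx'.2))))))
  obtain ⟨k8, k9⟩ := k8 (mem_powerset Subset.rfl)
  have p1 : 0 ≤ ∑ a, |K1 a| := by positivity
  have p2 : 0 ≤ ∑ a, ∑ a', |K2 a a'| := by positivity
  have p3 := abs_nonneg K3
  have p4 : 0 < 2 / c := by positivity
  refine ⟨∑ a, |K1 a| + ∑ a, ∑ a', |K2 a a'| + |K3| + 2 / c, δ, by positivity, δ0, ?_⟩
  filter_upwards [hA, hF] with n hn hv
  have k := fun y (hy : y ∈ closedBall (φ x) δ) => k7 (mk_mem_prod hn (k9 hy).1)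
  have p5 : K3 ≤ ∑ a, |K1 a| + ∑ a, ∑ a', |K2 a a'| + |K3| + 2 / c := by linarith [le_abs_self K3]
  refine ⟨fun y hy => (k9 hy).2, fun y hy => ((sch_echart _ x).sm y hy).contMDiffWithinAt,
    fun y hy => ((sch_echart _ x).sm' y hy).contMDiffWithinAt, fun y hy a => ((k y hy).1 a).trans ?_,
    fun y hy a a' => ((k y hy).2.1 a a').trans ?_, fun y hy w => ((k y hy).2.2.1 w).imp fun θ hθ =>
      ⟨hθ.1, fun a => (hθ.2 a).trans (mul_le_mul_of_nonneg_right p5 (norm_nonneg _))⟩, fun z s s0 hs => ?_⟩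
  · linarith [le_abs_self (K1 a), Finset.single_le_sum (f := fun a => |K1 a|) (fun _ _ => abs_nonneg _)
      (Finset.mem_univ a)]
  · linarith [le_abs_self (K2 a a'), Finset.single_le_sum (f := fun a' => |K2 a a'|) (fun _ _ => abs_nonneg _)
      (Finset.mem_univ a'), Finset.single_le_sum (f := fun a => ∑ a', |K2 a a'|) (fun _ _ => by positivity)
      (Finset.mem_univ a)]
  have mo := (φ.symm.isOpen_image_of_subset_source isOpen_ball fun y hy => (k9 (hs hy)).2).measurableSet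
  rw [Met55.vol_eq_wt h₀ hv (sm_wq (F n) F₀).continuous fun x =>
    (div_mul_cancel₀ _ (Met55.pre_sp F₀.toPre x).rjb_pos.ne').symm, withDensity_apply _ mo]
  refine le_trans ?_ (setLIntegral_mono' mo (f := fun _ => ENNReal.ofReal (1 / 2)) ?_)
  · rw [setLIntegral_const]
    refine le_trans ?_ (mul_le_mul_right (k8 z s s0 hs).1 _)
    rw [← ENNReal.ofReal_mul (by norm_num)]
    refine ENNReal.ofReal_le_ofReal ((div_le_div_of_nonneg_left (by positivity) p4 (by linarith)).trans_eq ?_)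
    field_simp
  · rintro _ ⟨y, hy, rfl⟩
    exact ENNReal.ofReal_le_ofReal (k y (hs hy)).2.2.2

/-- small neighbourhoods have uniformly small volume -/
theorem vol_small (h : FCv l Ω F F₀) (hΩ : IsOpen Ω) (hF : ∀ᶠ n in l, (F n).IsVol) (h₀ : F₀.IsVol)
    (hd : Module.finrank ℝ E = 4) (hx : x ∈ Ω) {η : ℝ} (η0 : 0 < η) :
    ∀ᶠ N in (𝓝 x).smallSets, ∀ᶠ n in l, (F n).μ N ≤ ENNReal.ofReal η := by
  set φ := ch0 I x
  have hm := ch0_mem (I := I) x
  obtain ⟨c, c0, k4⟩ := vol_two F₀.toPre hd x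
  have k5 : ∀ᶠ q in l ×ˢ 𝓝 x, wq (F q.1) F₀ q.2 ≤ 2 :=
    (((h.wq hΩ).mb 1 x hx).tendsto ((h.wq hΩ).pt x hx)).eventually (ge_mem_nhds one_lt_two)
  obtain ⟨A, hA, T, hT, k5⟩ := eventually_prod_iff.1 k5
  have t : Tendsto (fun s : ℝ => 2 * (4 * c * s ^ 4)) (𝓝[>] 0) (𝓝 0) :=
    ((by fun_prop : Continuous fun s : ℝ => 2 * (4 * c * s ^ 4)).tendsto' _ _ (by simp)).mono_left nhdsWithin_le_nhds
  obtain ⟨δ, δ0, k8⟩ := nhds_basis_ball.smallSets.eventually_iff.1 (k4.and (eventually_smallSets_subset.2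
    (inter_mem (φ.tendsto_symm hm hT) (φ.open_target.mem_nhds (φ.map_source hm)))))
  obtain ⟨k8, k9⟩ := k8 (mem_powerset Subset.rfl)
  obtain ⟨s, s1, s0, s2⟩ := ((t.eventually (ge_mem_nhds η0)).and (Ioc_mem_nhdsGT δ0)).exists
  have sb : ball (φ x) s ⊆ ball (φ x) δ := ball_subset_ball s2
  have o := φ.symm.isOpen_image_of_subset_source isOpen_ball fun y hy => (k9 (sb hy)).2
  refine (eventually_smallSets_subset.2 (o.mem_nhds ⟨_, mem_ball_self s0, φ.left_inv hm⟩)).mono fun N hN => ?_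
  filter_upwards [hA, hF] with n hn hv
  refine (measure_mono hN).trans ?_
  rw [Met55.vol_eq_wt h₀ hv (sm_wq (F n) F₀).continuous fun x =>
    (div_mul_cancel₀ _ (Met55.pre_sp F₀.toPre x).rjb_pos.ne').symm, withDensity_apply _ o.measurableSet]
  refine (setLIntegral_mono' o.measurableSet (g := fun _ => ENNReal.ofReal 2) ?_).trans ?_
  · rintro _ ⟨y, hy, rfl⟩
    exact ENNReal.ofReal_le_ofReal (k5 hn (k9 (sb hy)).1)
  · rw [setLIntegral_const]
    refine (mul_le_mul_right (k8 _ s s0 sb).2 _).trans ?_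
    rw [← ENNReal.ofReal_mul zero_le_two]
    exact ENNReal.ofReal_le_ofReal s1

section tr
variable {E' : Type} [NormedAddCommGroup E'] [NormedSpace ℝ E'] [FiniteDimensional ℝ E']
  [MeasurableSpace E'] [BorelSpace E'] {HM' : Type} [TopologicalSpace HM'] {I' : ModelWithCorners ℝ E' HM'}
  [I'.Boundaryless] {N : Type} [TopologicalSpace N] [ChartedSpace HM' N] [IsManifold I' ∞ N] [MeasurableSpace N]
  [BorelSpace N] [T2Space N] [SecondCountableTopology N]
  {P : Fr I M ι} {P' : Fr I' N ι} {ψ : OpenPartialHomeomorph M N} {φ : OpenPartialHomeomorph M E}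
  {T : Set E} {K : ℝ}

theorem iso_meas (h : Iso P.toPre P'.toPre ψ) {A : Set M} (hA : IsOpen A) (hs : A ⊆ ψ.source) :
    P'.μ (ψ '' A) = P.μ A := by
  have o := (ψ.isOpen_image_of_subset_source hA hs).measurableSet
  have s1 : ψ '' A ⊆ ψ.target := by rintro _ ⟨x, hx, rfl⟩; exact ψ.map_source (hs hx)
  rw [← Measure.restrict_eq_self _ s1, ← h.μ, Measure.map_apply_of_aemeasurable
    (ψ.continuousOn.aemeasurable ψ.open_source.measurableSet) o, Measure.restrict_apply' ψ.open_source.measurableSet]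
  congr 1
  ext x
  exact ⟨fun ⟨⟨y, hy, e⟩, hx⟩ => ψ.injOn (hs hy) hx e ▸ hy, fun hx => ⟨⟨x, hx, rfl⟩, hs hx⟩⟩

theorem rel_ev (hx : x ∈ ψ.source) : ∀ᶠ y in 𝓝 x, φ y = (ψ.symm.trans φ) (ψ y) :=
  (ψ.eventually_left_inverse hx).mono fun _ hy => congrArg φ hy.symm

theorem rel_d1 (h : Pj41.FRel P P' ψ ψ.source) (a : ι) {y : E} (h2 : φ.symm y ∈ ψ.source) :
    dv I' (P'.e a) (ψ.symm.trans φ) ((ψ.symm.trans φ).symm y) = dv I (P.e a) φ (φ.symm y) :=
  (h.D h2 a (rel_ev (φ := φ) h2)).symm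

/-- transport of uniform charts -/
theorem ch_rel (h : Pj41.FRel P P' ψ ψ.source) (hv : P.IsVol) (hv' : P'.IsVol) (hc : Ch I P.e P.μ φ T K)
    (hT : ∀ y ∈ T, φ.symm y ∈ ψ.source) : Ch I' P'.e P'.μ (ψ.symm.trans φ) T K := by
  have k := h.iso hv hv'
  refine ⟨fun y hy => ⟨hc.tgt hy, hT y hy⟩, hc.sm.comp (k.sm'.mono inter_subset_left) fun y hy => hy.2,
    k.sm.comp (hc.sm'.mono inter_subset_left) fun y hy => hy.2,
    fun y hy a => rel_d1 h a (hT y hy) ▸ hc.d1 y hy a, fun y hy a a' => ?_,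
    fun y hy w => by simp only [rel_d1 h _ (hT y hy)]; exact hc.sp y hy w, fun z s s0 hs => ?_⟩
  · exact (congrArg norm (h.D (hT y hy) a (h.D_ev (hT y hy) a' (rel_ev (φ := φ) (hT y hy))))).symm.trans_le
      (hc.d2 y hy a a')
  · refine (hc.vol z s s0 hs).trans_eq ?_
    rw [← iso_meas k (ch_open hc hs) (by rintro _ ⟨y, hy, rfl⟩; exact hT y (hs hy)), image_image]
    rfl

end tr

theorem tend_ne {Y Z : Type} [TopologicalSpace Y] [TopologicalSpace Z] {φ : OpenPartialHomeomorph Y Z} {x : Y}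
    (hx : x ∈ φ.source) : Tendsto φ (𝓝[≠] x) (𝓝[≠] (φ x)) :=
  tendsto_nhdsWithin_iff.2 ⟨(φ.continuousAt hx).tendsto.mono_left nhdsWithin_le_nhds, by
    filter_upwards [nhdsWithin_le_nhds (φ.open_source.mem_nhds hx), self_mem_nhdsWithin] with y h1 h2 h3
    exact h2 (φ.injOn h1 hx h3)⟩

theorem cpt_ann (z : E) (s t : ℝ) : IsCompact (ann z s t) :=
  have := FiniteDimensional.proper_real E
  have c : Continuous fun y : E => ‖y - z‖ := by fun_prop
  (isCompact_closedBall z t).of_isClosed_subset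
    ((isClosed_le continuous_const c).inter (isClosed_le c continuous_const)) ann_sub

theorem small_ann {z : E} {p : E → Prop} (h : ∀ᶠ y in 𝓝[≠] z, p y) : ∃ δ > 0, ∀ δ' > 0, ∀ y ∈ ann z δ' δ, p y :=
  let ⟨δ, δ0, hδ⟩ := nhds_basis_closedBall.mem_iff.1 (eventually_nhdsWithin_iff.1 h)
  ⟨δ, δ0, fun _ h0 _ hy => hδ (ann_sub hy) (sub_ne_zero.1 (norm_pos_iff.1 (h0.trans_le hy.1)))⟩

omit [l.NeBot] in
/-- the two iterated filters agree -/
theorem pF_nF {φ : OpenPartialHomeomorph M E} (hx : x ∈ φ.source) :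
    (pF l (φ x)).map (fun p => (p.1, φ.symm p.2)) = nF l {x}ᶜ x := by
  refine le_antisymm (fun D hD => ?_) fun D ⟨δ, δ0, hD⟩ => ev_nF.2 ?_
  · have h1 := tend_ne (φ := φ.symm) (φ.map_source hx)
    rw [φ.left_inv hx] at h1
    obtain ⟨δ, δ0, h⟩ := small_ann ((h1.eventually (ev_nF.1 hD)).and
      (nhdsWithin_le_nhds (φ.open_target.mem_nhds (φ.map_source hx))))
    refine ⟨δ, δ0, fun δ' h0 => (ev_compact (cpt_ann (φ x) δ' δ) (p := fun n z => (n, φ.symm z) ∈ D)
      fun z hz => ?_).mono fun n hn z a c => hn z ⟨a, c⟩⟩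
    exact (tendsto_id.prodMap (φ.continuousAt_symm (h δ' h0 z hz).2).tendsto).eventually (h δ' h0 z hz).1
  · filter_upwards [(tend_ne hx).eventually (eventually_mem_nhdsWithin.and (nhdsWithin_le_nhds (ball_mem_nhds _ δ0))),
      nhdsWithin_le_nhds (φ.open_source.mem_nhds hx)] with y hy hs
    have y0 : 0 < ‖φ y - φ x‖ := norm_pos_iff.2 (sub_ne_zero.2 hy.1)
    have c : ContinuousAt (fun y => ‖φ y - φ x‖) y := ((φ.continuousAt hs).sub continuousAt_const).norm
    filter_upwards [(hD _ (half_pos y0)).prod_mk ((c.eventually (le_mem_nhds (half_lt_self y0))).and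
      ((c.eventually (ge_mem_nhds (mem_ball_iff_norm.1 hy.2))).and (φ.open_source.mem_nhds hs)))] with q hq
    have := hq.1 _ hq.2.1 hq.2.2.1
    rwa [mem_preimage, φ.left_inv hq.2.2.2] at this

theorem fin_of_iso {S K : Set M} (h : ∀ x ∈ Ω, ∀ᶠ y in 𝓝[≠] x, y ∉ S) (hK : IsCompact K) (hKΩ : K ⊆ Ω) :
    (S ∩ K).Finite :=
  hK.induction_on (p := fun t => (S ∩ t).Finite) (by simp) (fun _ _ hs ht => ht.subset (inter_subset_inter_right _ hs))
    (fun _ _ hs ht => by rw [inter_union_distrib_left]; exact hs.union ht)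
    fun x hx => ⟨_, nhdsWithin_le_nhds (eventually_nhdsWithin_iff.1 (h x (hKΩ hx))),
      (finite_singleton x).subset fun y hy => by_contra fun hn => hy.2 hn hy.1⟩

theorem closed_of_iso {S : Set M} (h : ∀ x, ∀ᶠ y in 𝓝[≠] x, y ∉ S) : IsClosed S ∧ S.Countable := by
  refine ⟨isOpen_compl_iff.1 (isOpen_iff_mem_nhds.2 fun x hx => mem_of_superset
    (eventually_nhdsWithin_iff.1 (h x)) fun y hy => ?_), ?_⟩
  · by_cases e : y = x
    exacts [e ▸ hx, hy e]
  · obtain ⟨T, -, h1, h2⟩ := TopologicalSpace.countable_cover_nhdsWithin (s := S) (f := fun x => {x}) fun x _ =>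
      mem_nhdsWithin_iff_eventually.2 ((eventually_nhdsWithin_iff.1 (h x)).mono fun y hy hs =>
        by_contra fun hn => hy hn hs)
    exact h1.mono (by simpa using h2)

theorem iso_of_fin {S : Set M} (h : S.Finite) (x : M) : ∀ᶠ y in 𝓝[≠] x, y ∉ S :=
  mem_of_superset (inter_mem (nhdsWithin_le_nhds ((h.subset (sdiff_subset (t := {x}))).isClosed.isOpen_compl.mem_nhds
    fun k => k.2 rfl)) self_mem_nhdsWithin) fun _ hy hS => hy.1 ⟨hS, hy.2⟩

end Crest.Agent.X212.Shi84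

end
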