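import Crest.Agent.X212.Mp86.Lop

/-!
# SHI (helper84): the scalar Bernstein–Shi estimate on a manifold, point picking
-/

set_option autoImplicit false
set_option linter.unusedSectionVars false
open Set Filter Topology Metric
open scoped Manifold ContDiff

noncomputable section

namespace Crest.Agent.X212.Shi84

open Mp86

theorem poly4 {s K K' : ℝ} (hK : 0 ≤ K) (hK' : 0 ≤ K') (h : s ^ 4 ≤ K * (1 + s) ^ 3 + K' * s ^ 2) :
    s ≤ 1 + 8 * K + K' := by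
  by_contra hc
  rw [not_le] at hc
  have h1 : 1 ≤ s := by linarith
  have h2 : (1 + s) ^ 3 ≤ 8 * s ^ 3 := by
    calc (1 + s) ^ 3 ≤ (2 * s) ^ 3 := by gcongr; linarith
      _ = 8 * s ^ 3 := by ring
  have h3 : s ^ 2 ≤ s ^ 3 := pow_le_pow_right₀ h1 (by norm_num)
  have h4 : 0 < s ^ 3 := by positivity
  have a1 := mul_le_mul_of_nonneg_left h2 hK
  have a2 := mul_le_mul_of_nonneg_left h3 hK'
  have := le_of_mul_le_mul_right (show s * s ^ 3 ≤ (8 * K + K') * s ^ 3 by linarith) h4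
  linarith

theorem shi_arith {t u R K m ρ L0 L1 J : ℝ} (t0 : 0 ≤ t) (u0 : 0 ≤ u) (hR : u ≤ R ^ 2) (K0 : 0 ≤ K)
    (m0 : 0 ≤ m) (i0 : m * (2 * t ^ 2 - K * (1 + t)) ≤ L0)
    (i1 : m * (2 * ρ ^ 2 - K * (1 + t) * ((1 + t) ^ 2 + ρ)) ≤ L1) (iJ : -(4 * m * R * t ^ 2 * ρ) ≤ J) :
    m * (t ^ 4 - ((33 * R ^ 2 + 1) * (K + K ^ 2) + K) * (1 + t) ^ 3) ≤
      L1 * (32 * R ^ 2 + 1 + u) + t ^ 2 * L0 + 2 * J := by
  have a1 : (1 + t) ^ 2 ≤ (1 + t) ^ 3 := pow_le_pow_right₀ (by linarith) (by norm_num)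
  have a2 : t ^ 2 * (1 + t) ≤ (1 + t) ^ 3 := by nlinarith
  have a3 := mul_le_mul_of_nonneg_left a1 (sq_nonneg K)
  have a4 := mul_le_mul_of_nonneg_left a2 K0
  have b1 : ρ ^ 2 - (K + K ^ 2) * (1 + t) ^ 3 ≤ 2 * ρ ^ 2 - K * (1 + t) * ((1 + t) ^ 2 + ρ) := by
    nlinarith [sq_nonneg (ρ - K * (1 + t) / 2), sq_nonneg (K * (1 + t))]
  have w0 : 0 ≤ (K + K ^ 2) * (1 + t) ^ 3 := by positivity
  have b2 := mul_le_mul_of_nonneg_right ((mul_le_mul_of_nonneg_left b1 m0).trans i1)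
    (show 0 ≤ 32 * R ^ 2 + 1 + u by positivity)
  have b3 := mul_le_mul_of_nonneg_left i0 (sq_nonneg t)
  have b4 : t ^ 4 - ((33 * R ^ 2 + 1) * (K + K ^ 2) + K) * (1 + t) ^ 3 ≤
      (ρ ^ 2 - (K + K ^ 2) * (1 + t) ^ 3) * (32 * R ^ 2 + 1 + u) + t ^ 2 * (2 * t ^ 2 - K * (1 + t))
        - 8 * R * t ^ 2 * ρ := by
    have c1 := mul_le_mul_of_nonneg_left hR w0
    have c2 := mul_nonneg (sq_nonneg ρ) u0
    nlinarith [sq_nonneg (t ^ 2 - 8 * R * ρ), sq_nonneg (t ^ 2), sq_nonneg ρ]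
  have := mul_le_mul_of_nonneg_left b4 m0
  linarith

theorem shi_fin {t q c l m C M Kc Lg g cut : ℝ} (t0 : 0 ≤ t) (hq : q = l * |c|) (l0 : 0 ≤ l) (q1 : q ≤ 1)
    (m0 : 0 < m) (C0 : 0 ≤ C) (M0 : 0 ≤ M) (K0 : 0 ≤ Kc) (g0 : 0 ≤ g) (g1 : g ≤ t ^ 2 * M)
    (i1 : m * (t ^ 4 - C * (1 + t) ^ 3) ≤ Lg) (i2 : c * c * Lg ≤ g * cut) (i3 : l ^ 2 * cut ≤ m * Kc) :
    q * t ≤ 1 + 8 * C + M * Kc := by
  have q0 : 0 ≤ q := by rw [hq]; positivity
  have q2 : q ^ 2 = l ^ 2 * (c * c) := by rw [hq, mul_pow, sq_abs]; ring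
  have a1 := mul_le_mul_of_nonneg_left ((mul_le_mul_of_nonneg_left i1 (mul_self_nonneg c)).trans i2) (sq_nonneg l)
  have a2 := mul_le_mul_of_nonneg_left i3 g0
  have a3 := mul_le_mul_of_nonneg_right g1 (mul_nonneg m0.le K0)
  have a4 : q ^ 2 * (t ^ 4 - C * (1 + t) ^ 3) ≤ t ^ 2 * M * Kc :=
    le_of_mul_le_mul_left (by rw [q2]; linarith) m0
  have a5 : q ^ 4 * (1 + t) ^ 3 ≤ (1 + q * t) ^ 3 := by
    calc q ^ 4 * (1 + t) ^ 3 = q * (q + q * t) ^ 3 := by ring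
      _ ≤ 1 * (1 + q * t) ^ 3 := by gcongr
      _ = _ := one_mul _
  refine poly4 C0 (mul_nonneg M0 K0) ?_
  have a6 := mul_le_mul_of_nonneg_left a4 (sq_nonneg q)
  have a7 := mul_le_mul_of_nonneg_left a5 C0
  linarith

/-- point picking with the scale invariant quantity `s ^ k * m` -/
theorem pick {X : Type*} [PseudoMetricSpace X] [ProperSpace X] {m : X → ℝ} {x₀ : X} {r Λ : ℝ} {k : ℕ}
    (hk : k ≠ 0) (hr : 0 < r) (hc : ContinuousOn m (closedBall x₀ r)) (h0 : ∀ x, 0 ≤ m x) (hΛ : 1 ≤ Λ)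
    (H : ∀ x₁ s, 0 < s → dist x₁ x₀ + 2 * s ≤ r → (∀ x ∈ closedBall x₁ s, s ^ k * m x ≤ 2 ^ k) →
      s ^ k * m x₁ = 1 → 1 ≤ Λ * s) :
    ∀ x ∈ closedBall x₀ (r / 2), r ^ k * m x ≤ (2 * (2 + Λ * r)) ^ k := by
  obtain ⟨x₁, hx₁, hmax⟩ := (isCompact_closedBall x₀ r).exists_isMaxOn ⟨x₀, mem_closedBall_self hr.le⟩
    (f := fun x => (r - dist x x₀) ^ k * m x) (ContinuousOn.mul (by fun_prop) hc)
  set ρ := r - dist x₁ x₀ with hρ
  have ρ0 : 0 ≤ ρ := by have := mem_closedBall.1 hx₁; linarith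
  have ρ1 : ρ ≤ r := by have := dist_nonneg (x := x₁) (y := x₀); linarith
  have Λr : 0 ≤ Λ * r := by positivity
  have half : ∀ x, ∀ τ, 0 ≤ τ → τ / 2 ≤ r - dist x x₀ → τ ^ k * m x ≤ 2 ^ k * (ρ ^ k * m x₁) := fun x τ τ0 hx => by
    have a1 : (r - dist x x₀) ^ k * m x ≤ ρ ^ k * m x₁ := hmax (mem_closedBall.2 (by linarith))
    calc τ ^ k * m x ≤ (2 * (r - dist x x₀)) ^ k * m x := by have := h0 x; gcongr; linarith
      _ ≤ _ := by rw [mul_pow, mul_assoc]; gcongr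
  have le4 : ρ ^ k * m x₁ ≤ (2 + Λ * r) ^ k := by
    by_contra hn
    rw [not_le] at hn
    have m0 : 0 < m x₁ := lt_of_le_of_ne (h0 _) fun h => by
      rw [← h, mul_zero] at hn; exact absurd hn (not_lt.2 (by positivity))
    set s := (m x₁)⁻¹ ^ ((k : ℝ)⁻¹)
    have s0 : 0 < s := by positivity
    have s1 : s ^ k * m x₁ = 1 := by
      rw [Real.rpow_inv_natCast_pow (by positivity) hk, inv_mul_cancel₀ m0.ne']
    have s2 : (2 + Λ * r) * s < ρ := by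
      refine lt_of_pow_lt_pow_left₀ k ρ0 (lt_of_mul_lt_mul_right ?_ m0.le)
      rwa [mul_pow, mul_assoc, s1, mul_one]
    have s3 := mul_nonneg Λr s0.le
    have ρ2 : 0 < ρ := by linarith
    have := H x₁ s s0 (by linarith) (fun x hx => ?_) s1
    · nlinarith [mul_le_mul_of_nonneg_left this hr.le]
    have d1 : dist x x₀ ≤ s + dist x₁ x₀ := by
      have := dist_triangle x x₁ x₀; have := mem_closedBall.1 hx; linarith
    have a3 := half x ρ ρ0 (by linarith)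
    have a4 : m x ≤ 2 ^ k * m x₁ := le_of_mul_le_mul_left (by linarith) (pow_pos ρ2 k)
    calc s ^ k * m x ≤ s ^ k * (2 ^ k * m x₁) := by gcongr
      _ = 2 ^ k * (s ^ k * m x₁) := by ring
      _ = _ := by rw [s1, mul_one]
  intro x hx
  rw [mul_pow]
  exact (half x r hr.le (by have := mem_closedBall.1 hx; linarith)).trans (by gcongr)

variable {E H M : Type*} [NormedAddCommGroup E] [NormedSpace ℝ E] [TopologicalSpace H]
  {I : ModelWithCorners ℝ E H} [TopologicalSpace M] [ChartedSpace H M] [IsManifold I ∞ M]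
  [CompleteSpace E] [BoundarylessManifold I M] {ι : Type*} [Fintype ι]
  {e : ι → Π x : M, TangentSpace I x} {x : M}

/-- cut-off step of the maximum principle -/
theorem cut_max {χ g : M → ℝ} (he : ∀ a, VF I 1 (e a) x) (hχ : CM I 2 χ x) (hg : CM I 2 g x)
    (h0 : χ x ≠ 0) (hm : IsLocalMax (fun y => (χ y * χ y) * g y) x) :
    χ x * χ x * Lop I e 0 g x ≤
      g x * (8 * ∑ a, dv I (e a) χ x ^ 2 - Lop I e 0 (fun y => χ y * χ y) x) := by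
  have hw : CM I 2 (fun y => χ y * χ y) x := hχ.mul hχ
  have hp : CM I 2 (fun y => (χ y * χ y) * g y) x := hw.mul hg
  have a1 := Lop_nonpos (b := 0) he hp hm
  rw [Lop_mul_fun he hw hg] at a1
  have c1 := hχ.md one_le_two
  have a2 : ∑ a, dv I (e a) (fun y => χ y * χ y) x * dv I (e a) g x = -4 * (g x * ∑ a, dv I (e a) χ x ^ 2) := by
    rw [Finset.mul_sum, Finset.mul_sum]
    refine Finset.sum_congr rfl fun a _ => ?_
    have a2 := (dv_dv_nonpos (he a) (hp.ev_md one_le_two) (md_dv hp (he a)) hm).1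
    rw [dv_mul (hw.md one_le_two) (hg.md one_le_two), dv_mul c1 c1] at a2
    have a3 : χ x * dv I (e a) g x = -2 * dv I (e a) χ x * g x := by
      apply mul_left_cancel₀ h0; linarith
    rw [dv_mul c1 c1]
    linear_combination 2 * dv I (e a) χ x * a3
  rw [a2] at a1
  linarith

variable (I e) in
/-- the scalar inequalities for three consecutive jet sizes at a point -/
structure SI (m K R : ℝ) (h0 h1 h2 : M → ℝ) (x : M) : Prop where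
  c0 : CM I 2 h0 x
  c1 : CM I 2 h1 x
  n0 : 0 ≤ h0 x
  n1 : 0 ≤ h1 x
  n2 : 0 ≤ h2 x
  b0 : h0 x ≤ R ^ 2
  l0 : m * (2 * h1 x - K * (1 + √(h1 x))) ≤ Lop I e 0 h0 x
  l1 : m * (2 * h2 x - K * (1 + √(h1 x)) * ((1 + √(h1 x)) ^ 2 + √(h2 x))) ≤ Lop I e 0 h1 x
  g0 : ∑ a, dv I (e a) h0 x ^ 2 ≤ 4 * m * h0 x * h1 x
  g1 : ∑ a, dv I (e a) h1 x ^ 2 ≤ 4 * m * h1 x * h2 x

variable {m K R Kc l : ℝ} {h0 h1 h2 χ : M → ℝ}

/-- Shi's inequality -/
theorem SI.shi (h : SI I e m K R h0 h1 h2 x) (he : ∀ a, VF I 1 (e a) x) (m0 : 0 ≤ m) (K0 : 0 ≤ K) (R0 : 0 ≤ R) :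
    m * (√(h1 x) ^ 4 - ((33 * R ^ 2 + 1) * (K + K ^ 2) + K) * (1 + √(h1 x)) ^ 3) ≤
      Lop I e 0 (fun y => h1 y * (32 * R ^ 2 + 1 + h0 y)) x := by
  have cc : CM I 2 (fun _ : M => 32 * R ^ 2 + 1) x := contMDiffAt_const
  have d : ∀ a, dv I (e a) (fun y => 32 * R ^ 2 + 1 + h0 y) x = dv I (e a) h0 x := fun a => by
    rw [dv_add (cc.md one_le_two) (h.c0.md one_le_two), dv_const, zero_add]
  have c2 : CM I 2 (fun y => 32 * R ^ 2 + 1 + h0 y) x := cc.add h.c0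
  rw [Lop_mul_fun he h.c1 c2, Lop_add he cc h.c0, Lop_const, zero_add]
  simp only [d]
  have e1 := Real.sq_sqrt h.n1
  have e2 := Real.sq_sqrt h.n2
  have := shi_arith (Real.sqrt_nonneg (h1 x)) h.n0 h.b0 K0 m0 (L0 := Lop I e 0 h0 x)
    (by rw [e1]; exact h.l0) (ρ := √(h2 x)) (L1 := Lop I e 0 h1 x) (by rw [e2]; exact h.l1) (J := ∑ a, dv I (e a) h1 x * dv I (e a) h0 x) (neg_le_of_abs_le ?_)
  · rwa [e1] at this
  refine abs_le_of_sq_le_sq ((Finset.sum_mul_sq_le_sq_mul_sq _ _ _).trans ?_) (by positivity)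
  have n1 := h.n1
  have n2 := h.n2
  calc _ ≤ (4 * m * h1 x * h2 x) * (4 * m * R ^ 2 * h1 x) :=
        mul_le_mul h.g1 (h.g0.trans (by have := h.b0; gcongr)) (by positivity) (by positivity)
    _ = _ := by rw [e1, mul_pow, e2]; ring

/-- the constant of the Bernstein–Shi estimate -/
def shiC (K R Kc : ℝ) : ℝ :=
  (1 + 8 * ((33 * R ^ 2 + 1) * (K + K ^ 2) + K) + (33 * R ^ 2 + 1) * Kc) ^ 2 * (33 * R ^ 2 + 1)

/-- **scalar Bernstein–Shi estimate** -/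
theorem shi {S : Set M} (hS : IsCompact S) (he : ∀ a, ∀ x ∈ S, VF I 1 (e a) x) (m0 : 0 < m) (K0 : 0 ≤ K)
    (R0 : 0 ≤ R) (Kc0 : 0 ≤ Kc) (l0 : 0 ≤ l) (h : ∀ x ∈ S, SI I e m K R h0 h1 h2 x)
    (hχ : ∀ x ∈ S, CM I 2 χ x) (h1' : ∀ x ∈ S, l * |χ x| ≤ 1) (hi : ∀ x ∈ S, χ x ≠ 0 → S ∈ 𝓝 x)
    (hc : ∀ x ∈ S, l ^ 2 * (8 * ∑ a, dv I (e a) χ x ^ 2 - Lop I e 0 (fun y => χ y * χ y) x) ≤ m * Kc)
    (hx : x ∈ S) : l ^ 2 * (χ x * χ x * h1 x) ≤ shiC K R Kc := by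
  have cg : ∀ x ∈ S, CM I 2 (fun y => h1 y * (32 * R ^ 2 + 1 + h0 y)) x := fun x hx =>
    (h x hx).c1.mul (contMDiffAt_const.add (h x hx).c0)
  obtain ⟨y, hy, hm⟩ := hS.exists_isMaxOn ⟨x, hx⟩
    (f := fun y => (χ y * χ y) * (h1 y * (32 * R ^ 2 + 1 + h0 y)))
    fun y hy => (((hχ y hy).mul (hχ y hy)).mul (cg y hy)).continuousAt.continuousWithinAt
  have a1 : χ x * χ x * h1 x ≤ (χ y * χ y) * (h1 y * (32 * R ^ 2 + 1 + h0 y)) := by
    refine le_trans (mul_le_mul_of_nonneg_left (le_mul_of_one_le_right (h x hx).n1 ?_) (mul_self_nonneg _)) (hm hx)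
    have := (h x hx).n0; have := sq_nonneg R; linarith
  refine (mul_le_mul_of_nonneg_left a1 (sq_nonneg l)).trans ?_
  by_cases h0' : χ y = 0
  · rw [h0', shiC]; simp only [zero_mul, mul_zero]; positivity
  have hh := h y hy
  have e1 := Real.sq_sqrt hh.n1
  have n0 := hh.n0
  have n1 := hh.n1
  have g1 : h1 y * (32 * R ^ 2 + 1 + h0 y) ≤ √(h1 y) ^ 2 * (33 * R ^ 2 + 1) := by
    rw [e1]; exact mul_le_mul_of_nonneg_left (by have := hh.b0; linarith) n1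
  have a2 := shi_fin (Real.sqrt_nonneg (h1 y)) rfl l0 (h1' y hy) m0 (by positivity) (by positivity) Kc0
    (by positivity) g1 (hh.shi (fun a => he a y hy) m0.le K0 R0)
    (cut_max (fun a => he a y hy) (hχ y hy) (cg y hy) h0' (hm.isLocalMax (hi y hy h0'))) (hc y hy)
  calc _ ≤ l ^ 2 * ((χ y * χ y) * (√(h1 y) ^ 2 * (33 * R ^ 2 + 1))) := by
        have := mul_self_nonneg (χ y); gcongr
    _ = (l * |χ y| * √(h1 y)) ^ 2 * (33 * R ^ 2 + 1) := by rw [mul_pow, mul_pow, sq_abs]; ring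
    _ ≤ _ := by unfold shiC; gcongr

end Crest.Agent.X212.Shi84

end
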